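import Vale.Agent.P176.Setting

set_option linter.unusedSectionVars false
set_option linter.unusedVariables false

/-! The algebra of the machine: positions with a differential, extended by the complex. -/

namespace Vale.Agent.P176

open MulOpposite

universe u v

namespace Setting

variable {k B : Type u} [Field k] [Ring B] [Algebra k B] (S : Setting k B)

/-- Vertex part: one copy of `B` for each position. -/
abbrev Vtx : Type u := Fin (S.l + 1) → B

/-- Arrow part: one copy of `B` for each step down. -/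
def Arr : Type u := Fin S.l → B

noncomputable instance : AddCommGroup S.Arr := inferInstanceAs (AddCommGroup (Fin S.l → B))

/-- An arrow vector as a function. -/
def Arr.val {S : Setting k B} (f : S.Arr) : Fin S.l → B := f

@[ext] theorem Arr.ext {S : Setting k B} {f g : S.Arr} (h : ∀ i, f.val i = g.val i) : f = g :=
  funext h

@[simp] theorem Arr.val_add {S : Setting k B} (f g : S.Arr) (i : Fin S.l) :
    (f + g).val i = f.val i + g.val i := rfl

@[simp] theorem Arr.val_zero {S : Setting k B} (i : Fin S.l) : (0 : S.Arr).val i = 0 := rfl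

noncomputable instance : Module S.Vtx S.Arr where
  smul b f := fun i => b i.castSucc * f.val i
  one_smul f := funext fun i => one_mul _
  mul_smul b c f := funext fun i => mul_assoc _ _ _
  smul_zero b := funext fun i => mul_zero _
  smul_add b f g := funext fun i => mul_add _ _ _
  add_smul b c f := funext fun i => add_mul _ _ _
  zero_smul f := funext fun i => zero_mul _

noncomputable instance : Module (S.Vtx)ᵐᵒᵖ S.Arr where
  smul b f := fun i => f.val i * b.unop i.succ
  one_smul f := funext fun i => mul_one _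
  mul_smul b c f := funext fun i => (mul_assoc _ _ _).symm
  smul_zero b := funext fun i => zero_mul _
  smul_add b f g := funext fun i => add_mul _ _ _
  add_smul b c f := funext fun i => mul_add _ _ _
  zero_smul f := funext fun i => mul_zero _

@[simp] theorem smul_arr (b : S.Vtx) (f : S.Arr) (i : Fin S.l) :
    (b • f).val i = b i.castSucc * f.val i := rfl

@[simp] theorem op_smul_arr (b : (S.Vtx)ᵐᵒᵖ) (f : S.Arr) (i : Fin S.l) :
    (b • f).val i = f.val i * b.unop i.succ := rfl

instance : SMulCommClass S.Vtx (S.Vtx)ᵐᵒᵖ S.Arr :=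
  ⟨fun b c f => Arr.ext fun i => by simp [mul_assoc]⟩

/-- The incidence algebra of the positions, with square zero differential. -/
abbrev A0 : Type u := TrivSqZeroExt S.Vtx S.Arr

/-- Apply a vertex vector cellwise by the left action. -/
def R (v : S.Vtx) : Matrix S.Cell S.Cell B := fun c j => S.ρ (v (S.deg c)) c j

/-- An arrow vector extended by zero at the top position. -/
def up (f : S.Arr) : S.Vtx := fun i => if h : (i : ℕ) < S.l then f.val ⟨i, h⟩ else 0

/-- A vertex vector shifted by one position. -/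
def shift (w : S.Vtx) : S.Vtx :=
  fun i => if h : (i : ℕ) < S.l then w ⟨i + 1, Nat.succ_lt_succ h⟩ else 0

theorem R_one : S.R 1 = Matrix.diagonal S.ev := by
  ext c j; simp [R, S.ρ_one]

theorem R_add (v w : S.Vtx) : S.R (v + w) = S.R v + S.R w := by
  ext c j; simp [R]

theorem R_zero : S.R 0 = 0 := by
  ext c j; simp [R]

theorem R_mul (v w : S.Vtx) : S.R v * S.R w = S.R (v * w) := by
  ext c m
  simp only [R, Matrix.mul_apply, Pi.mul_apply, S.ρ_mul]
  refine Finset.sum_congr rfl fun j _ => ?_
  by_cases h : S.deg c = S.deg j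
  · rw [h]
  · rw [S.ρ_deg _ c j h, zero_mul, zero_mul]

theorem D_R (w : S.Vtx) : S.D * S.R w = S.R (S.shift w) * S.D := by
  ext c m
  by_cases hc : (S.deg c : ℕ) < S.l
  · have e : S.shift w (S.deg c) = w ⟨S.deg c + 1, Nat.succ_lt_succ hc⟩ := dif_pos hc
    have hR : (S.R (S.shift w) * S.D) c m
        = (S.ρ (w ⟨S.deg c + 1, Nat.succ_lt_succ hc⟩) * S.D) c m := by
      simp only [R, Matrix.mul_apply, e]
    rw [hR, ← S.D_ρ, Matrix.mul_apply, Matrix.mul_apply]
    refine Finset.sum_congr rfl fun j _ => ?_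
    by_cases hj : (S.deg c : ℕ) + 1 = S.deg j
    · have : S.deg j = ⟨S.deg c + 1, Nat.succ_lt_succ hc⟩ := Fin.ext hj.symm
      simp [R, this]
    · rw [S.D_deg c j hj, zero_mul, zero_mul]
  · have e : S.shift w (S.deg c) = 0 := dif_neg hc
    rw [Matrix.mul_apply, Matrix.mul_apply]
    refine (Finset.sum_eq_zero fun j _ => ?_).trans
      (Finset.sum_eq_zero fun j _ => by simp [R, e]).symm
    have hj : (S.deg c : ℕ) + 1 ≠ S.deg j := by
      have := (S.deg j).isLt
      omega
    rw [S.D_deg c j hj, zero_mul]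

theorem up_add (f g : S.Arr) : S.up (f + g) = S.up f + S.up g := by
  funext i; simp only [up, Pi.add_apply]; split_ifs <;> simp

theorem up_zero : S.up 0 = 0 := by
  funext i; simp only [up, Pi.zero_apply]; split_ifs <;> simp

theorem up_smul (b : S.Vtx) (f : S.Arr) : S.up (b • f) = b * S.up f := by
  funext i; simp only [up, Pi.mul_apply]
  split_ifs with h
  · rw [smul_arr]; rfl
  · simp

theorem up_op_smul (b : S.Vtx) (f : S.Arr) : S.up (op b • f) = S.up f * S.shift b := by
  funext i; simp only [up, shift, Pi.mul_apply]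
  split_ifs with h
  · rw [op_smul_arr]; rfl
  · simp

/-- The action of `A0` on the complex, as a matrix. -/
def Φ (a : S.A0) : Matrix S.Cell S.Cell B := S.R a.fst + S.R (S.up a.snd) * S.D

theorem Φ_one : S.Φ 1 = Matrix.diagonal S.ev := by
  simp [Φ, R_one, up_zero, R_zero]

theorem Φ_zero : S.Φ 0 = 0 := by
  simp [Φ, up_zero, R_zero]

theorem Φ_add (a b : S.A0) : S.Φ (a + b) = S.Φ a + S.Φ b := by
  simp only [Φ, TrivSqZeroExt.fst_add, TrivSqZeroExt.snd_add, up_add, R_add, add_mul]
  abel

theorem Φ_mul (a b : S.A0) : S.Φ a * S.Φ b = S.Φ (a * b) := by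
  simp only [Φ, TrivSqZeroExt.fst_mul, TrivSqZeroExt.snd_mul, up_add, R_add, up_smul,
    up_op_smul, add_mul, mul_add]
  have h1 : S.R a.fst * (S.R (S.up b.snd) * S.D) = S.R (a.fst * S.up b.snd) * S.D := by
    rw [← Matrix.mul_assoc, R_mul]
  have h2 : S.R (S.up a.snd) * S.D * S.R b.fst
      = S.R (S.up a.snd * S.shift b.fst) * S.D := by
    rw [Matrix.mul_assoc, D_R, ← Matrix.mul_assoc, R_mul]
  have h3 : S.R (S.up a.snd) * S.D * (S.R (S.up b.snd) * S.D) = 0 := by
    rw [← Matrix.mul_assoc, Matrix.mul_assoc (S.R (S.up a.snd)), D_R, Matrix.mul_assoc,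
      Matrix.mul_assoc (S.R (S.shift _)), S.D_sq, Matrix.mul_zero, Matrix.mul_zero]
  rw [R_mul, h1, h2, h3]
  abel

theorem Φ_comm_one (a : S.A0) :
    S.Φ a * Matrix.diagonal S.ev = Matrix.diagonal S.ev * S.Φ a := by
  rw [← Φ_one, Φ_mul, Φ_mul, mul_one, one_mul]

section

variable (U : Type v) [AddCommGroup U] [Module B U]

noncomputable instance : SMul S.A0 (S.F U) :=
  ⟨fun a z => ⟨S.mv (S.Φ a) z.1, S.mv_mem (S.Φ_comm_one a) z⟩⟩

variable {U}

theorem a0_smul_val (a : S.A0) (z : S.F U) : (a • z).1 = S.mv (S.Φ a) z.1 := rfl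

theorem mv_add (M : Matrix S.Cell S.Cell B) (f g : S.Cell → U) :
    S.mv M (f + g) = S.mv M f + S.mv M g := by
  funext i; simp [mv, Finset.sum_add_distrib]

theorem mv_zero (M : Matrix S.Cell S.Cell B) : S.mv M (0 : S.Cell → U) = 0 := by
  funext i; simp [mv]

theorem add_mv (M N : Matrix S.Cell S.Cell B) (f : S.Cell → U) :
    S.mv (M + N) f = S.mv M f + S.mv N f := by
  funext i; simp [mv, add_smul, Finset.sum_add_distrib]

theorem zero_mv (f : S.Cell → U) : S.mv (0 : Matrix S.Cell S.Cell B) f = 0 := by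
  funext i; simp [mv]

noncomputable instance : Module S.A0 (S.F U) where
  one_smul z := Subtype.ext <| by rw [a0_smul_val, Φ_one, mv_ev]
  mul_smul a b z := Subtype.ext <| by rw [a0_smul_val, a0_smul_val, a0_smul_val, mv_mv, Φ_mul]
  smul_zero a := Subtype.ext <| S.mv_zero _
  smul_add a x y := Subtype.ext <| S.mv_add _ _ _
  add_smul a b z := Subtype.ext <| by
    show S.mv (S.Φ (a + b)) z.1 = S.mv (S.Φ a) z.1 + S.mv (S.Φ b) z.1
    rw [Φ_add, add_mv]
  zero_smul z := Subtype.ext <| by
    show S.mv (S.Φ 0) z.1 = 0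
    rw [Φ_zero, zero_mv]

end

/-- Right multiplication on `X = X ⊗ B` through position zero. -/
noncomputable instance : SMul (S.A0)ᵐᵒᵖ (S.F B) :=
  ⟨fun a z => ⟨fun i => z.1 i * a.unop.fst 0, fun i => by
    show S.ev i * (z.1 i * a.unop.fst 0) = z.1 i * a.unop.fst 0
    rw [← mul_assoc]
    exact congrArg (· * _) (z.2 i)⟩⟩

theorem op_smul_F (a : (S.A0)ᵐᵒᵖ) (z : S.F B) (i : S.Cell) :
    (a • z).1 i = z.1 i * a.unop.fst 0 := rfl

noncomputable instance : Module (S.A0)ᵐᵒᵖ (S.F B) where
  one_smul z := Subtype.ext <| funext fun i => by simp [op_smul_F]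
  mul_smul a b z := Subtype.ext <| funext fun i => by simp [op_smul_F, mul_assoc]
  smul_zero a := Subtype.ext <| funext fun i => zero_mul _
  smul_add a x y := Subtype.ext <| funext fun i => add_mul _ _ _
  add_smul a b z := Subtype.ext <| funext fun i => by
    show z.1 i * (a + b).unop.fst 0 = z.1 i * a.unop.fst 0 + z.1 i * b.unop.fst 0
    simp [mul_add]
  zero_smul z := Subtype.ext <| funext fun i => by
    show z.1 i * (0 : (S.A0)ᵐᵒᵖ).unop.fst 0 = 0
    simp

instance : SMulCommClass S.A0 (S.A0)ᵐᵒᵖ (S.F B) :=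
  ⟨fun a b z => Subtype.ext <| funext fun i => by
    show ∑ j, S.Φ a i j * (z.1 j * b.unop.fst 0) = (∑ j, S.Φ a i j * z.1 j) * b.unop.fst 0
    rw [Finset.sum_mul]
    exact Finset.sum_congr rfl fun j _ => (mul_assoc _ _ _).symm⟩

/-- The algebra of the machine. -/
abbrev Alg : Type u := TrivSqZeroExt S.A0 (S.F B)

/-- A scalar as an element of `A0`. -/
noncomputable def scalar0 : k →+* S.A0 :=
  (TrivSqZeroExt.inlHom S.Vtx S.Arr).comp (RingHom.pi fun _ => algebraMap k B)

theorem scalar0_fst (c : k) (i : Fin (S.l + 1)) : (S.scalar0 c).fst i = algebraMap k B c := rfl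

theorem scalar0_snd (c : k) : (S.scalar0 c).snd = 0 := rfl

theorem scalar0_comm (c : k) (x : S.A0) : S.scalar0 c * x = x * S.scalar0 c := by
  refine TrivSqZeroExt.ext ?_ ?_
  · funext i
    simp only [TrivSqZeroExt.fst_mul, Pi.mul_apply, scalar0_fst]
    exact Algebra.commutes c _
  · ext i
    simp [TrivSqZeroExt.snd_mul, scalar0_fst, scalar0_snd, Algebra.commutes]

theorem scalar0_F (c : k) (z : S.F B) : S.scalar0 c • z = op (S.scalar0 c) • z := by
  refine Subtype.ext <| funext fun i => ?_
  show ∑ j, S.Φ (S.scalar0 c) i j * z.1 j = z.1 i * (S.scalar0 c).fst 0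
  have e : ∀ j, S.Φ (S.scalar0 c) i j = c • Matrix.diagonal S.ev i j := fun j => by
    simp [Φ, scalar0_snd, up_zero, R_zero, R, scalar0_fst, Algebra.algebraMap_eq_smul_one,
      S.ρ_one]
  rw [Finset.sum_eq_single i (fun j _ hj => by simp [e, Ne.symm hj])
    (fun h => absurd (Finset.mem_univ i) h), e, Matrix.diagonal_apply_eq, scalar0_fst,
    ← Algebra.commutes, Algebra.algebraMap_eq_smul_one, smul_one_mul, smul_mul_assoc]
  exact congrArg _ (z.2 i)

/-- Scalars in the algebra. -/
noncomputable def scalar : k →+* S.Alg := (TrivSqZeroExt.inlHom S.A0 (S.F B)).comp S.scalar0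

noncomputable instance : Algebra k S.Alg :=
  S.scalar.toAlgebra' fun c x => by
    refine TrivSqZeroExt.ext ?_ ?_
    · exact S.scalar0_comm c x.fst
    · show (S.scalar c * x).snd = (x * S.scalar c).snd
      simp [TrivSqZeroExt.snd_mul, scalar, scalar0_F]

theorem algebraMap_alg (c : k) : algebraMap k S.Alg c = S.scalar c := rfl

theorem finite_alg [Module.Finite k B] : Module.Finite k S.Alg := by
  let φ : S.Alg →ₗ[k] (Fin (S.l + 1) → B) × (Fin S.l → B) × (S.Cell → B) :=
    { toFun := fun x => (x.fst.fst, x.fst.snd.val, x.snd.1)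
      map_add' := fun x y => rfl
      map_smul' := fun c x => by
        rw [Algebra.smul_def, algebraMap_alg, RingHom.id_apply]
        refine Prod.ext ?_ (Prod.ext ?_ ?_)
        · funext i
          show algebraMap k B c * x.fst.fst i = c • x.fst.fst i
          rw [Algebra.smul_def]
        · funext i
          show ((S.scalar c * x).fst.snd).val i = c • x.fst.snd.val i
          simp [TrivSqZeroExt.snd_mul, scalar, scalar0_snd, scalar0_fst, Algebra.smul_def]
        · funext i
          show ((S.scalar c * x).snd).1 i = c • x.snd.1 i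
          simp [TrivSqZeroExt.snd_mul, scalar, scalar0_F, op_smul_F, scalar0_fst,
            Algebra.smul_def, Algebra.commutes] }
  refine Module.Finite.of_injective φ fun x y h => ?_
  have h' : (x.fst.fst, x.fst.snd.val, x.snd.1) = (y.fst.fst, y.fst.snd.val, y.snd.1) := h
  obtain ⟨h1, h2⟩ := Prod.mk.inj h'
  obtain ⟨h2, h3⟩ := Prod.mk.inj h2
  exact TrivSqZeroExt.ext (TrivSqZeroExt.ext h1 (Arr.ext (congrFun h2))) (Subtype.ext h3)

end Setting

end Vale.Agent.P176
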