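import Vale.Agent.P176.AlgA

set_option linter.unusedSectionVars false
set_option linter.unusedVariables false

/-! Modules over the algebra of the machine, their maps, and projectivity. -/

namespace Vale.Agent.P176

open MulOpposite

universe u v

namespace Setting

variable {k B : Type u} [Field k] [Ring B] [Algebra k B] (S : Setting k B)

/-- Forget the complex. -/
def fst0 : S.Alg →+* S.A0 where
  toFun x := x.fst
  map_one' := rfl
  map_mul' x y := TrivSqZeroExt.fst_mul x y
  map_zero' := rfl
  map_add' x y := rfl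

/-- The component at a position. -/
def pos (i : Fin (S.l + 1)) : S.Alg →+* B where
  toFun x := x.fst.fst i
  map_one' := rfl
  map_mul' x y := by simp
  map_zero' := rfl
  map_add' x y := rfl

theorem pos_apply (i : Fin (S.l + 1)) (x : S.Alg) : S.pos i x = x.fst.fst i := rfl

/-- A constant vertex vector as an element of the algebra. -/
noncomputable def vtx : B →+* S.Alg :=
  (TrivSqZeroExt.inlHom S.A0 (S.F B)).comp
    ((TrivSqZeroExt.inlHom S.Vtx S.Arr).comp (RingHom.pi fun _ => RingHom.id B))

theorem pos_vtx (i : Fin (S.l + 1)) (b : B) : S.pos i (S.vtx b) = b := rfl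

theorem vtx_scalar (c : k) : S.vtx (algebraMap k B c) = algebraMap k S.Alg c := rfl

theorem ev_idem (c : S.Cell) : S.ev c * S.ev c = S.ev c := by
  have h := congrFun (congrFun (S.ρ_mul 1 1) c) c
  simp only [mul_one, S.ρ_one, Matrix.diagonal_mul_diagonal, Matrix.diagonal_apply_eq] at h
  exact h.symm

section Row

variable (U : Type u) [AddCommGroup U] [Module B U]

noncomputable instance instRow : Module S.Alg (S.F U) := Module.compHom (S.F U) S.fst0

variable {U}

theorem alg_smul_F (x : S.Alg) (z : S.F U) : x • z = x.fst • z := rfl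

variable {V : Type u} [AddCommGroup V] [Module B V]

/-- Functoriality of the complex. -/
noncomputable def mapF (f : U →ₗ[B] V) : S.F U →ₗ[S.Alg] S.F V where
  toFun z := ⟨fun c => f (z.1 c), fun c => by rw [← f.map_smul, z.2 c]⟩
  map_add' z w := Subtype.ext <| funext fun c => f.map_add _ _
  map_smul' x z := Subtype.ext <| funext fun c => by
    show f (∑ j, S.Φ x.fst c j • z.1 j) = ∑ j, S.Φ x.fst c j • f (z.1 j)
    simp

theorem mapF_apply (f : U →ₗ[B] V) (z : S.F U) (c : S.Cell) : (S.mapF f z).1 c = f (z.1 c) := rfl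

end Row

/-- A module concentrated at one position. -/
def Pt (i : Fin (S.l + 1)) (U : Type u) : Type u := U

section Pt

variable (i : Fin (S.l + 1)) {U V : Type u} [AddCommGroup U] [Module B U] [AddCommGroup V]
  [Module B V]

noncomputable instance : AddCommGroup (S.Pt i U) := inferInstanceAs (AddCommGroup U)

/-- The element of the underlying module. -/
def Pt.out {S : Setting k B} {i : Fin (S.l + 1)} {U : Type u} (u : S.Pt i U) : U := u

/-- An element of the underlying module, put at the position. -/
def Pt.mk {S : Setting k B} {i : Fin (S.l + 1)} {U : Type u} (u : U) : S.Pt i U := u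

noncomputable instance : Module S.Alg (S.Pt i U) :=
  let _ : Module B (S.Pt i U) := inferInstanceAs (Module B U)
  Module.compHom (S.Pt i U) (S.pos i)

theorem Pt.smul_out (x : S.Alg) (u : S.Pt i U) : (x • u).out = S.pos i x • u.out := rfl

/-- Functoriality at a position. -/
noncomputable def mapPt (f : U →ₗ[B] V) : S.Pt i U →ₗ[S.Alg] S.Pt i V where
  toFun u := Pt.mk (f u.out)
  map_add' u v := f.map_add _ _
  map_smul' x u := f.map_smul (S.pos i x) u.out

end Pt

/-- The projective cover of a position zero module: the module and its complex. -/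
def Wt (U : Type u) [AddCommGroup U] [Module B U] : Type u := U × S.F U

section Wt

variable {U V : Type u} [AddCommGroup U] [Module B U] [AddCommGroup V] [Module B V]

noncomputable instance : AddCommGroup (S.Wt U) := inferInstanceAs (AddCommGroup (U × S.F U))

/-- An element of the complex of `B` acting on a module. -/
def act (ch : S.F B) (u : U) : S.F U :=
  ⟨fun c => ch.1 c • u, fun c => by
    rw [smul_smul]; exact congrArg (· • u) (ch.2 c)⟩

theorem act_apply (ch : S.F B) (u : U) (c : S.Cell) : (S.act ch u).1 c = ch.1 c • u := rfl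

/-- Pairs as elements. -/
def Wt.mk {S : Setting k B} {U : Type u} [AddCommGroup U] [Module B U] (u : U) (z : S.F U) :
    S.Wt U := (u, z)

/-- The position zero component. -/
def Wt.hd {S : Setting k B} {U : Type u} [AddCommGroup U] [Module B U] (w : S.Wt U) : U :=
  (w : U × S.F U).1

/-- The complex component. -/
def Wt.tl {S : Setting k B} {U : Type u} [AddCommGroup U] [Module B U] (w : S.Wt U) : S.F U :=
  (w : U × S.F U).2

theorem Wt.ext {w w' : S.Wt U} (h : w.hd = w'.hd) (h' : ∀ c, w.tl.1 c = w'.tl.1 c) : w = w' :=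
  Prod.ext (x := (w : U × S.F U)) (y := (w' : U × S.F U)) h (Subtype.ext (funext h'))

@[simp] theorem Wt.hd_mk (u : U) (z : S.F U) : (Wt.mk u z : S.Wt U).hd = u := rfl

@[simp] theorem Wt.tl_mk (u : U) (z : S.F U) : (Wt.mk u z : S.Wt U).tl = z := rfl

@[simp] theorem Wt.hd_add (w w' : S.Wt U) : (w + w').hd = w.hd + w'.hd := rfl

@[simp] theorem Wt.tl_add (w w' : S.Wt U) : (w + w').tl = w.tl + w'.tl := rfl

noncomputable instance : SMul S.Alg (S.Wt U) :=
  ⟨fun x w => Wt.mk (S.pos 0 x • w.hd) (x.fst • w.tl + S.act x.snd w.hd)⟩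

theorem Wt.smul_hd (x : S.Alg) (w : S.Wt U) : (x • w).hd = S.pos 0 x • w.hd := rfl

theorem Wt.smul_tl (x : S.Alg) (w : S.Wt U) (c : S.Cell) :
    (x • w).tl.1 c = ∑ j, S.Φ x.fst c j • w.tl.1 j + x.snd.1 c • w.hd := rfl

noncomputable instance : Module S.Alg (S.Wt U) where
  one_smul w := Wt.ext S (one_smul B w.hd) fun c => by
    rw [Wt.smul_tl]
    show (((1 : S.A0) • w.tl).1 c) + (0 : B) • w.hd = _
    rw [one_smul, zero_smul, add_zero]
  mul_smul x y w := Wt.ext S (by rw [Wt.smul_hd, Wt.smul_hd, Wt.smul_hd, map_mul, mul_smul])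
    fun c => by
      rw [Wt.smul_tl]
      show (((x * y).fst • w.tl).1 c) + (x * y).snd.1 c • w.hd
        = (x.fst • ((y • w).tl)).1 c + x.snd.1 c • (S.pos 0 y • w.hd)
      rw [TrivSqZeroExt.fst_mul, TrivSqZeroExt.snd_mul, mul_smul,
        show (y • w).tl = y.fst • w.tl + S.act y.snd w.hd from rfl, smul_add]
      show _ + ((∑ j, S.Φ x.fst c j * y.snd.1 j) + x.snd.1 c * y.fst.fst 0) • w.hd
        = _ + (∑ j, S.Φ x.fst c j • (y.snd.1 j • w.hd)) + _
      rw [add_smul, Finset.sum_smul, mul_smul]
      simp only [mul_smul]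
      rw [← add_assoc]
      rfl
  smul_zero x := Wt.ext S (smul_zero _) fun c => by
    rw [Wt.smul_tl]
    show (∑ j, S.Φ x.fst c j • (0 : U)) + x.snd.1 c • (0 : U) = 0
    simp
  smul_add x w w' := Wt.ext S (smul_add _ _ _) fun c => by
    rw [Wt.smul_tl]
    show (∑ j, S.Φ x.fst c j • (w.tl.1 j + w'.tl.1 j)) + x.snd.1 c • (w.hd + w'.hd)
      = (x • w).tl.1 c + (x • w').tl.1 c
    simp only [smul_add, Finset.sum_add_distrib, Wt.smul_tl]
    abel
  add_smul x y w := Wt.ext S (by rw [Wt.smul_hd, map_add, add_smul]; rfl) fun c => by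
    rw [Wt.smul_tl]
    show (∑ j, S.Φ (x.fst + y.fst) c j • w.tl.1 j) + (x.snd.1 c + y.snd.1 c) • w.hd
      = (x • w).tl.1 c + (y • w).tl.1 c
    simp only [Φ_add, Matrix.add_apply, add_smul, Finset.sum_add_distrib, Wt.smul_tl]
    abel
  zero_smul w := Wt.ext S (zero_smul B w.hd) fun c => by
    rw [Wt.smul_tl]
    show (((0 : S.A0) • w.tl).1 c) + (0 : B) • w.hd = 0
    rw [zero_smul, zero_smul, add_zero]
    rfl

/-- Functoriality of the cover. -/
noncomputable def mapWt (f : U →ₗ[B] V) : S.Wt U →ₗ[S.Alg] S.Wt V where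
  toFun w := Wt.mk (f w.hd) (S.mapF f w.tl)
  map_add' w w' := Wt.ext S (f.map_add _ _) fun c => f.map_add _ _
  map_smul' x w := Wt.ext S (f.map_smul _ _) fun c => by
    show f (∑ j, S.Φ x.fst c j • w.tl.1 j + x.snd.1 c • w.hd)
      = ∑ j, S.Φ x.fst c j • f (w.tl.1 j) + x.snd.1 c • f w.hd
    simp

theorem mapWt_hd (f : U →ₗ[B] V) (w : S.Wt U) : (S.mapWt f w).hd = f w.hd := rfl

theorem mapWt_tl (f : U →ₗ[B] V) (w : S.Wt U) (c : S.Cell) :
    (S.mapWt f w).tl.1 c = f (w.tl.1 c) := rfl

end Wt

/-- The disc between two adjacent positions. -/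
def Disc (j : Fin S.l) (U : Type u) : Type u := U × U

section Disc

variable (j : Fin S.l) {U V : Type u} [AddCommGroup U] [Module B U] [AddCommGroup V] [Module B V]

noncomputable instance : AddCommGroup (S.Disc j U) := inferInstanceAs (AddCommGroup (U × U))

/-- Pairs as elements. -/
def Disc.mk {S : Setting k B} {j : Fin S.l} {U : Type u} (u v : U) : S.Disc j U := (u, v)

/-- The upper component. -/
def Disc.hi {S : Setting k B} {j : Fin S.l} {U : Type u} (w : S.Disc j U) : U := (w : U × U).1

/-- The lower component. -/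
def Disc.lo {S : Setting k B} {j : Fin S.l} {U : Type u} (w : S.Disc j U) : U := (w : U × U).2

theorem Disc.ext {w w' : S.Disc j U} (h : w.hi = w'.hi) (h' : w.lo = w'.lo) : w = w' :=
  Prod.ext (x := (w : U × U)) (y := (w' : U × U)) h h'

@[simp] theorem Disc.hi_mk (u v : U) : (Disc.mk u v : S.Disc j U).hi = u := rfl

@[simp] theorem Disc.lo_mk (u v : U) : (Disc.mk u v : S.Disc j U).lo = v := rfl

@[simp] theorem Disc.hi_add (w w' : S.Disc j U) : (w + w').hi = w.hi + w'.hi := rfl

@[simp] theorem Disc.lo_add (w w' : S.Disc j U) : (w + w').lo = w.lo + w'.lo := rfl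

noncomputable instance : SMul S.Alg (S.Disc j U) :=
  ⟨fun x w => Disc.mk (S.pos j.succ x • w.hi)
    (S.pos j.castSucc x • w.lo + x.fst.snd.val j • w.hi)⟩

theorem Disc.smul_hi (x : S.Alg) (w : S.Disc j U) : (x • w).hi = S.pos j.succ x • w.hi := rfl

theorem Disc.smul_lo (x : S.Alg) (w : S.Disc j U) :
    (x • w).lo = S.pos j.castSucc x • w.lo + x.fst.snd.val j • w.hi := rfl

noncomputable instance : Module S.Alg (S.Disc j U) where
  one_smul w := Disc.ext S j (one_smul B w.hi) (by
    show (1 : B) • w.lo + (0 : B) • w.hi = w.lo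
    simp)
  mul_smul x y w := Disc.ext S j (by simp only [Disc.smul_hi, map_mul, mul_smul]) (by
    simp only [Disc.smul_hi, Disc.smul_lo, map_mul, mul_smul, TrivSqZeroExt.fst_mul,
      TrivSqZeroExt.snd_mul, smul_add, Arr.val_add, smul_arr, op_smul_arr, unop_op, add_smul,
      pos_apply]
    abel)
  smul_zero x := Disc.ext S j (smul_zero _) (by
    show _ • (0 : U) + _ • (0 : U) = 0
    simp)
  smul_add x w w' := Disc.ext S j (smul_add _ _ _) (by
    show _ • (w.lo + w'.lo) + _ • (w.hi + w'.hi) = (x • w).lo + (x • w').lo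
    simp only [smul_add, Disc.smul_lo]
    abel)
  add_smul x y w := Disc.ext S j (by rw [Disc.smul_hi, map_add, add_smul]; rfl) (by
    show S.pos j.castSucc (x + y) • w.lo + (x.fst.snd.val j + y.fst.snd.val j) • w.hi
      = (x • w).lo + (y • w).lo
    simp only [map_add, add_smul, Disc.smul_lo]
    abel)
  zero_smul w := Disc.ext S j (zero_smul B w.hi) (by
    show (0 : B) • w.lo + (0 : B) • w.hi = 0
    simp)

/-- Functoriality of the disc. -/
noncomputable def mapDisc (f : U →ₗ[B] V) : S.Disc j U →ₗ[S.Alg] S.Disc j V where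
  toFun w := Disc.mk (f w.hi) (f w.lo)
  map_add' w w' := Disc.ext S j (f.map_add _ _) (f.map_add _ _)
  map_smul' x w := Disc.ext S j (f.map_smul _ _) (by
    show f (S.pos j.castSucc x • w.lo + x.fst.snd.val j • w.hi)
      = S.pos j.castSucc x • f w.lo + x.fst.snd.val j • f w.hi
    simp)

theorem mapDisc_hi (f : U →ₗ[B] V) (w : S.Disc j U) : (S.mapDisc j f w).hi = f w.hi := rfl

theorem mapDisc_lo (f : U →ₗ[B] V) (w : S.Disc j U) : (S.mapDisc j f w).lo = f w.lo := rfl

end Disc

section Exact

variable {X Y Z : Type u} [AddCommGroup X] [Module B X] [AddCommGroup Y] [Module B Y]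
  [AddCommGroup Z] [Module B Z] {f : X →ₗ[B] Y} {g : Y →ₗ[B] Z}

theorem mapF_inj (hf : Function.Injective f) : Function.Injective (S.mapF f) := fun a b h =>
  Subtype.ext <| funext fun c => hf (congrFun (congrArg Subtype.val h) c)

theorem mapF_surj (hg : Function.Surjective g) : Function.Surjective (S.mapF g) := fun z => by
  choose y hy using fun c => hg (z.1 c)
  refine ⟨⟨fun c => S.ev c • y c, fun c => by rw [smul_smul, S.ev_idem]⟩,
    Subtype.ext <| funext fun c => ?_⟩
  rw [mapF_apply]
  show g (S.ev c • y c) = _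
  rw [g.map_smul, hy, z.2]

theorem mapF_exact (h : Function.Exact f g) : Function.Exact (S.mapF f) (S.mapF g) := by
  intro z
  constructor
  · intro hz
    choose y hy using fun c => (h (z.1 c)).1 (congrFun (congrArg Subtype.val hz) c)
    refine ⟨⟨fun c => S.ev c • y c, fun c => by rw [smul_smul, S.ev_idem]⟩,
      Subtype.ext <| funext fun c => ?_⟩
    rw [mapF_apply]
    show f (S.ev c • y c) = _
    rw [f.map_smul, hy, z.2]
  · rintro ⟨y, rfl⟩
    exact Subtype.ext <| funext fun c => h.apply_apply_eq_zero _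

theorem mapWt_inj (hf : Function.Injective f) : Function.Injective (S.mapWt f) := fun a b h =>
  Wt.ext S (hf (congrArg Wt.hd h))
    fun c => hf (congrArg (fun w : S.Wt Y => w.tl.1 c) h)

theorem mapWt_surj (hg : Function.Surjective g) : Function.Surjective (S.mapWt g) := fun w => by
  obtain ⟨u, hu⟩ := hg w.hd
  obtain ⟨z, hz⟩ := S.mapF_surj hg w.tl
  exact ⟨Wt.mk u z, Wt.ext S hu fun c => congrFun (congrArg Subtype.val hz) c⟩

theorem mapWt_exact (h : Function.Exact f g) : Function.Exact (S.mapWt f) (S.mapWt g) := by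
  intro w
  constructor
  · intro hw
    obtain ⟨u, hu⟩ := (h w.hd).1 (congrArg Wt.hd hw)
    obtain ⟨z, hz⟩ := (S.mapF_exact h w.tl).1 (congrArg Wt.tl hw)
    exact ⟨Wt.mk u z, Wt.ext S hu fun c => congrFun (congrArg Subtype.val hz) c⟩
  · rintro ⟨y, rfl⟩
    exact Wt.ext S (h.apply_apply_eq_zero _) fun c => h.apply_apply_eq_zero _

theorem mapDisc_inj (j : Fin S.l) (hf : Function.Injective f) :
    Function.Injective (S.mapDisc j f) := fun a b h =>
  Disc.ext S j (hf (congrArg Disc.hi h)) (hf (congrArg Disc.lo h))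

theorem mapDisc_surj (j : Fin S.l) (hg : Function.Surjective g) :
    Function.Surjective (S.mapDisc j g) := fun w => by
  obtain ⟨u, hu⟩ := hg w.hi
  obtain ⟨v, hv⟩ := hg w.lo
  exact ⟨Disc.mk u v, Disc.ext S j hu hv⟩

theorem mapDisc_exact (j : Fin S.l) (h : Function.Exact f g) :
    Function.Exact (S.mapDisc j f) (S.mapDisc j g) := by
  intro w
  constructor
  · intro hw
    obtain ⟨u, hu⟩ := (h w.hi).1 (congrArg Disc.hi hw)
    obtain ⟨v, hv⟩ := (h w.lo).1 (congrArg Disc.lo hw)
    exact ⟨Disc.mk u v, Disc.ext S j hu hv⟩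
  · rintro ⟨y, rfl⟩
    exact Disc.ext S j (h.apply_apply_eq_zero _) (h.apply_apply_eq_zero _)

end Exact

/-- A module split by coordinates into the algebra is projective. -/
theorem projective_of_coords {M : Type u} [AddCommGroup M] [Module S.Alg M] {ι : Type u}
    (s : ι → M →ₗ[S.Alg] S.Alg) (m : ι → M) (hfin : ∀ w, {p | s p w ≠ 0}.Finite)
    (hsum : ∀ w (T : Finset ι), (∀ p, s p w ≠ 0 → p ∈ T) → ∑ p ∈ T, s p w • m p = w) :
    Module.Projective S.Alg M := by
  classical
  let i : M →ₗ[S.Alg] (ι →₀ S.Alg) :=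
    { toFun := fun w => Finsupp.onFinset (hfin w).toFinset (fun p => s p w)
        fun p hp => (hfin w).mem_toFinset.2 hp
      map_add' := fun w w' => Finsupp.ext fun p => by simp
      map_smul' := fun x w => Finsupp.ext fun p => by simp }
  refine Module.Projective.of_split i (Finsupp.linearCombination S.Alg m) ?_
  ext w
  rw [LinearMap.comp_apply, LinearMap.id_apply, Finsupp.linearCombination_apply, Finsupp.sum]
  refine hsum w _ fun p hp => ?_
  exact Finsupp.mem_support_iff.2 hp

open Classical in
theorem projective_Wt (U : Type u) [AddCommGroup U] [Module B U] [Module.Projective B U] :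
    Module.Projective S.Alg (S.Wt U) := by
  obtain ⟨σ, hσ⟩ := Module.projective_def.1 (inferInstance : Module.Projective B U)
  let co : U → U →ₗ[B] B := fun p => (Finsupp.lapply p).comp σ
  let emb : S.Wt B →ₗ[S.Alg] S.Alg :=
    { toFun := fun w => TrivSqZeroExt.inl (TrivSqZeroExt.inl (Pi.single 0 w.hd))
        + TrivSqZeroExt.inr w.tl
      map_add' := fun w w' => by
        refine TrivSqZeroExt.ext ?_ ?_
        · refine TrivSqZeroExt.ext ?_ ?_ <;> simp [Pi.single_add]
        · simp
      map_smul' := fun x w => by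
        refine TrivSqZeroExt.ext ?_ ?_
        · refine TrivSqZeroExt.ext ?_ ?_
          · funext i
            by_cases h : i = 0
            · subst h; simp [Wt.smul_hd, pos_apply]
            · simp [h]
          · ext i
            simp [TrivSqZeroExt.snd_mul, Fin.succ_ne_zero]
        · refine Subtype.ext (funext fun c => ?_)
          rw [RingHom.id_apply]
          simp only [TrivSqZeroExt.snd_add, TrivSqZeroExt.snd_inl, TrivSqZeroExt.snd_inr,
            zero_add, smul_eq_mul, TrivSqZeroExt.snd_mul]
          rw [Wt.smul_tl]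
          show _ = (∑ j, S.Φ x.fst c j * w.tl.1 j) + x.snd.1 c * _
          simp }
  refine S.projective_of_coords (fun p => emb.comp (S.mapWt (co p)))
    (fun p => Wt.mk p 0) (fun w => ?_) (fun w T hT => ?_)
  · refine Set.Finite.subset ((σ w.hd).support ∪ (Finset.univ : Finset S.Cell).biUnion
      fun c => (σ (w.tl.1 c)).support).finite_toSet fun p hp => ?_
    by_contra hn
    simp only [Finset.mem_coe, Finset.mem_union, Finsupp.mem_support_iff, Finset.mem_biUnion,
      Finset.mem_univ, true_and, not_or, not_exists, not_not] at hn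
    refine hp ?_
    show emb (S.mapWt (co p) w) = 0
    rw [show S.mapWt (co p) w = 0 from Wt.ext S hn.1 fun c => hn.2 c, map_zero]
  · have hco : ∀ p, p ∉ T → co p w.hd = 0 ∧ ∀ c, co p (w.tl.1 c) = 0 := fun p hp => by
      by_contra hne
      refine hp (hT p fun h0 => hne ⟨?_, fun c => ?_⟩)
      · have := congrArg (fun x : S.Alg => x.fst.fst 0) h0
        simpa [emb, mapWt_hd] using this
      · have := congrArg (fun x : S.Alg => x.snd.1 c) h0
        simpa [emb, mapWt_tl] using this
    have hσ' : ∀ u : U, (∀ p, p ∉ T → co p u = 0) → ∑ p ∈ T, co p u • p = u := fun u hu => by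
      conv_rhs => rw [← hσ u]
      rw [Finsupp.linearCombination_apply,
        Finsupp.sum_of_support_subset (s := T) _ ?_ _ (by simp)]
      · rfl
      · intro p hp
        by_contra h
        exact Finsupp.mem_support_iff.1 hp (hu p h)
    refine Wt.ext S ?_ fun c => ?_
    · let hd : S.Wt U →+ U := AddMonoidHom.mk' Wt.hd fun _ _ => rfl
      show hd (∑ p ∈ T, _) = _
      rw [map_sum]
      refine Eq.trans (Finset.sum_congr rfl fun p _ => ?_) (hσ' w.hd fun p hp => (hco p hp).1)
      show S.pos 0 _ • p = _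
      simp [emb, pos_apply, mapWt_hd]
    · let tl : S.Wt U →+ U := AddMonoidHom.mk' (fun v => v.tl.1 c) fun _ _ => rfl
      show tl (∑ p ∈ T, _) = _
      rw [map_sum]
      refine Eq.trans (Finset.sum_congr rfl fun p _ => ?_)
        (hσ' (w.tl.1 c) fun p hp => (hco p hp).2 c)
      show ((emb.comp (S.mapWt (co p))) w • (Wt.mk p 0 : S.Wt U)).tl.1 c = _
      rw [Wt.smul_tl]
      simp [emb, mapWt_tl]

open Classical in
theorem projective_Disc (j : Fin S.l) (U : Type u) [AddCommGroup U] [Module B U]
    [Module.Projective B U] : Module.Projective S.Alg (S.Disc j U) := by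
  obtain ⟨σ, hσ⟩ := Module.projective_def.1 (inferInstance : Module.Projective B U)
  let co : U → U →ₗ[B] B := fun p => (Finsupp.lapply p).comp σ
  let arr : B → S.Arr := fun b => (Pi.single j b : Fin S.l → B)
  have harr : ∀ b i, (arr b).val i = (Pi.single j b : Fin S.l → B) i := fun _ _ => rfl
  let emb : S.Disc j B →ₗ[S.Alg] S.Alg :=
    { toFun := fun w => TrivSqZeroExt.inl
        (TrivSqZeroExt.inl (Pi.single j.succ w.hi) + TrivSqZeroExt.inr (arr w.lo))
      map_add' := fun w w' => by
        refine TrivSqZeroExt.ext ?_ ?_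
        · refine TrivSqZeroExt.ext ?_ ?_
          · simp [Pi.single_add]
          · ext i; simp [harr, Pi.single_add]
        · simp
      map_smul' := fun x w => by
        refine TrivSqZeroExt.ext ?_ ?_
        · refine TrivSqZeroExt.ext ?_ ?_
          · funext i
            by_cases h : i = j.succ
            · subst h; simp [Disc.smul_hi, pos_apply]
            · simp [h]
          · ext i
            by_cases h : i = j
            · subst h; simp [TrivSqZeroExt.snd_mul, harr, Disc.smul_lo, pos_apply]
            · simp [TrivSqZeroExt.snd_mul, harr, h, Fin.succ_inj]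
        · refine Subtype.ext (funext fun c => ?_)
          simp [TrivSqZeroExt.snd_mul, op_smul_F, Ne.symm (Fin.succ_ne_zero j)] }
  refine S.projective_of_coords (fun p => emb.comp (S.mapDisc j (co p)))
    (fun p => Disc.mk p 0) (fun w => ?_) (fun w T hT => ?_)
  · refine Set.Finite.subset ((σ w.hi).support ∪ (σ w.lo).support).finite_toSet fun p hp => ?_
    by_contra hn
    simp only [Finset.mem_coe, Finset.mem_union, Finsupp.mem_support_iff, not_or, not_not] at hn
    refine hp ?_
    show emb (S.mapDisc j (co p) w) = 0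
    rw [show S.mapDisc j (co p) w = 0 from Disc.ext S j hn.1 hn.2, map_zero]
  · have hco : ∀ p, p ∉ T → co p w.hi = 0 ∧ co p w.lo = 0 := fun p hp => by
      by_contra hne
      refine hp (hT p fun h0 => hne ⟨?_, ?_⟩)
      · have := congrArg (fun x : S.Alg => x.fst.fst j.succ) h0
        simpa [emb, mapDisc_hi] using this
      · have := congrArg (fun x : S.Alg => x.fst.snd.val j) h0
        simpa [emb, harr, mapDisc_lo] using this
    have hσ' : ∀ u : U, (∀ p, p ∉ T → co p u = 0) → ∑ p ∈ T, co p u • p = u := fun u hu => by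
      conv_rhs => rw [← hσ u]
      rw [Finsupp.linearCombination_apply,
        Finsupp.sum_of_support_subset (s := T) _ ?_ _ (by simp)]
      · rfl
      · intro p hp
        by_contra h
        exact Finsupp.mem_support_iff.1 hp (hu p h)
    refine Disc.ext S j ?_ ?_
    · let hd : S.Disc j U →+ U := AddMonoidHom.mk' Disc.hi fun _ _ => rfl
      show hd (∑ p ∈ T, _) = _
      rw [map_sum]
      refine Eq.trans (Finset.sum_congr rfl fun p _ => ?_) (hσ' w.hi fun p hp => (hco p hp).1)
      show (_ • Disc.mk p 0 : S.Disc j U).hi = _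
      rw [Disc.smul_hi]
      simp [emb, pos_apply, mapDisc_hi]
    · let tl : S.Disc j U →+ U := AddMonoidHom.mk' Disc.lo fun _ _ => rfl
      show tl (∑ p ∈ T, _) = _
      rw [map_sum]
      refine Eq.trans (Finset.sum_congr rfl fun p _ => ?_) (hσ' w.lo fun p hp => (hco p hp).2)
      show (_ • Disc.mk p 0 : S.Disc j U).lo = _
      rw [Disc.smul_lo]
      simp [emb, harr, mapDisc_hi, mapDisc_lo]

end Setting

end Vale.Agent.P176
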