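import Vale.Agent.P176.Group

/-!
P176: the algebra `R` of the rules and the lifts in `S` of idempotent, twist and homotopies.
-/

namespace Vale.Agent.P176

universe u v

variable (k : Type u) [Field k]

/-- An algebra map on `S` from values on letters. -/
noncomputable def evL {E : Type v} [Ring E] [Algebra k E] (f : Letter → E) : S k →ₐ[k] E :=
  MonoidAlgebra.lift k E Word (FreeMonoid.lift f)

theorem evL_sW {E : Type v} [Ring E] [Algebra k E] (f : Letter → E) (w : List Letter) :
    evL k f (sW k w) = (w.map f).prod := by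
  simp [evL, sW, FreeMonoid.lift_apply]

noncomputable def p0L : Letter → S k
  | .inl g => sW k [.inl g]
  | .inr _ => 0

/-- Projection to degree zero. -/
noncomputable def P0 : S k →ₐ[k] S k := evL k (p0L k)

theorem P0_sW (w : List Letter) : P0 k (sW k w) = if ecount w = 0 then sW k w else 0 := by
  rw [P0, evL_sW]
  induction w with
  | nil => simp [ecount, sW_nil]
  | cons x w ih =>
    rw [List.map_cons, List.prod_cons, ih]
    cases x with
    | inl g =>
      by_cases hw : ecount w = 0 <;> simp [p0L, ecount, hw, sW_mul]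
    | inr r => simp [p0L, ecount]

theorem P0_mem (x : S k) : P0 k x ∈ Deg k 0 := by
  refine sW_induction k x (by simp) (fun a b ha hb => by simpa using add_mem ha hb)
    (fun c a ha => by simpa using Submodule.smul_mem _ c ha) (fun w => ?_)
  rw [P0_sW]
  split_ifs with h
  · exact sW_mem_Deg k h
  · exact zero_mem _

theorem P0_of_mem {x : S k} (hx : x ∈ Deg k 0) : P0 k x = x := by
  refine Submodule.span_induction (p := fun x _ => P0 k x = x) ?_ (map_zero _)
    (fun a b _ _ ha hb => by simp [ha, hb]) (fun c a _ ha => by simp [ha]) hx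
  rintro _ ⟨w, hw, rfl⟩
  have hw' : ecount w = 0 := hw
  rw [P0_sW, if_pos hw']

/-- The two-sided ideal of elements whose degree-zero part is a boundary. -/
noncomputable def bdIdeal : Ideal (S k) where
  carrier := {x | ∃ y ∈ Deg k 1, δ k y = P0 k x}
  add_mem' := fun {a b} ⟨y, hy, e⟩ ⟨z, hz, e'⟩ => ⟨y + z, add_mem hy hz, by simp [e, e']⟩
  zero_mem' := ⟨0, zero_mem _, by simp⟩
  smul_mem' := fun a x ⟨y, hy, e⟩ => ⟨P0 k a * y, by simpa using mul_mem_Deg k (P0_mem k a) hy, by
    rw [δ_mul, δ_Deg_zero k (P0_mem k a), zero_mul, zero_add, τ_Deg k (P0_mem k a), pow_zero,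
      one_smul, e, smul_eq_mul, map_mul]⟩

instance : (bdIdeal k).IsTwoSided :=
  ⟨fun {x} a ⟨y, hy, e⟩ => ⟨y * P0 k a, by simpa using mul_mem_Deg k hy (P0_mem k a), by
    rw [δ_mul, δ_Deg_zero k (P0_mem k a), mul_zero, add_zero, e, map_mul]⟩⟩

/-- The algebra presented by the rules. -/
abbrev R : Type u := S k ⧸ bdIdeal k

noncomputable def mkR : S k →ₐ[k] R k := Ideal.Quotient.mkₐ k (bdIdeal k)

theorem exists_preimage_deg (x : R k) : ∃ a ∈ Deg k 0, mkR k a = x := by
  obtain ⟨a, rfl⟩ := Ideal.Quotient.mkₐ_surjective k (bdIdeal k) x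
  refine ⟨P0 k a, P0_mem k a, ?_⟩
  refine Ideal.Quotient.eq.2 ⟨0, zero_mem _, ?_⟩
  rw [map_zero, map_sub, P0_of_mem k (P0_mem k a), sub_self]

theorem exists_bd {x : S k} (hx : x ∈ Deg k 0) (h : mkR k x = 0) : ∃ y ∈ Deg k 1, δ k y = x := by
  obtain ⟨y, hy, e⟩ := Ideal.Quotient.eq_zero_iff_mem.1 h
  exact ⟨y, hy, by rw [e, P0_of_mem k hx]⟩

theorem mkR_relVal (l : Rel) : mkR k (relVal k l) = 0 := by
  refine Ideal.Quotient.eq_zero_iff_mem.2 ?_
  cases l with
  | inl g => rw [relVal_comm]; exact zero_mem _
  | inr r =>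
    refine ⟨sW k [.inr r], sW_mem_Deg k rfl, ?_⟩
    rw [δ_sW, P0_of_mem k (relVal_mem_Deg k _)]
    simp [dWord, dLetter, sW_nil]

section sat

variable {k} {E : Type v} [Ring E] [Algebra k E]

/-- Value of a relation for shifted generators. -/
def relOf (Y : Gen → E) (l : Rel) : E :=
  ((relTerms l).map fun x => (x.1 : ℤ) •
    (x.2.1.elim 1 (fun g => Y g - 1) * x.2.2.elim 1 (fun g => Y g - 1))).sum

omit [Algebra k E] in
theorem relOf_inr (Y : Gen → E) (r : Fin 25) :
    relOf Y (.inr r) = 0 ↔ RuleOK Y (ruleTable r) := by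
  rcases hr : ruleTable r with ⟨⟨g, h⟩, _ | p | _⟩
  · rw [RuleOK, ← sub_eq_zero (a := Y g * Y h)]
    simp only [relOf, relTerms, lead, tailTerms, hr, List.map_cons, List.map_nil, List.sum_cons,
      List.sum_nil, Option.elim]
    refine Eq.congr_left ?_
    simp [sub_mul, mul_sub]; abel
  · rw [RuleOK, ← sub_eq_zero (a := Y g * Y h)]
    simp only [relOf, relTerms, lead, tailTerms, hr, List.map_cons, List.map_nil, List.sum_cons,
      List.sum_nil, Option.elim]
    refine Eq.congr_left ?_
    simp [sub_mul, mul_sub]; abel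
  · rw [RuleOK, ← sub_eq_zero (a := Y g * Y h)]
    simp only [relOf, relTerms, lead, tailTerms, hr, List.map_cons, List.map_nil, List.sum_cons,
      List.sum_nil, Option.elim]
    refine Eq.congr_left ?_
    simp [sub_mul, mul_sub]; abel

omit [Algebra k E] in
theorem relOf_sat {Y : Gen → E} (h : Sat Y) (l : Rel) : relOf Y l = 0 := by
  cases l with
  | inl g => simp [relOf, relTerms, lead, tailTerms]
  | inr r => exact (relOf_inr Y r).2 (h r)

end sat

/-- The generators of `R` as `1 + [g]`. -/
noncomputable def genR (g : Gen) : R k := 1 + mkR k (sW k [.inl g])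

theorem sat_genR : Sat (genR k) := by
  intro r
  rw [← relOf_inr, ← mkR_relVal k (.inr r)]
  simp only [relOf, relVal, map_list_sum, List.map_map]
  congr 1
  refine List.map_congr_left fun x _ => ?_
  rcases x with ⟨c, _ | a, _ | b⟩ <;> simp [gV', genR]

/-- Values of letters for operators satisfying the rules. -/
def opLetter {E : Type v} [Ring E] (Y : Gen → E) : Letter → E
  | .inl g => Y g - 1
  | .inr _ => 0

/-- Evaluation of `S`. -/
noncomputable def evS {E : Type v} [Ring E] [Algebra k E] (Y : Gen → E) : S k →ₐ[k] E :=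
  evL k (opLetter Y)

section eval

variable {E : Type v} [Ring E] [Algebra k E] (Y : Gen → E)

theorem evS_gen (g : Gen) : evS k Y (sW k [.inl g]) = Y g - 1 := by
  simp [evS, evL_sW, opLetter]

theorem evS_gV' (x : V) : evS k Y (gV' k x) = x.elim 1 (fun g => Y g - 1) := by
  cases x <;> simp [gV', evS_gen]

theorem evS_relVal (l : Rel) : evS k Y (relVal k l) = relOf Y l := by
  simp only [relOf, relVal, map_list_sum, List.map_map]
  congr 1
  refine List.map_congr_left fun x _ => ?_
  simp only [Function.comp_apply, map_zsmul, map_mul, evS_gV']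

variable {Y} (hY : Sat Y)
include hY

theorem evS_δ (x : S k) : evS k Y (δ k x) = 0 := by
  refine sW_induction k x (by simp) (fun a b ha hb => by simp [ha, hb])
    (fun c a ha => by simp [ha]) (fun w => ?_)
  rw [δ_sW]
  induction w with
  | nil => simp [dWord]
  | cons y w ih =>
    cases y with
    | inl g => simp [dWord, dLetter, ih]
    | inr r => simp [dWord, dLetter, ih, evS_relVal, relOf_sat hY]

omit hY in
theorem evS_P0 (x : S k) : evS k Y (P0 k x) = evS k Y x := by
  refine sW_induction k x (by simp) (fun a b ha hb => by simp [ha, hb])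
    (fun c a ha => by simp [ha]) (fun w => ?_)
  rw [P0_sW]
  split_ifs with h
  · rfl
  · simp only [map_zero, evS, evL_sW]
    symm
    induction w with
    | nil => simp [ecount] at h
    | cons y w ih =>
      cases y with
      | inl g => simp [ih (by simpa [ecount] using h)]
      | inr r => simp [opLetter]

theorem evS_bd {x : S k} (hx : x ∈ bdIdeal k) : evS k Y x = 0 := by
  obtain ⟨y, -, e⟩ := hx
  rw [← evS_P0 k, ← e, evS_δ k hY]

/-- Evaluation of `R`. -/
noncomputable def evR : R k →ₐ[k] E :=
  Ideal.Quotient.liftₐ (bdIdeal k) (evS k Y) fun _ hx => evS_bd k hY hx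

theorem evR_mk (x : S k) : evR k hY (mkR k x) = evS k Y x := rfl

theorem evR_genR (g : Gen) : evR k hY (genR k g) = Y g := by
  simp [genR, evR_mk, evS_gen]

end eval

/-- The idempotent attached to operators. -/
def idem {E : Type v} [Ring E] [Algebra k E] (Y : Gen → E) : E :=
  (2 : k)⁻¹ • (1 - zeta Y 0)

theorem map_idem {E E' : Type*} [Ring E] [Algebra k E] [Ring E'] [Algebra k E'] (f : E →ₐ[k] E')
    (Y : Gen → E) : f (idem k Y) = idem k fun g => f (Y g) := by
  have h : f (zeta Y 0) = zeta (fun g => f (Y g)) 0 := map_zeta f.toMonoidHom Y 0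
  simp [idem, h]

/-- Products for the twisted relation. -/
noncomputable def twoVal (e : S k) (s : Gen → S k) : V × V → S k
  | (some g, some h) => s g * e * s h
  | (some g, none) => s g
  | (none, some h) => s h
  | (none, none) => 1

/-- The twisted relation. -/
noncomputable def tilde (e : S k) (s : Gen → S k) (l : Rel) : S k :=
  ((relTerms l).map fun x => (x.1 : ℤ) • twoVal k e s x.2).sum

theorem rel_ne : ∀ r : Fin 25, ∀ x ∈ relTerms (Sum.inr r), x.2 ≠ ((none, none) : V × V) := by
  decide

/-- Lifts in `S` of the idempotent, the twist and the homotopies. -/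
structure Lifts where
  e : S k
  s : Gen → S k
  h : S k
  eps : Fin 25 → S k
  P : ℕ
  e_deg : e ∈ Deg k 0
  s_deg : ∀ g, s g ∈ Deg k 0
  h_deg : h ∈ Deg k 1
  eps_deg : ∀ r, eps r ∈ Deg k 1
  δ_h : δ k h = (1 - e) * e
  δ_eps : ∀ r, δ k (eps r) = tilde k e s (.inr r)
  e_wt : e ∈ Wt k P
  s_wt : ∀ g, s g ∈ Wt k P
  h_wt : h ∈ Wt k P
  eps_wt : ∀ r, eps r ∈ Wt k P
  ev_e : ∀ {E : Type u} [Ring E] [Algebra k E] (Y : Gen → E), Sat Y → evS k Y e = idem k Y
  ev_s : ∀ {E : Type u} [Ring E] [Algebra k E] (Y : Gen → E), Sat Y → ∀ g,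
    evS k Y (s g) = idem k Y * (shift Y g - 1)

theorem exists_wt (x : S k) : ∃ L, x ∈ Wt k L := by
  refine sW_induction k x ⟨0, zero_mem _⟩
    (fun a b ⟨m, ha⟩ ⟨n, hb⟩ => ⟨max m n, add_mem (Wt_mono k (le_max_left m n) ha)
      (Wt_mono k (le_max_right m n) hb)⟩)
    (fun c a ⟨m, ha⟩ => ⟨m, Submodule.smul_mem _ c ha⟩)
    (fun w => ⟨weight w, sW_mem_Wt k le_rfl⟩)

theorem nonempty_lifts (h2 : (2 : k) ≠ 0) : Nonempty (Lifts k) := by
  have hX := sat_genR k
  let eR : R k := idem k (genR k)
  have he_comm : ∀ g, Commute eR (genR k g) := fun g =>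
    ((Commute.one_left _).sub_left (hX.zeta_central g).symm).smul_left _
  have he_zeta : Commute eR (zeta (genR k) 0) :=
    (((Commute.one_left _).sub_left (Commute.refl _))).smul_left _
  have he2 : eR * eR = eR := by
    show idem k (genR k) * idem k (genR k) = idem k (genR k)
    have h22 : (1 - zeta (genR k) 0) * (1 - zeta (genR k) 0) =
        (2 : k) • (1 - zeta (genR k) 0) := by
      rw [two_smul, sub_mul, one_mul, mul_sub, mul_one, hX.zeta_sq]; abel
    rw [idem, smul_mul_smul_comm, h22, smul_smul, mul_assoc, inv_mul_cancel₀ h2, mul_one]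
  have he_shift : ∀ g, Commute eR (shift (genR k) g) := fun g => by
    cases g with
    | ga => exact ((he_comm _).mul_right (he_comm _)).mul_right (he_comm _)
    | aq => exact (((he_comm _).mul_right (he_comm _)).mul_right (he_comm _)).mul_right (he_comm _)
    | gw => exact ((he_comm _).mul_right (he_comm _)).mul_right (he_comm _)
    | gu => exact he_comm .gu
    | gU => exact he_comm .gU
    | gv => exact he_comm .gv
    | gV => exact he_comm .gV
    | gb => exact he_comm .gb
    | gq => exact he_comm .gq
    | cc => exact he_comm .cc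
    | qb => exact he_comm .qb
    | gx => exact he_comm .gx
  obtain ⟨e, he, hee⟩ := exists_preimage_deg k eR
  choose s hs hse using fun g => exists_preimage_deg k (eR * (shift (genR k) g - 1))
  obtain ⟨h, hh, hhe⟩ := exists_bd k (x := (1 - e) * e)
    (by simpa using mul_mem_Deg k (sub_mem (one_mem_Deg k) he) he)
    (by simp [hee, sub_mul, he2])
  have hd : ∀ p, twoVal k e s p ∈ Deg k 0 := fun p => by
    rcases p with ⟨_ | a, _ | b⟩
    · exact one_mem_Deg k
    · exact hs b
    · exact hs a
    · simpa [twoVal] using mul_mem_Deg k (mul_mem_Deg k (hs a) he) (hs b)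
  have hr : ∀ r, ∃ y ∈ Deg k 1, δ k y = tilde k e s (.inr r) := fun r => by
    refine exists_bd k (list_sum_mem fun x hx => ?_) ?_
    · obtain ⟨y, -, rfl⟩ := List.mem_map.1 hx
      exact zsmul_mem (hd _) _
    · have h0 := (relOf_inr (shift (genR k)) r).2 (hX.shift r)
      have hv : ∀ p : V × V, p ≠ (none, none) → mkR k (twoVal k e s p) =
          eR * (p.1.elim 1 (fun g => shift (genR k) g - 1) *
            p.2.elim 1 (fun g => shift (genR k) g - 1)) := fun p hp => by
        rcases p with ⟨_ | a, _ | b⟩
        · exact absurd rfl hp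
        · simp [twoVal, hse]
        · simp [twoVal, hse]
        · simp only [twoVal, map_mul, hse, hee, Option.elim]
          have hc : Commute eR (shift (genR k) a - 1) :=
            (he_shift a).sub_right (Commute.one_right _)
          calc eR * (shift (genR k) a - 1) * eR * (eR * (shift (genR k) b - 1))
              = eR * ((shift (genR k) a - 1) * eR) * (eR * (shift (genR k) b - 1)) := by
                simp [mul_assoc]
            _ = (eR * eR) * (shift (genR k) a - 1) * eR * (shift (genR k) b - 1) := by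
                rw [← hc.eq]; simp [mul_assoc]
            _ = eR * ((shift (genR k) a - 1) * eR) * (shift (genR k) b - 1) := by
                rw [he2]; simp [mul_assoc]
            _ = eR * ((shift (genR k) a - 1) * (shift (genR k) b - 1)) := by
                rw [← hc.eq, ← mul_assoc eR eR, he2]; simp [mul_assoc]
      have hne := rel_ne r
      calc mkR k (tilde k e s (.inr r))
          = ((relTerms (Sum.inr r)).map fun x => eR * ((x.1 : ℤ) •
              (x.2.1.elim 1 (fun g => shift (genR k) g - 1) *
                x.2.2.elim 1 (fun g => shift (genR k) g - 1)))).sum := by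
            rw [tilde, map_list_sum, List.map_map]
            congr 1
            refine List.map_congr_left fun x hx => ?_
            rw [Function.comp_apply, map_zsmul, hv _ (hne x hx), mul_smul_comm]
        _ = 0 := by rw [List.sum_map_mul_left, ← relOf, h0, mul_zero]
  choose eps heps hepse using hr
  choose L hL using fun x : S k => exists_wt k x
  let P := L e + L h + ∑ g, L (s g) + ∑ r, L (eps r)
  refine ⟨{ e := e, s := s, h := h, eps := eps, P := P, e_deg := he, s_deg := hs, h_deg := hh,
            eps_deg := heps, δ_h := hhe, δ_eps := hepse,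
            e_wt := Wt_mono k (by omega) (hL e)
            s_wt := fun g => Wt_mono k ?_ (hL (s g))
            h_wt := Wt_mono k (by omega) (hL h)
            eps_wt := fun r => Wt_mono k ?_ (hL (eps r))
            ev_e := fun {E} _ _ Y hY => ?_, ev_s := fun {E} _ _ Y hY g => ?_ }⟩
  · have := Finset.single_le_sum (f := fun g => L (s g)) (fun _ _ => Nat.zero_le _)
      (Finset.mem_univ g)
    omega
  · have := Finset.single_le_sum (f := fun r => L (eps r)) (fun _ _ => Nat.zero_le _)
      (Finset.mem_univ r)
    omega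
  · rw [← evR_mk k hY, hee, map_idem]
    simp only [evR_genR]
  · rw [← evR_mk k hY, hse, map_mul, map_sub, map_one, map_idem]
    have := shift_map (evR k hY).toMonoidHom (genR k) g
    simp only [AlgHom.toRingHom_eq_coe, RingHom.toMonoidHom_eq_coe, MonoidHom.coe_coe,
      RingHom.coe_coe, evR_genR] at this ⊢
    exact congrArg _ (congrArg (· - 1) this)

end Vale.Agent.P176
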