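import Vale.Agent.P176.Window
import Vale.Agent.P176.Lifts

/-!
P176: the strict twisted complexes over `S` at the three vertices, as matrices.
-/

namespace Vale.Agent.P176

universe u

/-- Slots: a cone at each vertex and two acyclic copies for each letter at vertex one. -/
abbrev Slot : Type := Fin 3 ⊕ (Gen × Bool)

/-- Blocks: slot and side (`false` is `X`, `true` is `Y`). -/
abbrev Blk : Type := Slot × Bool

def vtx : Slot → Fin 3
  | .inl v => v
  | .inr _ => 1

/-- Homological shift of a block. -/
def shiftB : Blk → ℕ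
  | (.inl _, false) => 1
  | (.inl _, true) => 0
  | (.inr (_, up), y) => (if up then 1 else 0) + if y then 0 else 1

variable (k : Type u) [Field k]

/-- The sign of a block. -/
noncomputable def Jb (b : Blk) : S k := ((-1 : ℤ) ^ shiftB b : ℤ)

abbrev Mat2 : Type u := Matrix Bool Bool (S k)
abbrev MatS : Type u := Matrix Slot Slot (Mat2 k)

noncomputable def Js : MatS k :=
  Matrix.diagonal fun s => Matrix.diagonal fun y => Jb k (s, y)

/-- Entrywise differential. -/
noncomputable def δM : MatS k →ₗ[k] MatS k where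
  toFun M := fun s t => (M s t).map (δ k)
  map_add' M N := funext fun s => funext fun t => Matrix.ext fun a b => map_add (δ k) _ _
  map_smul' c M := funext fun s => funext fun t => Matrix.ext fun a b => map_smul (δ k) c _

variable {k}

theorem δM_apply (M : MatS k) (s t : Slot) : δM k M s t = (M s t).map (δ k) := rfl

theorem δM_single (s t : Slot) (m : Mat2 k) :
    δM k (Matrix.single s t m) = Matrix.single s t (m.map (δ k)) := by
  ext s' t' a b : 4
  simp only [δM_apply, Matrix.map_apply, Matrix.single_apply]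
  split_ifs <;> simp

theorem map_δ_eq_zero {m : Mat2 k} (h : ∀ a b, δ k (m a b) = 0) : m.map (δ k) = 0 := by
  ext a b : 2; simpa using h a b

theorem δ_one : δ k (1 : S k) = 0 := δ_Deg_zero k (one_mem_Deg k)

theorem one_map_δ : (1 : Mat2 k).map (δ k) = 0 :=
  map_δ_eq_zero fun a b => by rw [Matrix.one_apply]; split_ifs <;> simp [δ_one]

variable (D : Lifts k)

/-- The cone of `1 - e`. -/
noncomputable def Θc : Mat2 k := Matrix.single true false (1 - D.e)

/-- The standard matrix attached to an element. -/
noncomputable def mk2 (x : S k) : Mat2 k :=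
  Matrix.single false false (D.e * x) - Matrix.single true false (D.h * x)

theorem mk2_add (x y : S k) : mk2 D (x + y) = mk2 D x + mk2 D y := by
  ext a b : 2; fin_cases a <;> fin_cases b <;> simp [mk2, mul_add]; abel

/-- `mk2` as an additive map. -/
noncomputable def mk2Hom : S k →+ Mat2 k := AddMonoidHom.mk' (mk2 D) (mk2_add D)

noncomputable def fV : V → Mat2 k
  | none => 1
  | some g => mk2 D (D.s g)

theorem fV_mul (g h : V) (hne : (g, h) ≠ (none, none)) :
    fV D g * fV D h = mk2 D (twoVal k D.e D.s (g, h)) := by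
  rcases g with _ | g <;> rcases h with _ | h
  · exact absurd rfl hne
  · simp [fV, twoVal]
  · simp [fV, twoVal]
  · ext a b : 2
    fin_cases a <;> fin_cases b <;>
      simp [fV, twoVal, mk2, Matrix.mul_apply, mul_assoc, neg_mul, Matrix.single_apply]

theorem sum_fV (r : Fin 25) :
    ((relTerms (Sum.inr r)).map fun x => (x.1 : ℤ) • (fV D x.2.1 * fV D x.2.2)).sum =
      mk2 D (tilde k D.e D.s (.inr r)) := by
  show _ = mk2Hom D _
  rw [tilde, map_list_sum, List.map_map]
  congr 1
  refine List.map_congr_left fun x hx => ?_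
  rw [Function.comp_apply, map_zsmul, fV_mul D x.2.1 x.2.2 (rel_ne r x hx)]
  rfl

/-- Local differential of matrices of degree `m` (0 or 1) between two cones. -/
noncomputable def J2 : Mat2 k := Matrix.diagonal fun y => if y then 1 else -1

theorem J2_Θc : J2 * (Θc D).map (δ k) = 0 := by
  rw [map_δ_eq_zero fun a b => ?_, mul_zero]
  simp only [Θc, Matrix.single_apply]
  split_ifs <;> simp [δ_one, δ_Deg_zero k D.e_deg]

theorem Θc_sq : Θc D * Θc D = 0 := by simp [Θc]

theorem mk2_zero_closed {x : S k} (hx : x ∈ Deg k 0) :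
    J2 * (mk2 D x).map (δ k) + Θc D * mk2 D x - mk2 D x * Θc D = 0 := by
  have h1 : δ k (D.e * x) = 0 :=
    δ_Deg_zero k (by simpa using mul_mem_Deg k D.e_deg hx)
  have h2 : δ k (D.h * x) = (1 - D.e) * D.e * x := by
    rw [δ_mul, D.δ_h, δ_Deg_zero k hx, mul_zero, add_zero]
  ext a b : 2
  fin_cases a <;> fin_cases b <;>
    simp [J2, Θc, mk2, Matrix.mul_apply, Matrix.single_apply, Matrix.diagonal_apply, h1, h2,
      mul_assoc]

theorem mk2_one_boundary {y : S k} (hy : y ∈ Deg k 1) :
    J2 * (mk2 D y).map (δ k) + Θc D * mk2 D y + mk2 D y * Θc D = -mk2 D (δ k y) := by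
  have h1 : δ k (D.e * y) = D.e * δ k y := by
    rw [δ_mul, δ_Deg_zero k D.e_deg, zero_mul, zero_add, τ_Deg k D.e_deg, pow_zero, one_smul]
  have h2 : δ k (D.h * y) = (1 - D.e) * D.e * y - D.h * δ k y := by
    rw [δ_mul, D.δ_h, τ_Deg k D.h_deg, pow_one, neg_one_zsmul, neg_mul, ← sub_eq_add_neg]
  ext a b : 2
  fin_cases a <;> fin_cases b <;>
    simp [J2, Θc, mk2, Matrix.mul_apply, Matrix.single_apply, Matrix.diagonal_apply, h1, h2,
      mul_assoc]

theorem tilde_mem (r : Fin 25) : tilde k D.e D.s (.inr r) ∈ Deg k 0 := by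
  rw [← D.δ_eps]
  refine Submodule.span_induction (p := fun x _ => δ k x ∈ Deg k 0) ?_ (by simp)
    (fun a b _ _ ha hb => by simpa using add_mem ha hb)
    (fun c a _ ha => by simpa using Submodule.smul_mem _ c ha) (D.eps_deg r)
  rintro _ ⟨w, hw, rfl⟩
  rw [δ_sW]; exact dWord_mem_Deg k w 0 hw

/-- Differential of the twisted complexes. -/
noncomputable def Θ : MatS k :=
  (∑ v : Fin 3, Matrix.single (Sum.inl v) (Sum.inl v) (Θc D)) +
    ∑ h : Gen, (Matrix.single (Sum.inr (h, false)) (Sum.inr (h, false)) (Θc D) -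
      Matrix.single (Sum.inr (h, true)) (Sum.inr (h, true)) (Θc D) +
      Matrix.single (Sum.inr (h, false)) (Sum.inr (h, true)) 1)

noncomputable def ψ (g h : Gen) : Mat2 k :=
  ∑ r : Fin 25, if lead (Sum.inr r) = (some g, some h) then mk2 D (D.eps r) else 0

noncomputable def φ (g h : Gen) : Mat2 k :=
  ∑ r : Fin 25, if lead (Sum.inr r) = (some g, some h) then -mk2 D (δ k (D.eps r)) else 0

noncomputable def α0 : V → MatS k
  | none => Matrix.single (Sum.inl 1) (Sum.inl 0) 1
  | some g => Matrix.single (Sum.inl 1) (Sum.inl 0) (fV D (some g)) +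
      Matrix.single (Sum.inr (g, false)) (Sum.inl 0) 1

noncomputable def α1 : V → MatS k
  | none => Matrix.single (Sum.inl 2) (Sum.inl 1) 1
  | some g => Matrix.single (Sum.inl 2) (Sum.inl 1) (fV D (some g)) +
      ∑ h : Gen, (Matrix.single (Sum.inl 2) (Sum.inr (h, false)) (φ D g h) +
        Matrix.single (Sum.inl 2) (Sum.inr (h, true)) (ψ D g h))

/-- The composite of two arrows. -/
noncomputable def comp2 : V × V → Mat2 k
  | (some g, some h) => fV D (some g) * fV D (some h) + φ D g h
  | (g, h) => fV D g * fV D h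

theorem single_mul_single_ite {ι A : Type*} [DecidableEq ι] [Fintype ι] [Semiring A]
    (i j j' l : ι) (a b : A) :
    Matrix.single i j a * Matrix.single j' l b = if j = j' then Matrix.single i l (a * b) else 0 := by
  split_ifs with h
  · subst h; simp
  · simp [Matrix.single_mul_single_of_ne _ _ _ _ h]

theorem diag_mul_single {ι A : Type*} [DecidableEq ι] [Fintype ι] [Semiring A]
    (d : ι → A) (i j : ι) (m : A) :
    Matrix.diagonal d * Matrix.single i j m = Matrix.single i j (d i * m) := by
  ext a b
  rw [Matrix.diagonal_mul]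
  by_cases h : i = a ∧ j = b
  · obtain ⟨rfl, rfl⟩ := h; simp
  · simp [Matrix.single_apply, h]

theorem single_mul_diag {ι A : Type*} [DecidableEq ι] [Fintype ι] [Semiring A]
    (d : ι → A) (i j : ι) (m : A) :
    Matrix.single i j m * Matrix.diagonal d = Matrix.single i j (m * d j) := by
  ext a b
  rw [Matrix.mul_diagonal]
  by_cases h : i = a ∧ j = b
  · obtain ⟨rfl, rfl⟩ := h; simp
  · simp [Matrix.single_apply, h]

theorem α1_mul_α0 (g h : V) :
    α1 D g * α0 D h = Matrix.single (Sum.inl 2) (Sum.inl 0) (comp2 D (g, h)) := by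
  rcases g with _ | g <;> rcases h with _ | h
  · simp [α0, α1, comp2, fV]
  · simp [α0, α1, comp2, fV, mul_add]
  · simp [α0, α1, comp2, fV, add_mul, Finset.sum_mul]
  · simp [α0, α1, comp2, mul_add, add_mul, Finset.sum_mul, single_mul_single_ite,
      Matrix.single_add]

noncomputable def eSlot (v : Fin 3) : MatS k :=
  Matrix.diagonal fun s => if vtx s = v then 1 else 0

/-- The strict representation of the window algebra. -/
noncomputable def blockRep : WinRep k (MatS k) where
  e := eSlot
  α := ![α0 D, α1 D]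
  e_mul i j := by
    simp only [eSlot, Matrix.diagonal_mul_diagonal]
    split_ifs with h
    · subst h; congr 1; funext s; simp
    · rw [Matrix.diagonal_eq_zero]; funext s
      by_cases hs : vtx s = i <;> simp [hs, h]
  e_α v g := by
    fin_cases v <;> rcases g with _ | g <;>
      simp [α0, α1, eSlot, mul_add, Finset.mul_sum, diag_mul_single, vtx]
  α_e v g := by
    fin_cases v <;> rcases g with _ | g <;>
      simp [α0, α1, eSlot, add_mul, Finset.sum_mul, single_mul_diag, vtx]
  rel l := by
    show ((relTerms l).map fun x => (x.1 : ℤ) • (α1 D x.2.1 * α0 D x.2.2)).sum = 0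
    have key : ((relTerms l).map fun x => (x.1 : ℤ) • comp2 D x.2).sum = 0 := by
      cases l with
      | inl g => simp [relTerms, lead, tailTerms, comp2, fV]
      | inr r =>
        have htail : ∀ x ∈ tailTerms (Sum.inr r), comp2 D x.2 = fV D x.2.1 * fV D x.2.2 := by
          intro x hx
          obtain ⟨c, g, h⟩ := x
          rcases g with _ | g <;> rcases h with _ | h <;> try rfl
          have hz : φ D g h = 0 := Finset.sum_eq_zero fun r' _ =>
            if_neg (tail_normal _ _ hx _)
          simp [comp2, hz]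
        have hlead : comp2 D (lead (Sum.inr r)) =
            fV D (lead (Sum.inr r)).1 * fV D (lead (Sum.inr r)).2 +
              -mk2 D (tilde k D.e D.s (.inr r)) := by
          show fV D (some (ruleTable r).1.1) * fV D (some (ruleTable r).1.2) +
            φ D (ruleTable r).1.1 (ruleTable r).1.2 = _
          congr 1
          rw [← D.δ_eps]
          have : ∀ r', lead (Sum.inr r') =
              ((some (ruleTable r).1.1, some (ruleTable r).1.2) : V × V) ↔ r' = r :=
            fun r' => lead_injective.eq_iff (b := Sum.inr r) |>.trans (by simp)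
          simp [φ, this, Finset.sum_ite_eq']
        have hs := sum_fV D r
        simp only [relTerms, List.map_cons, List.sum_cons, one_smul] at hs ⊢
        rw [List.map_congr_left (fun x hx => by rw [htail x hx]), hlead, ← hs]
        abel
    have h2 := congrArg (Matrix.singleAddMonoidHom (Sum.inl 2 : Slot) (Sum.inl 0 : Slot)) key
    rw [map_list_sum, map_zero, List.map_map] at h2
    rw [← h2]
    congr 1
    refine List.map_congr_left fun x _ => ?_
    rw [α1_mul_α0, Function.comp_apply, map_zsmul]
    rfl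

theorem sum_e : (blockRep D).e 0 + (blockRep D).e 1 + (blockRep D).e 2 = 1 := by
  show eSlot (k := k) 0 + eSlot 1 + eSlot 2 = 1
  simp only [eSlot, Matrix.diagonal_add, ← Matrix.diagonal_one]
  congr 1; funext s
  generalize vtx s = v
  fin_cases v <;> simp

theorem Jb_inl (v : Fin 3) :
    (Matrix.diagonal fun y => Jb k (Sum.inl v, y)) = J2 := by
  congr 1; funext y; cases y <;> simp [Jb, shiftB]

theorem Jb_inr (h : Gen) (up : Bool) :
    (Matrix.diagonal fun y => Jb k (Sum.inr (h, up), y)) = if up then -J2 else J2 := by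
  cases up
  · rw [if_neg (by simp)]; congr 1; funext y; cases y <;> simp [Jb, shiftB]
  · rw [if_pos rfl, J2, Matrix.diagonal_neg]; congr 1; funext y
    cases y <;> simp [Jb, shiftB]

theorem Js_mul_single (i j : Slot) (m : Mat2 k) :
    Js k * Matrix.single i j m =
      Matrix.single i j ((Matrix.diagonal fun y => Jb k (i, y)) * m) :=
  diag_mul_single _ i j m

theorem Θ_mul_inl (v : Fin 3) (j : Slot) (m : Mat2 k) :
    Θ D * Matrix.single (Sum.inl v) j m = Matrix.single (Sum.inl v) j (Θc D * m) := by
  simp [Θ, add_mul, sub_mul, Finset.sum_mul, single_mul_single_ite, Finset.sum_ite_eq']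

theorem Θ_mul_Qf (g : Gen) (j : Slot) (m : Mat2 k) :
    Θ D * Matrix.single (Sum.inr (g, false)) j m =
      Matrix.single (Sum.inr (g, false)) j (Θc D * m) := by
  simp [Θ, add_mul, sub_mul, Finset.sum_mul, single_mul_single_ite, Finset.sum_ite_eq']

theorem Θ_mul_Qt (g : Gen) (j : Slot) (m : Mat2 k) :
    Θ D * Matrix.single (Sum.inr (g, true)) j m =
      Matrix.single (Sum.inr (g, false)) j m -
        Matrix.single (Sum.inr (g, true)) j (Θc D * m) := by
  simp [Θ, add_mul, sub_mul, Finset.sum_mul, single_mul_single_ite, Finset.sum_ite_eq',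
    Finset.sum_add_distrib, sub_eq_add_neg, add_comm]

theorem inl_mul_Θ (v : Fin 3) (i : Slot) (m : Mat2 k) :
    Matrix.single i (Sum.inl v) m * Θ D = Matrix.single i (Sum.inl v) (m * Θc D) := by
  simp [Θ, mul_add, mul_sub, Finset.mul_sum, single_mul_single_ite, Finset.sum_ite_eq]

theorem Qt_mul_Θ (g : Gen) (i : Slot) (m : Mat2 k) :
    Matrix.single i (Sum.inr (g, true)) m * Θ D =
      -Matrix.single i (Sum.inr (g, true)) (m * Θc D) := by
  simp [Θ, mul_add, mul_sub, Finset.mul_sum, single_mul_single_ite, Finset.sum_ite_eq]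

theorem Qf_mul_Θ (g : Gen) (i : Slot) (m : Mat2 k) :
    Matrix.single i (Sum.inr (g, false)) m * Θ D =
      Matrix.single i (Sum.inr (g, false)) (m * Θc D) + Matrix.single i (Sum.inr (g, true)) m := by
  simp [Θ, mul_add, mul_sub, Finset.mul_sum, single_mul_single_ite, Finset.sum_ite_eq,
    Finset.sum_add_distrib]

theorem Θ_sq : Js k * δM k (Θ D) + Θ D * Θ D = 0 := by
  have h1 : δM k (Θ D) = 0 := by
    have hc : (Θc D).map (δ k) = 0 := map_δ_eq_zero fun a b => by
      simp only [Θc, Matrix.single_apply]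
      split_ifs <;> simp [δ_one, δ_Deg_zero k D.e_deg]
    simp [Θ, δM_single, hc, one_map_δ]
  rw [h1, mul_zero, zero_add]
  show Θ D * ((∑ v : Fin 3, Matrix.single (Sum.inl v) (Sum.inl v) (Θc D)) + _) = 0
  simp only [mul_add, mul_sub, Finset.mul_sum, Θ_mul_inl, Θ_mul_Qf, Θ_mul_Qt, Θc_sq,
    Matrix.single_zero, mul_one]
  simp

/-- The differential on matrices of degree zero. -/
noncomputable def dM : MatS k →ₗ[k] MatS k where
  toFun M := Js k * δM k M + Θ D * M - M * Θ D
  map_add' M N := by simp [mul_add, add_mul]; abel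
  map_smul' c M := by simp [smul_add, smul_sub]

/-- The differential of a matrix of degree zero between two cones. -/
noncomputable def L2 : Mat2 k →+ Mat2 k :=
  AddMonoidHom.mk' (fun m => J2 * m.map (δ k) + Θc D * m - m * Θc D) fun m m' => by
    have : (m + m').map (δ k) = m.map (δ k) + m'.map (δ k) := Matrix.map_add _ (map_add _) _ _
    simp only [this, mul_add, add_mul]; abel

theorem L2_mk2 {x : S k} (hx : x ∈ Deg k 0) : L2 D (mk2 D x) = 0 := mk2_zero_closed D hx

theorem L2_one : L2 D 1 = 0 := by simp [L2, one_map_δ]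

theorem L2_fV (x : V) : L2 D (fV D x) = 0 := by
  cases x with
  | none => exact L2_one D
  | some g => exact L2_mk2 D (D.s_deg g)

theorem L2_φ (g h : Gen) : L2 D (φ D g h) = 0 := by
  rw [φ, map_sum]
  refine Finset.sum_eq_zero fun r _ => ?_
  split_ifs
  · rw [map_neg, L2_mk2 D, neg_zero]
    rw [D.δ_eps]; exact tilde_mem D r
  · exact map_zero _

theorem L2_comp2 (p : V × V) : L2 D (comp2 D p) = 0 := by
  have hff : ∀ g h, L2 D (fV D g * fV D h) = 0 := fun g h => by
    by_cases hne : ((g, h) : V × V) = (none, none)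
    · simp only [Prod.mk.injEq] at hne
      rw [hne.1, hne.2]; simp [fV, L2_one]
    · rw [fV_mul D g h hne]
      refine L2_mk2 D ?_
      rcases g with _ | a <;> rcases h with _ | b
      · exact one_mem_Deg k
      · exact D.s_deg b
      · exact D.s_deg a
      · simpa [twoVal] using mul_mem_Deg k (mul_mem_Deg k (D.s_deg a) D.e_deg) (D.s_deg b)
  obtain ⟨_ | g, _ | h⟩ := p
  · exact hff _ _
  · exact hff _ _
  · exact hff _ _
  · rw [comp2, map_add, hff, L2_φ, add_zero]

theorem ψ_boundary (g h : Gen) :
    J2 * (ψ D g h).map (δ k) + Θc D * ψ D g h + ψ D g h * Θc D = φ D g h := by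
  let L : Mat2 k →+ Mat2 k :=
    AddMonoidHom.mk' (fun m => J2 * m.map (δ k) + Θc D * m + m * Θc D) fun m m' => by
      have : (m + m').map (δ k) = m.map (δ k) + m'.map (δ k) := Matrix.map_add _ (map_add _) _ _
      simp only [this, mul_add, add_mul]; abel
  show L (ψ D g h) = _
  rw [ψ, map_sum, φ]
  refine Finset.sum_congr rfl fun r _ => ?_
  split_ifs
  · exact mk2_one_boundary D (D.eps_deg r)
  · exact map_zero _

theorem dM_inl (v w : Fin 3) (m : Mat2 k) :
    dM D (Matrix.single (Sum.inl v) (Sum.inl w) m) =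
      Matrix.single (Sum.inl v) (Sum.inl w) (L2 D m) := by
  simp [dM, L2, δM_single, Js_mul_single, Jb_inl, Θ_mul_inl, inl_mul_Θ, Matrix.single_add,
    sub_eq_add_neg, Matrix.single_neg]

theorem dM_α0 (x : V) : dM D (α0 D x) = 0 := by
  cases x with
  | none => simp [α0, dM_inl, L2_one]
  | some g =>
    rw [α0, map_add, dM_inl, L2_fV, Matrix.single_zero, zero_add]
    simp [dM, δM_single, one_map_δ, Θ_mul_Qf, inl_mul_Θ]

theorem dM_α1 (x : V) : dM D (α1 D x) = 0 := by
  cases x with
  | none => simp [α1, dM_inl, L2_one]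
  | some g =>
    rw [α1, map_add, dM_inl, L2_fV, Matrix.single_zero, zero_add, map_sum]
    refine Finset.sum_eq_zero fun h _ => ?_
    have e1 : dM D (Matrix.single (Sum.inl 2) (Sum.inr (h, false)) (φ D g h)) =
        -Matrix.single (Sum.inl 2) (Sum.inr (h, true)) (φ D g h) := by
      have := congrArg (Matrix.single (Sum.inl 2 : Slot) (Sum.inr (h, false) : Slot)) (L2_φ D g h)
      simp only [L2, AddMonoidHom.mk'_apply, Matrix.single_zero] at this
      simp only [dM, LinearMap.coe_mk, AddHom.coe_mk, δM_single, Js_mul_single, Jb_inl,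
        Θ_mul_inl, Qf_mul_Θ]
      rw [← sub_eq_zero]
      refine Eq.trans ?_ this
      show _ = Matrix.singleAddMonoidHom (Sum.inl 2 : Slot) (Sum.inr (h, false) : Slot) _
      rw [map_sub, map_add]
      simp only [Matrix.singleAddMonoidHom_apply]
      abel
    have e2 : dM D (Matrix.single (Sum.inl 2) (Sum.inr (h, true)) (ψ D g h)) =
        Matrix.single (Sum.inl 2) (Sum.inr (h, true)) (φ D g h) := by
      rw [← ψ_boundary D g h]
      simp [dM, δM_single, Js_mul_single, Jb_inl, Θ_mul_inl, Qt_mul_Θ, Matrix.single_add]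
    rw [map_add, e1, e2, neg_add_cancel]

theorem Θ_eSlot (v : Fin 3) : Θ D * eSlot v = eSlot v * Θ D := by
  simp only [Θ, eSlot, add_mul, mul_add, Finset.sum_mul, Finset.mul_sum, sub_mul, mul_sub,
    single_mul_diag, diag_mul_single]
  have hc : ∀ (p : Prop) [Decidable p] (m : Mat2 k),
      (m * if p then 1 else 0) = (if p then 1 else 0) * m := fun p _ m => by
    split_ifs <;> simp
  simp only [hc]
  rfl

theorem dM_e (v : Fin 3) : dM D (eSlot v) = 0 := by
  have h : δM k (eSlot v : MatS k) = 0 := by
    funext s t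
    refine Matrix.ext fun a b => ?_
    simp only [δM_apply, eSlot, Matrix.map_apply, Matrix.diagonal_apply, Matrix.zero_apply]
    split_ifs <;> simp [Matrix.one_apply]
    split_ifs <;> simp [δ_one]
  simp [dM, h, Θ_eSlot]

theorem dM_blockRep (b : Win k) : dM D ((blockRep D).toLin b) = 0 := by
  have hA : ∀ (v : Fin 2) (a : V → k), dM D ((blockRep D).A v a) = 0 := fun v a => by
    rw [WinRep.A, Fintype.linearCombination_apply, map_sum]
    refine Finset.sum_eq_zero fun x _ => ?_
    rw [map_smul]
    fin_cases v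
    · show _ • dM D (α0 D x) = 0
      rw [dM_α0, smul_zero]
    · show _ • dM D (α1 D x) = 0
      rw [dM_α1, smul_zero]
  have hZ : ∀ z : NF → k, dM D ((blockRep D).Z z) = 0 := fun z => by
    rw [WinRep.Z, Fintype.linearCombination_apply, map_sum]
    refine Finset.sum_eq_zero fun x _ => ?_
    show dM D (_ • (α1 D x.1.1 * α0 D x.1.2)) = 0
    rw [map_smul, α1_mul_α0, dM_inl, L2_comp2, Matrix.single_zero, smul_zero]
  have he : ∀ i, dM D ((blockRep D).e i) = 0 := dM_e D
  simp only [WinRep.toLin, LinearMap.coe_mk, AddHom.coe_mk, map_add, map_smul, he, hA, hZ,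
    smul_zero, add_zero]

end Vale.Agent.P176
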