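import Mathlib

/-!
P176: abstract input of the homological machine.

`Setting` is a bounded complex of bimodules over `B` given by cells: the complex
`X_j` consists of `ev i * B` for the cells `i` of degree `j`, the left action is given
by the matrices `ρ b`, the differential by the matrix `D`.
For a left `B`-module `U` the total space of `X ⊗ U` is `S.F U`.
-/

namespace Vale.Agent.P176

open CategoryTheory

universe u v

structure Setting (k : Type u) (B : Type u) [Field k] [Ring B] [Algebra k B] where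
  l : ℕ
  Cell : Type
  [cellFintype : Fintype Cell]
  [cellDecEq : DecidableEq Cell]
  deg : Cell → Fin (l + 1)
  deg_ne_zero : ∀ i, deg i ≠ 0
  ev : Cell → B
  ρ : B →ₗ[k] Matrix Cell Cell B
  ρ_mul : ∀ b c, ρ (b * c) = ρ b * ρ c
  ρ_one : ρ 1 = Matrix.diagonal ev
  ρ_deg : ∀ b i j, deg i ≠ deg j → ρ b i j = 0
  D : Matrix Cell Cell B
  D_deg : ∀ i j, (deg i : ℕ) + 1 ≠ deg j → D i j = 0
  D_sq : D * D = 0
  D_ρ : ∀ b, D * ρ b = ρ b * D

attribute [instance] Setting.cellFintype Setting.cellDecEq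

namespace Setting

variable {k B : Type u} [Field k] [Ring B] [Algebra k B] (S : Setting k B)

section

variable (U : Type v) [AddCommGroup U] [Module B U]

/-- Carrier of `X ⊗ U`, all degrees together. -/
def carrier : AddSubgroup (S.Cell → U) where
  carrier := {f | ∀ i, S.ev i • f i = f i}
  add_mem' hf hg i := by simp [hf i, hg i]
  zero_mem' i := by simp
  neg_mem' hf i := by simp [hf i]

/-- The total space `X ⊗ U`. -/
abbrev F : Type v := S.carrier U

variable {U}

/-- A matrix over `B` applied to a family. -/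
def mv (M : Matrix S.Cell S.Cell B) (f : S.Cell → U) : S.Cell → U :=
  fun i => ∑ j, M i j • f j

omit [Field k] in
theorem _root_.Vale.Agent.P176.sum_smul_sum {ι : Type} [Fintype ι] (M N : Matrix ι ι B)
    (f : ι → U) (i : ι) :
    (∑ j, M i j • ∑ l, N j l • f l) = ∑ l, (M * N) i l • f l := by
  simp only [Finset.smul_sum, smul_smul, Matrix.mul_apply, Finset.sum_smul]
  exact Finset.sum_comm

theorem mv_mv (M N : Matrix S.Cell S.Cell B) (f : S.Cell → U) :
    S.mv M (S.mv N f) = S.mv (M * N) f :=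
  funext fun i => sum_smul_sum M N f i

theorem mv_diag (f : S.Cell → U) (i : S.Cell) :
    S.mv (Matrix.diagonal S.ev) f i = S.ev i • f i := by
  simp [mv, Matrix.diagonal_apply, ite_smul]

theorem mv_ev (x : S.F U) : S.mv (Matrix.diagonal S.ev) x.1 = x.1 :=
  funext fun i => by rw [mv_diag]; exact x.2 i

theorem mv_mem {M : Matrix S.Cell S.Cell B}
    (hM : M * Matrix.diagonal S.ev = Matrix.diagonal S.ev * M) (x : S.F U) :
    S.mv M x.1 ∈ S.carrier U := by
  intro i
  rw [← mv_diag, mv_mv, ← hM, ← mv_mv, mv_ev]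

theorem ρ_comm_one (b : B) :
    S.ρ b * Matrix.diagonal S.ev = Matrix.diagonal S.ev * S.ρ b := by
  rw [← S.ρ_one, ← S.ρ_mul, ← S.ρ_mul, one_mul, mul_one]

theorem D_comm_one : S.D * Matrix.diagonal S.ev = Matrix.diagonal S.ev * S.D := by
  rw [← S.ρ_one, S.D_ρ]

instance : SMul B (S.F U) := ⟨fun b x => ⟨S.mv (S.ρ b) x.1, S.mv_mem (S.ρ_comm_one b) x⟩⟩

theorem smul_val (b : B) (x : S.F U) : (b • x).1 = S.mv (S.ρ b) x.1 := rfl

theorem smul_apply (b : B) (x : S.F U) (i : S.Cell) :
    (b • x).1 i = ∑ j, S.ρ b i j • x.1 j := rfl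

instance instModuleF : Module B (S.F U) where
  one_smul x := Subtype.ext <| by rw [smul_val, S.ρ_one, mv_ev]
  mul_smul b c x := Subtype.ext <| by rw [smul_val, smul_val, smul_val, mv_mv, S.ρ_mul]
  smul_zero b := Subtype.ext <| funext fun i => by
    rw [smul_apply]; simp
  smul_add b x y := Subtype.ext <| funext fun i => by
    show ∑ j, S.ρ b i j • (x + y).1 j = (b • x).1 i + (b • y).1 i
    simp [smul_apply, Finset.sum_add_distrib]
  add_smul b c x := Subtype.ext <| funext fun i => by
    show ∑ j, S.ρ (b + c) i j • x.1 j = (b • x).1 i + (c • x).1 i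
    simp [smul_apply, add_smul, Finset.sum_add_distrib]
  zero_smul x := Subtype.ext <| funext fun i => by
    rw [smul_apply]; simp

variable (U)

/-- The differential of `X ⊗ U`. -/
def d : S.F U →ₗ[B] S.F U where
  toFun x := ⟨S.mv S.D x.1, S.mv_mem S.D_comm_one x⟩
  map_add' x y := Subtype.ext <| funext fun i => by
    show ∑ j, S.D i j • (x + y).1 j = S.mv S.D x.1 i + S.mv S.D y.1 i
    simp [mv, Finset.sum_add_distrib]
  map_smul' b x := Subtype.ext <| by
    show S.mv S.D (b • x).1 = S.mv (S.ρ b) (S.mv S.D x.1)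
    rw [smul_val, mv_mv, mv_mv, S.D_ρ]

theorem d_apply (x : S.F U) (i : S.Cell) : (S.d U x).1 i = ∑ j, S.D i j • x.1 j := rfl

/-- `X ⊗ U` is exact. -/
def Acyclic : Prop := ∀ x : S.F U, S.d U x = 0 → ∃ y, S.d U y = x

variable (G T : Type v) [AddCommGroup G] [Module B G] [AddCommGroup T] [Module B T]

/-- A surjective chain map from `X ⊗ U` onto `G` in degree two plus `T` in degree one
(zero differential), with exact kernel. -/
structure Reduction where
  pG : S.F U →ₗ[B] G
  pT : S.F U →ₗ[B] T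
  pG_supp : ∀ x : S.F U, (∀ i, (S.deg i : ℕ) = 2 → x.1 i = 0) → pG x = 0
  pT_supp : ∀ x : S.F U, (∀ i, (S.deg i : ℕ) = 1 → x.1 i = 0) → pT x = 0
  pG_surj : Function.Surjective pG
  pT_surj : Function.Surjective pT
  pG_d : ∀ x, pG (S.d U x) = 0
  pT_d : ∀ x, pT (S.d U x) = 0
  exact_ker : ∀ x, S.d U x = 0 → pG x = 0 → pT x = 0 →
    ∃ y, pG y = 0 ∧ pT y = 0 ∧ S.d U y = x

end

end Setting

/-- Conclusion of the machine. -/
def UnboundedFindim (k : Type u) [Field k] : Prop :=
  ∃ (A : Type u) (_ : Ring A) (_ : Algebra k A), Module.Finite k A ∧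
    ∀ N : ℕ, ∃ M : ModuleCat.{u} A, Module.Finite A M ∧
      (∃ d : ℕ, HasProjectiveDimensionLT M d) ∧ ¬ HasProjectiveDimensionLT M N

end Vale.Agent.P176
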