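import Vale.Agent.P176.Ops
import Vale.Agent.P176.Setting

/-!
P176: degrees and levels, bounded cells, and the resulting `Setting`.
-/

namespace Vale.Agent.P176

open MulOpposite

universe u

variable {k : Type u} [Field k] (D : Lifts k)

/-- Level of a block. -/
def lev : Blk → ℕ
  | (.inl v, y) => 2 + 3 * D.P * v + if y then D.P else 0
  | (.inr _, y) => 2 + if y then D.P else 0

/-- Admissible monomials of a matrix entry of degree `m`. -/
def GSset (m : ℤ) (b' b : Blk) : Set (List Letter) :=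
  {w | (ecount w : ℤ) + shiftB b' = m + shiftB b ∧ weight w + lev D b ≤ lev D b'}

noncomputable def GS (m : ℤ) (b' b : Blk) : Submodule k (S k) :=
  Submodule.span k (sW k '' GSset D m b' b)

theorem mem_GS {x : S k} {m : ℤ} {b' b : Blk} {n L : ℕ} (hd : x ∈ Deg k n) (hw : x ∈ Wt k L)
    (hs : (n : ℤ) + shiftB b' = m + shiftB b) (hl : L + lev D b ≤ lev D b') :
    x ∈ GS D m b' b := by
  let pr : S k →ₗ[k] S k := linOn k fun w => if ecount w = n then sW k w else 0
  have h1 : pr x = x := by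
    refine Submodule.span_induction (p := fun x _ => pr x = x) ?_ (map_zero _)
      (fun a b _ _ ha hb => by simp [ha, hb]) (fun c a _ ha => by simp [ha]) hd
    rintro _ ⟨w, hw', rfl⟩
    have : ecount w = n := hw'
    simp [pr, linOn_sW, this]
  rw [← h1]
  refine Submodule.span_induction (p := fun x _ => pr x ∈ GS D m b' b) ?_ (by simp)
    (fun a b _ _ ha hb => by simpa using add_mem ha hb)
    (fun c a _ ha => by simpa using Submodule.smul_mem _ c ha) hw
  rintro _ ⟨w, hw', rfl⟩
  have : weight w ≤ L := hw'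
  simp only [pr, linOn_sW]
  split_ifs with h
  · refine Submodule.subset_span ⟨w, ⟨by rw [h]; exact hs, ?_⟩, rfl⟩
    omega
  · exact zero_mem _

theorem GS_mul {x y : S k} {m n : ℤ} {a b c : Blk} (hx : x ∈ GS D m a b) (hy : y ∈ GS D n b c) :
    x * y ∈ GS D (m + n) a c := by
  have h : GS D m a b * GS D n b c ≤ GS D (m + n) a c := by
    rw [GS, GS, Submodule.span_mul_span]
    refine Submodule.span_le.2 ?_
    rintro _ ⟨_, ⟨v, hv, rfl⟩, _, ⟨w, hw, rfl⟩, rfl⟩
    show sW k v * sW k w ∈ _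
    rw [sW_mul]
    refine Submodule.subset_span ⟨v ++ w, ⟨?_, ?_⟩, rfl⟩
    · rw [ecount_append]; push_cast; linarith [hv.1, hw.1]
    · rw [weight_append]; linarith [hv.2, hw.2]
  exact h (Submodule.mul_mem_mul hx hy)

/-- Block matrices of degree `m` compatible with the levels. -/
noncomputable def GoodM (m : ℤ) : Submodule k (MatS k) where
  carrier := {M | ∀ b' b : Blk, M b'.1 b.1 b'.2 b.2 ∈ GS D m b' b}
  add_mem' hx hy b' b := by simpa using add_mem (hx b' b) (hy b' b)
  zero_mem' b' b := by simp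
  smul_mem' c M hM b' b := by simpa using Submodule.smul_mem _ c (hM b' b)

theorem good_mul {M N : MatS k} {m n : ℤ} (hM : M ∈ GoodM D m) (hN : N ∈ GoodM D n) :
    M * N ∈ GoodM D (m + n) := by
  intro b' b
  have e : (M * N) b'.1 b.1 b'.2 b.2 = ∑ c : Blk, M b'.1 c.1 b'.2 c.2 * N c.1 b.1 c.2 b.2 := by
    rw [Matrix.mul_apply, Matrix.sum_apply, Fintype.sum_prod_type]
    exact Finset.sum_congr rfl fun s _ => by rw [Matrix.mul_apply]
  rw [e]
  exact Submodule.sum_mem _ fun c _ => GS_mul D (hM b' c) (hN c b)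

theorem good_single {m : ℤ} {s t : Slot} {M : Mat2 k}
    (h : ∀ a b, M a b ∈ GS D m (s, a) (t, b)) : Matrix.single s t M ∈ GoodM D m := by
  intro b' b
  by_cases hh : s = b'.1 ∧ t = b.1
  · obtain ⟨rfl, rfl⟩ := hh
    simpa using h b'.2 b.2
  · simp [Matrix.single_apply, hh]

theorem good_one2 {m : ℤ} {s t : Slot} (hs : ∀ y, (shiftB (s, y) : ℤ) = m + shiftB (t, y))
    (hl : ∀ y, lev D (t, y) ≤ lev D (s, y)) :
    Matrix.single s t (1 : Mat2 k) ∈ GoodM D m := by
  refine good_single D fun a b => ?_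
  rw [Matrix.one_apply]
  split_ifs with h
  · subst h
    exact mem_GS D (one_mem_Deg k) (one_mem_Wt k 0) (by simpa using hs a) (by simpa using hl a)
  · exact zero_mem _

theorem lev_inl_le (v : Fin 3) (y : Bool) : lev D (Sum.inl v, y) ≤ 2 + 7 * D.P := by
  fin_cases v <;> cases y <;> simp [lev] <;> omega

theorem lev_le (b : Blk) : lev D b ≤ 2 + 7 * D.P := by
  obtain ⟨_ | _, y⟩ := b
  · exact lev_inl_le D _ y
  · cases y <;> simp [lev]; omega

theorem mk2_good {x : S k} {j : ℕ} (hj : x ∈ Deg k j) (hw : x ∈ Wt k D.P) {m : ℤ} {s t : Slot}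
    (hs1 : (j : ℤ) + shiftB (s, false) = m + shiftB (t, false))
    (hs2 : ((1 + j : ℕ) : ℤ) + shiftB (s, true) = m + shiftB (t, false))
    (hl : lev D (t, false) + 2 * D.P ≤ lev D (s, false))
    (hl' : lev D (t, false) + 2 * D.P ≤ lev D (s, true)) :
    Matrix.single s t (mk2 D x) ∈ GoodM D m := by
  refine good_single D fun a b => ?_
  have he : D.e * x ∈ GS D m (s, false) (t, false) :=
    mem_GS D (mul_mem_Deg k D.e_deg hj) (mul_mem_Wt k D.e_wt hw) (by simpa using hs1) (by omega)
  have hh : D.h * x ∈ GS D m (s, true) (t, false) :=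
    mem_GS D (mul_mem_Deg k D.h_deg hj) (mul_mem_Wt k D.h_wt hw) hs2 (by omega)
  cases a <;> cases b <;> simp [mk2, he, hh]

theorem Θc_good (s : Slot) : Matrix.single s s (Θc D) ∈ GoodM D (-1) := by
  refine good_single D fun a b => ?_
  have h : 1 - D.e ∈ GS D (-1) (s, true) (s, false) := by
    refine mem_GS D (sub_mem (one_mem_Deg k) D.e_deg) (sub_mem (one_mem_Wt k _) D.e_wt) ?_ ?_
    · rcases s with v | ⟨h, up⟩ <;> simp [shiftB]
    · rcases s with v | ⟨h, up⟩ <;> simp [lev] <;> omega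
  cases a <;> cases b <;> simp [Θc, h]

theorem Θ_good : Θ D ∈ GoodM D (-1) := by
  refine add_mem (Submodule.sum_mem _ fun v _ => Θc_good D _) (Submodule.sum_mem _ fun h _ => ?_)
  refine add_mem (sub_mem (Θc_good D _) (Θc_good D _)) (good_one2 D (fun y => ?_) fun y => ?_)
  · cases y <;> simp [shiftB]
  · cases y <;> simp [lev]

theorem eSlot_good (v : Fin 3) : eSlot (k := k) v ∈ GoodM D 0 := by
  intro b' b
  simp only [eSlot, Matrix.diagonal_apply]
  split_ifs with h1 h2
  · rw [Matrix.one_apply]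
    split_ifs with h3
    · have hb : b' = b := Prod.ext h1 h3
      subst hb
      exact mem_GS D (one_mem_Deg k) (one_mem_Wt k 0) (by simp) (by simp)
    · exact zero_mem _
  · exact zero_mem _
  · exact zero_mem _

theorem fV_good (g : V) (v : Fin 2) :
    Matrix.single (Sum.inl v.succ) (Sum.inl v.castSucc) (fV D g) ∈ GoodM D 0 := by
  cases g with
  | none =>
    refine good_one2 D (fun y => ?_) fun y => ?_
    · fin_cases v <;> cases y <;> simp [shiftB]
    · fin_cases v <;> cases y <;> simp [lev] <;> omega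
  | some g =>
    refine mk2_good D (D.s_deg g) (D.s_wt g) ?_ ?_ ?_ ?_ <;>
      fin_cases v <;> simp [shiftB, lev] <;> omega

theorem α0_good (g : V) : α0 D g ∈ GoodM D 0 := by
  cases g with
  | none => exact fV_good D none 0
  | some g =>
    refine add_mem (fV_good D (some g) 0) (good_one2 D (fun y => ?_) fun y => ?_)
    · cases y <;> simp [shiftB]
    · cases y <;> simp [lev]

theorem α1_good (g : V) : α1 D g ∈ GoodM D 0 := by
  cases g with
  | none => exact fV_good D none 1
  | some g =>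
    refine add_mem (fV_good D (some g) 1) (Submodule.sum_mem _ fun h _ => add_mem ?_ ?_)
    · rw [φ]
      show Matrix.singleAddMonoidHom _ _ _ ∈ _
      rw [map_sum]
      refine Submodule.sum_mem _ fun r _ => ?_
      split_ifs
      · rw [map_neg]
        refine Submodule.neg_mem _ (mk2_good D (j := 0) ?_ (δ_mem_Wt k (D.eps_wt r)) ?_ ?_ ?_ ?_)
        · rw [D.δ_eps]; exact tilde_mem D r
        all_goals simp [shiftB, lev]
        all_goals omega
      · rw [map_zero]; exact zero_mem _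
    · rw [ψ]
      show Matrix.singleAddMonoidHom _ _ _ ∈ _
      rw [map_sum]
      refine Submodule.sum_mem _ fun r _ => ?_
      split_ifs
      · refine mk2_good D (D.eps_deg r) (D.eps_wt r) ?_ ?_ ?_ ?_
        all_goals simp [shiftB, lev]
        all_goals omega
      · rw [map_zero]; exact zero_mem _

theorem blockRep_good (b : Win k) : (blockRep D).toLin b ∈ GoodM D 0 := by
  have hA : ∀ (v : Fin 2) (a : V → k), (blockRep D).A v a ∈ GoodM D 0 := fun v a => by
    rw [WinRep.A, Fintype.linearCombination_apply]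
    refine Submodule.sum_mem _ fun x _ => Submodule.smul_mem _ _ ?_
    fin_cases v
    · exact α0_good D x
    · exact α1_good D x
  have hZ : ∀ z : NF → k, (blockRep D).Z z ∈ GoodM D 0 := fun z => by
    rw [WinRep.Z, Fintype.linearCombination_apply]
    refine Submodule.sum_mem _ fun x _ => Submodule.smul_mem _ _ ?_
    have := good_mul D (α1_good D x.1.1) (α0_good D x.1.2)
    simp only [add_zero] at this
    exact this
  have he : ∀ i, (blockRep D).e i ∈ GoodM D 0 := eSlot_good D
  simp only [WinRep.toLin, LinearMap.coe_mk, AddHom.coe_mk]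
  exact add_mem (add_mem (add_mem (add_mem (Submodule.smul_mem _ _ (he 0))
    (Submodule.smul_mem _ _ (he 1))) (Submodule.smul_mem _ _ (he 2)))
    (add_mem (hA 0 _) (hA 1 _))) (hZ _)

/-- Parity of a graded block matrix. -/
theorem Js_τM {M : MatS k} {m : ℤ} (hM : M ∈ GoodM D m) :
    Js k * τM k M = (((-1 : ℤˣ) ^ m : ℤˣ) : ℤ) • (M * Js k) := by
  refine funext fun s => funext fun t => Matrix.ext fun a b => ?_
  have key : ∀ x ∈ GS D m (s, a) (t, b),
      Jb k (s, a) * τ k x = (((-1 : ℤˣ) ^ m : ℤˣ) : ℤ) • (x * Jb k (t, b)) := by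
    intro x hx
    refine Submodule.span_induction (p := fun x _ => Jb k (s, a) * τ k x =
      (((-1 : ℤˣ) ^ m : ℤˣ) : ℤ) • (x * Jb k (t, b))) ?_ (by simp)
      (fun a b _ _ ha hb => by simp [mul_add, add_mul, ha, hb, smul_add])
      (fun c a _ ha => by rw [map_smul, mul_smul_comm, ha, smul_mul_assoc, smul_comm]) hx
    rintro _ ⟨w, hw, rfl⟩
    have e1 : ∀ n : ℕ, ((-1 : ℤ) ^ n) = (((-1 : ℤˣ) ^ (n : ℤ) : ℤˣ) : ℤ) := fun n => by simp
    have e2 : ((-1 : ℤ) ^ shiftB (s, a)) * sgnW w =
        (((-1 : ℤˣ) ^ m : ℤˣ) : ℤ) * (-1 : ℤ) ^ shiftB (t, b) := by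
      rw [sgnW, e1, e1, e1, ← Units.val_mul, ← Units.val_mul, ← zpow_add, ← zpow_add, add_comm,
        hw.1]
    rw [τ_sW, Jb, Jb]
    rw [mul_smul_comm, ← zsmul_eq_mul, ← zsmul_eq_mul', smul_smul, smul_smul,
      mul_comm (sgnW w), e2]
  have h1 : (Js k * τM k M) s t a b = Jb k (s, a) * τ k (M s t a b) := by
    simp only [Js]
    rw [Matrix.diagonal_mul, Matrix.diagonal_mul]
    rfl
  have h2 : (M * Js k) s t a b = M s t a b * Jb k (t, b) := by
    simp only [Js]
    rw [Matrix.mul_diagonal, Matrix.mul_diagonal]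
  simp only [Matrix.smul_apply, h1, h2]
  exact key _ (hM (s, a) (t, b))

/-- The operator of a block matrix. -/
noncomputable def opM (M : MatS k) : XSp k →ₗ[k] XSp k where
  toFun x := Ψ k M * x
  map_add' x y := Matrix.mul_add _ _ _
  map_smul' c x := Matrix.mul_smul _ _ _

theorem dT_smul (c : k) (x : XSp k) : dT (c • x) = c • dT x := by
  simp only [dT, Matrix.map_smul _ c (map_smul (δB k) c), Matrix.map_smul _ c (map_smul (τB k) c),
    Matrix.smul_mul, smul_add]

/-- The total differential. -/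
noncomputable def opD : XSp k →ₗ[k] XSp k where
  toFun x := Ψ k (Js k) * dT x + Ψ k (Θ D) * x
  map_add' x y := by simp [dT_add, Matrix.mul_add]; abel
  map_smul' c x := by simp [dT_smul, Matrix.mul_smul]

theorem opM_apply (M : MatS k) (x : XSp k) : opM M x = Ψ k M * x := rfl

theorem opD_apply (x : XSp k) : opD D x = Ψ k (Js k) * dT x + Ψ k (Θ D) * x := rfl

theorem Js_sq : Js k * Js k = 1 := by
  rw [Js, Matrix.diagonal_mul_diagonal, ← Matrix.diagonal_one]
  congr 1; funext s
  rw [Matrix.diagonal_mul_diagonal, ← Matrix.diagonal_one]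
  congr 1; funext y
  rw [Jb, ← Int.cast_mul, ← mul_pow]
  simp

theorem Ψ_mul_assoc (M N : MatS k) (x : XSp k) : Ψ k M * (Ψ k N * x) = Ψ k (M * N) * x := by
  rw [← Matrix.mul_assoc, ← map_mul]

theorem opD_opM {M : MatS k} (hM : M ∈ GoodM D 0) (hc : dM D M = 0) (x : XSp k) :
    opD D (opM M x) = opM M (opD D x) := by
  have hJ : Js k * τM k M = M * Js k := by simpa using Js_τM D hM
  have hc' : Js k * δM k M + Θ D * M = M * Θ D := sub_eq_zero.1 hc
  rw [opM_apply, opM_apply, opD_apply, opD_apply, dT_mul, Ψ_δ, Ψ_τ, Matrix.mul_add,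
    Ψ_mul_assoc, Ψ_mul_assoc, Ψ_mul_assoc, hJ, Matrix.mul_add, Ψ_mul_assoc, Ψ_mul_assoc,
    ← hc', map_add, Matrix.add_mul]
  abel

theorem τM_Js : τM k (Js k) = Js k := by
  refine funext fun s => funext fun t => Matrix.ext fun a b => ?_
  show τ k (Js k s t a b) = _
  simp only [Js, Matrix.diagonal_apply]
  split_ifs with h <;> simp only [Matrix.diagonal_apply, Matrix.zero_apply, map_zero]
  split_ifs with h'
  · rcases neg_one_pow_eq_or ℤ (shiftB (s, a)) with e | e <;> simp only [Jb, e] <;>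
      simp [τ_one]
  · simp

theorem δM_Js : δM k (Js k) = 0 := by
  refine funext fun s => funext fun t => Matrix.ext fun a b => ?_
  show δ k (Js k s t a b) = 0
  simp only [Js, Matrix.diagonal_apply]
  split_ifs with h <;> simp only [Matrix.diagonal_apply, Matrix.zero_apply, map_zero]
  split_ifs with h'
  · rcases neg_one_pow_eq_or ℤ (shiftB (s, a)) with e | e <;> simp only [Jb, e] <;>
      simp [δ_Deg_zero k (one_mem_Deg k)]
  · simp

theorem opD_opD (x : XSp k) : opD D (opD D x) = 0 := by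
  have hJ : Js k * τM k (Θ D) = -(Θ D * Js k) := by simpa using Js_τM D (Θ_good D)
  have hΘ := congrArg (Ψ k) (Θ_sq D)
  rw [map_add, map_zero] at hΘ
  rw [opD_apply, opD_apply, dT_add, dT_mul, dT_mul, dT_dT, Ψ_δ, Ψ_δ, Ψ_τ, Ψ_τ, δM_Js, τM_Js,
    map_zero, Matrix.zero_mul, Matrix.mul_zero, zero_add]
  simp only [Matrix.mul_add, Ψ_mul_assoc, Matrix.mul_zero, zero_add, hJ, map_neg, Matrix.neg_mul]
  have h3 : Ψ k (Js k * δM k (Θ D)) * x + Ψ k (Θ D * Θ D) * x = 0 := by
    rw [← Matrix.add_mul, hΘ, Matrix.zero_mul]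
  linear_combination (norm := abel) h3

end Vale.Agent.P176
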