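import Vale.Agent.P176.Global

/-!
P176: the surjection onto the two hats has exact kernel.
-/

namespace Vale.Agent.P176

universe u

variable {k : Type u} [Field k] (D : Lifts k) (N : RMod k)

attribute [local irreducible] WinRep.toLin RMod.winRep

theorem Θ_apply (s t : Slot) :
    Θ D s t = (if s = t then (match s with
        | .inr (_, true) => -Θc D
        | _ => Θc D) else 0) +
      (match s, t with
        | .inr (h, false), .inr (h', true) => if h = h' then 1 else 0
        | _, _ => 0) := by
  rw [Θ, Matrix.add_apply, Matrix.sum_apply, Matrix.sum_apply]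
  rcases s with v | ⟨h, _ | _⟩ <;> rcases t with v' | ⟨h', _ | _⟩ <;>
    simp [Matrix.single_apply, Finset.sum_ite_eq', ite_and]
  all_goals split_ifs <;> simp_all

/-- The twisted differential part on cells. -/
noncomputable def thetaPhi : Phi N →ₗ[k] Phi N := phiOp N (opM (Θ D))

/-- Left multiplication by `1 - e` on a cell. -/
noncomputable def multE (κ : Kind) (w : List Letter) (m : N.M) : PhiT N :=
  wordsTo N κ ((1 - D.e) * sW k w) m

theorem wordsTo_one (κ : Kind) (w : List Letter) (m : N.M) :
    wordsTo N κ (1 * sW k w) m = insT N (κ, w) m := by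
  rw [one_mul, wordsTo, linOn_sW]

theorem Blk_sum {A : Type u} [AddCommMonoid A] (f : Blk → A) :
    ∑ β, f β = ∑ s : Slot, (f (s, true) + f (s, false)) := by
  rw [Fintype.sum_prod_type]
  simp

theorem theta_inl (v : Fin 3) (b : Bool) (κ : Kind) (w : List Letter) (m : N.M) :
    thetaPhi D N (insC N ((.inl v, b), κ, w) m) =
      if b then 0 else embB N (.inl v, true) (multE D N κ w m) := by
  rw [thetaPhi, phiOp_opM_ins, Blk_sum, Finset.sum_eq_single (Sum.inl v)]
  · cases b <;> simp [Θ_apply, Θc, multE]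
  · intro s _ hs
    rcases s with v' | ⟨h, _ | _⟩ <;> simp [Θ_apply, hs]
  · simp

theorem theta_Qf (h : Gen) (b : Bool) (κ : Kind) (w : List Letter) (m : N.M) :
    thetaPhi D N (insC N ((.inr (h, false), b), κ, w) m) =
      if b then 0 else embB N (.inr (h, false), true) (multE D N κ w m) := by
  rw [thetaPhi, phiOp_opM_ins, Blk_sum, Finset.sum_eq_single (Sum.inr (h, false))]
  · cases b <;> simp [Θ_apply, Θc, multE]
  · intro s _ hs
    rcases s with v' | ⟨h', _ | _⟩ <;> simp [Θ_apply, hs]
  · simp

theorem theta_Qt (h : Gen) (b : Bool) (κ : Kind) (w : List Letter) (m : N.M) :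
    thetaPhi D N (insC N ((.inr (h, true), b), κ, w) m) =
      insC N ((.inr (h, false), b), κ, w) m -
        if b then 0 else embB N (.inr (h, true), true) (multE D N κ w m) := by
  rw [thetaPhi, phiOp_opM_ins, Blk_sum,
    Finset.sum_eq_add (Sum.inr (h, false)) (Sum.inr (h, true)) (by simp)]
  · rw [← embB_insT]
    cases b
    · simp [Θ_apply, Θc, multE, wordsTo, linOn_sW, sub_eq_add_neg]
      rw [show (D.e + -1) = -(1 + -D.e) by abel, neg_mul, map_neg]
      simp
    · simp [Θ_apply, Θc, multE, wordsTo, linOn_sW, sub_eq_add_neg]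
  · intro s _ hs
    rcases s with v' | ⟨h', _ | _⟩ <;> simp [Θ_apply, hs.1, hs.2]
    have hne : h' ≠ h := fun e => hs.1 (by rw [e])
    simp [hne]
  all_goals simp

theorem DPhi_emb (β : Blk) (x : PhiT N) :
    DPhi D N (embB N β x) = ((-1 : ℤ) ^ shiftB β) • embB N β (dTM N x) +
      thetaPhi D N (embB N β x) := by
  induction x using Finsupp.induction_linear with
  | zero => simp
  | add a b ha hb => simp only [map_add, ha, hb, smul_add]; abel
  | single c m =>
    obtain ⟨κ, w⟩ := c
    have e : (Finsupp.single ((κ, w) : TC) m) = insT N (κ, w) m := rfl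
    rw [e, embB_insT, thetaPhi, phiOp_opM_ins, DPhi_ins]

/-- The homotopy at a cell. -/
noncomputable def HCell : Cell0 → (N.M →ₗ[k] Phi N)
  | ((.inl v, y), κ, w) =>
    ((-1 : ℤ) ^ shiftB (.inl v, y)) • (embB N (.inl v, y) ∘ₗ hTM N ∘ₗ insT N (κ, w))
  | ((.inr (h, false), y), κ, w) => insC N ((.inr (h, true), y), κ, w)
  | _ => 0

/-- The homotopy. -/
noncomputable def HPhi : Phi N →ₗ[k] Phi N := Finsupp.lsum k (HCell N)

/-- The augmentation at a cell. -/
noncomputable def piCell : Cell0 → (N.M →ₗ[k] (Fin 3 × Bool → N.M))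
  | ((.inl v, y), κ, w) => LinearMap.single k (fun _ => N.M) (v, y) ∘ₗ augCell N (κ, w)
  | _ => 0

/-- The projection to the two hats. -/
noncomputable def piPhi : Phi N →ₗ[k] (Fin 3 × Bool → N.M) := Finsupp.lsum k (piCell N)

/-- The section. -/
noncomputable def secPhi : (Fin 3 × Bool → N.M) →ₗ[k] Phi N :=
  ∑ p : Fin 3 × Bool, embB N (.inl p.1, p.2) ∘ₗ secT N ∘ₗ LinearMap.proj p

theorem HPhi_ins (c : Cell0) (m : N.M) : HPhi N (insC N c m) = HCell N c m := by
  simp [HPhi, insC]

theorem piPhi_ins (c : Cell0) (m : N.M) : piPhi N (insC N c m) = piCell N c m := by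
  simp [piPhi, insC]

theorem augT_ins (c : TC) (m : N.M) : augT N (insT N c m) = augCell N c m := by
  simp [augT, insT]

theorem HPhi_emb_inl (v : Fin 3) (y : Bool) (x : PhiT N) :
    HPhi N (embB N (.inl v, y) x) =
      ((-1 : ℤ) ^ shiftB (.inl v, y)) • embB N (.inl v, y) (hTM N x) := by
  induction x using Finsupp.induction_linear with
  | zero => simp
  | add a b ha hb => simp [ha, hb, smul_add]
  | single c m =>
    obtain ⟨κ, w⟩ := c
    have e : (Finsupp.single ((κ, w) : TC) m) = insT N (κ, w) m := rfl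
    rw [e, embB_insT, HPhi_ins]
    simp [HCell]

theorem HPhi_emb_Qf (h : Gen) (y : Bool) (x : PhiT N) :
    HPhi N (embB N (.inr (h, false), y) x) = embB N (.inr (h, true), y) x := by
  induction x using Finsupp.induction_linear with
  | zero => simp
  | add a b ha hb => simp [ha, hb]
  | single c m =>
    obtain ⟨κ, w⟩ := c
    have e : (Finsupp.single ((κ, w) : TC) m) = insT N (κ, w) m := rfl
    rw [e, embB_insT, HPhi_ins, embB_insT]
    simp [HCell]

theorem HPhi_emb_Qt (h : Gen) (y : Bool) (x : PhiT N) :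
    HPhi N (embB N (.inr (h, true), y) x) = 0 := by
  induction x using Finsupp.induction_linear with
  | zero => simp
  | add a b ha hb => simp [ha, hb]
  | single c m =>
    obtain ⟨κ, w⟩ := c
    have e : (Finsupp.single ((κ, w) : TC) m) = insT N (κ, w) m := rfl
    rw [e, embB_insT, HPhi_ins]
    simp [HCell]

theorem piPhi_emb_inl (v : Fin 3) (y : Bool) (x : PhiT N) :
    piPhi N (embB N (.inl v, y) x) = Pi.single (v, y) (augT N x) := by
  induction x using Finsupp.induction_linear with
  | zero => simp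
  | add a b ha hb => simp [ha, hb, Pi.single_add]
  | single c m =>
    obtain ⟨κ, w⟩ := c
    have e : (Finsupp.single ((κ, w) : TC) m) = insT N (κ, w) m := rfl
    rw [e, embB_insT, piPhi_ins, augT_ins]
    simp [piCell]

theorem piPhi_emb_inr (q : Gen × Bool) (y : Bool) (x : PhiT N) :
    piPhi N (embB N (.inr q, y) x) = 0 := by
  induction x using Finsupp.induction_linear with
  | zero => simp
  | add a b ha hb => simp [ha, hb]
  | single c m =>
    obtain ⟨κ, w⟩ := c
    have e : (Finsupp.single ((κ, w) : TC) m) = insT N (κ, w) m := rfl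
    rw [e, embB_insT, piPhi_ins]
    simp [piCell]

theorem piPhi_secPhi (t : Fin 3 × Bool → N.M) : piPhi N (secPhi N t) = t := by
  rw [secPhi, LinearMap.sum_apply, map_sum]
  refine Eq.trans (Finset.sum_congr rfl fun p _ => ?_) (Finset.univ_sum_single t)
  rw [LinearMap.comp_apply, LinearMap.comp_apply, LinearMap.proj_apply, piPhi_emb_inl,
    augT_secT]

theorem piPhi_HPhi (z : Phi N) : piPhi N (HPhi N z) = 0 := by
  induction z using Finsupp.induction_linear with
  | zero => simp
  | add a b ha hb => simp [ha, hb]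
  | single c m =>
    obtain ⟨⟨v | ⟨h, _ | _⟩, y⟩, κ, w⟩ := c
    all_goals show piPhi N (HPhi N (insC N _ m)) = 0
    all_goals rw [HPhi_ins]
    · simp [HCell, piPhi_emb_inl, augT_hTM]
    · simp [HCell, piPhi_ins, piCell]
    · simp [HCell]

theorem augT_wordsTo_mul (κ : Kind) (x : S k) (w : List Letter) (m : N.M) :
    augT N (wordsTo N κ (x * sW k w) m) = evS k N.op x (augT N (insT N (κ, w) m)) := by
  refine sW_induction k x (by simp) (fun a b ha hb => by simp [add_mul, ha, hb])
    (fun r a ha => by simp [ha]) (fun u => ?_)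
  rw [sW_mul, wordsTo, linOn_sW, augT_ins, augT_ins]
  rcases κ with v | _
  · simp [augCell, ← sW_mul, Module.End.mul_apply]
  · simp [augCell]

/-- The differential of the two hats. -/
noncomputable def twoD (t : Fin 3 × Bool → N.M) : Fin 3 × Bool → N.M :=
  fun p => if p.2 then (evS k N.op (1 - D.e)) (t (p.1, false)) else 0

theorem twoD_add (s t : Fin 3 × Bool → N.M) : twoD D N (s + t) = twoD D N s + twoD D N t := by
  funext p; by_cases h : p.2 <;> simp [twoD, h]
  abel

theorem piPhi_DPhi (z : Phi N) : piPhi N (DPhi D N z) = twoD D N (piPhi N z) := by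
  induction z using Finsupp.induction_linear with
  | zero => funext p; simp [twoD]
  | add a b ha hb => simp [ha, hb, twoD_add]
  | single c m =>
    obtain ⟨⟨s, y⟩, κ, w⟩ := c
    show piPhi N (DPhi D N (insC N _ m)) = twoD D N (piPhi N (insC N _ m))
    rw [← embB_insT, DPhi_emb, map_add, map_zsmul, embB_insT]
    rcases s with v | ⟨h, _ | _⟩
    · rw [piPhi_emb_inl, augT_dTM, theta_inl, piPhi_ins]
      funext p
      obtain ⟨v', y'⟩ := p
      cases y <;> cases y' <;> rcases κ with κ | κ <;>
        simp [twoD, piCell, piPhi_emb_inl, multE, augT_wordsTo_mul, augT_ins, Pi.single_apply,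
          apply_ite ((evS k N.op (1 - D.e) : Module.End k N.M))]
      all_goals by_cases hv : v' = v <;> simp [hv, augCell]
    · rw [piPhi_emb_inr, theta_Qf, piPhi_ins]
      funext p
      cases y <;> simp [twoD, piCell, piPhi_emb_inr]
    · rw [piPhi_emb_inr, theta_Qt, piPhi_ins]
      funext p
      cases y <;> simp [twoD, piCell, piPhi_emb_inr, piPhi_ins]

/-- Bound for ranks of bounded cells. -/
def BIG : ℕ := 4 * ((2 + 7 * D.P + 1) * (2 + 7 * D.P + 1)) + 4

/-- Rank of a cell. -/
def rkC : Cell0 → ℕ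
  | ((.inl _, y), c) => (if y then 0 else BIG D) + rankT c
  | _ => 0

theorem rankT_bound {β : Blk} {c : TC} (h : InB D (β, c)) : rankT c < BIG D := by
  have hb := lev_le D β
  have h1 : wtT c ≤ 2 + 7 * D.P := le_trans h hb
  have h2 : epsT c ≤ wtT c := by
    obtain ⟨κ, w⟩ := c
    have := ecount_le_weight w
    rcases κ with v | ⟨v, g⟩ | l | r <;> simp [epsT, wtT, koff] <;> omega
  have h3 : stageT c.1 ≤ 3 := by
    obtain ⟨κ, w⟩ := c
    rcases κ with v | ⟨v, _ | g⟩ | l | r <;> simp [stageT] <;> first | omega | (fin_cases v <;> simp)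
  have h4 : wtT c * (wtT c + 1) + epsT c ≤ (2 + 7 * D.P + 1) * (2 + 7 * D.P + 1) := by
    nlinarith
  unfold rankT BIG
  omega

/-- The bounded cells of rank below `r`. -/
def Below (r : ℕ) : Set Cell0 := {c | InB D c ∧ rkC D c < r}

theorem emb_mem {β : Blk} {P : Set TC} {Q : Set Cell0} (h : ∀ c ∈ P, (β, c) ∈ Q) {x : PhiT N}
    (hx : x ∈ Finsupp.supported N.M k P) : embB N β x ∈ Finsupp.supported N.M k Q := by
  rw [← x.sum_single, Finsupp.sum, map_sum]
  refine Submodule.sum_mem _ fun c hc => ?_
  have : embB N β (Finsupp.single c (x c)) = Finsupp.single (β, c) (x c) := by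
    simp [embB]
  rw [this]
  exact Finsupp.single_mem_supported k _ (h c ((Finsupp.mem_supported k x).1 hx hc))

theorem HPhi_bdd {z : Phi N} (hz : z ∈ Finsupp.supported N.M k {c | InB D c}) :
    HPhi N z ∈ Finsupp.supported N.M k {c | InB D c} := by
  rw [← z.sum_single, Finsupp.sum, map_sum]
  refine Submodule.sum_mem _ fun c hc => ?_
  have hc' : InB D c := (Finsupp.mem_supported k z).1 hz hc
  show HPhi N (insC N c (z c)) ∈ _
  rw [HPhi_ins]
  obtain ⟨⟨v | ⟨h, _ | _⟩, y⟩, κ, w⟩ := c
  · simp only [HCell, LinearMap.smul_apply, LinearMap.comp_apply]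
    refine zsmul_mem (emb_mem N (fun c hcc => ?_) (hTM_supported N (κ, w) _)) _
    have e : wtT c = wtT (κ, w) := hcc
    exact le_of_eq_of_le e hc'
  · refine Finsupp.single_mem_supported k _ ?_
    exact hc'
  · exact zero_mem _

theorem DPhi_bdd {z : Phi N} (hz : z ∈ Finsupp.supported N.M k {c | InB D c}) :
    DPhi D N z ∈ Finsupp.supported N.M k {c | InB D c} :=
  phiOp_bdd D N (moves_opD D) hz

theorem secPhi_bdd (t : Fin 3 × Bool → N.M) :
    secPhi N t ∈ Finsupp.supported N.M k {c | InB D c} := by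
  rw [secPhi, LinearMap.sum_apply]
  refine Submodule.sum_mem _ fun p _ => ?_
  refine emb_mem N (P := {c | c = ((.inl 0, []) : TC)}) ?_ (Finsupp.single_mem_supported k _ rfl)
  rintro c rfl
  show weight ([] : List Letter) + koff (.inl 0) ≤ _
  simp [weight, koff]

/-- `DH + HD + ιπ - 1` lowers the rank. -/
theorem core_lower (c : Cell0) (m : N.M) (hc : InB D c) :
    DPhi D N (HPhi N (insC N c m)) + HPhi N (DPhi D N (insC N c m)) +
        secPhi N (piPhi N (insC N c m)) - insC N c m ∈
      Finsupp.supported N.M k (Below D (rkC D c)) := by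
  have hins : insC N c m ∈ Finsupp.supported N.M k {c | InB D c} :=
    Finsupp.single_mem_supported k _ hc
  have hb : DPhi D N (HPhi N (insC N c m)) + HPhi N (DPhi D N (insC N c m)) +
      secPhi N (piPhi N (insC N c m)) - insC N c m ∈
      Finsupp.supported N.M k {c | InB D c} :=
    sub_mem (add_mem (add_mem (DPhi_bdd D N (HPhi_bdd D N hins))
      (HPhi_bdd D N (DPhi_bdd D N hins))) (secPhi_bdd D N _)) hins
  obtain ⟨⟨s, y⟩, κ, w⟩ := c
  rcases s with v | ⟨h, _ | _⟩
  · have hsgn : ((-1 : ℤ) ^ shiftB (Sum.inl v, y)) * ((-1 : ℤ) ^ shiftB (Sum.inl v, y)) = 1 := by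
      rw [← mul_pow]; simp
    have hH : HPhi N (insC N ((Sum.inl v, y), κ, w) m) =
        ((-1 : ℤ) ^ shiftB (Sum.inl v, y)) • embB N (.inl v, y) (hTM N (insT N (κ, w) m)) := by
      rw [← embB_insT, HPhi_emb_inl]
    have hsec : secPhi N (piPhi N (insC N ((Sum.inl v, y), κ, w) m)) =
        embB N (.inl v, y) (secT N (augT N (insT N (κ, w) m))) := by
      rw [← embB_insT, piPhi_emb_inl, secPhi, LinearMap.sum_apply,
        Finset.sum_eq_single (v, y)]
      · simp
      · intro p _ hp; simp [hp]
      · simp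
    have hD : DPhi D N (insC N ((Sum.inl v, y), κ, w) m) =
        ((-1 : ℤ) ^ shiftB (Sum.inl v, y)) • embB N (.inl v, y) (dTM N (insT N (κ, w) m)) +
          thetaPhi D N (insC N ((Sum.inl v, y), κ, w) m) := by
      rw [← embB_insT, DPhi_emb]
    have key : DPhi D N (HPhi N (insC N ((Sum.inl v, y), κ, w) m)) +
        HPhi N (DPhi D N (insC N ((Sum.inl v, y), κ, w) m)) +
        secPhi N (piPhi N (insC N ((Sum.inl v, y), κ, w) m)) -
        insC N ((Sum.inl v, y), κ, w) m =
      embB N (.inl v, y) (dTM N (hTM N (insT N (κ, w) m)) + hTM N (dTM N (insT N (κ, w) m)) +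
          secT N (augT N (insT N (κ, w) m)) - insT N (κ, w) m) +
        (((-1 : ℤ) ^ shiftB (Sum.inl v, y)) •
          thetaPhi D N (embB N (.inl v, y) (hTM N (insT N (κ, w) m))) +
          HPhi N (thetaPhi D N (insC N ((Sum.inl v, y), κ, w) m))) := by
      rw [hH, hsec, hD, map_zsmul, DPhi_emb, map_add, map_zsmul, HPhi_emb_inl, smul_add,
        smul_smul, smul_smul, hsgn, one_smul, one_smul, map_sub, map_add, map_add, embB_insT]
      abel
    rw [key] at hb ⊢
    have h1 : embB N (.inl v, y) (dTM N (hTM N (insT N (κ, w) m)) +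
        hTM N (dTM N (insT N (κ, w) m)) + secT N (augT N (insT N (κ, w) m)) -
          insT N (κ, w) m) ∈
        Finsupp.supported N.M k {c' | rkC D c' < rkC D ((Sum.inl v, y), κ, w)} := by
      refine emb_mem N (fun c' hc' => ?_) (homotopy_lower N (κ, w) m)
      exact Nat.add_lt_add_left hc' _
    have h2 : ((-1 : ℤ) ^ shiftB (Sum.inl v, y)) •
          thetaPhi D N (embB N (.inl v, y) (hTM N (insT N (κ, w) m))) +
        HPhi N (thetaPhi D N (insC N ((Sum.inl v, y), κ, w) m)) ∈
        Finsupp.supported N.M k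
          {c' | y = false ∧ c'.1 = ((Sum.inl v, true) : Blk)} := by
      refine add_mem (zsmul_mem ?_ _) ?_
      · generalize hTM N (insT N (κ, w) m) = x
        induction x using Finsupp.induction_linear with
        | zero => simp
        | add a b ha hb => simpa using add_mem ha hb
        | single c' m' =>
          obtain ⟨κ', w'⟩ := c'
          show thetaPhi D N (embB N _ (insT N (κ', w') m')) ∈ _
          rw [embB_insT, theta_inl]
          cases y
          · exact emb_mem N (P := Set.univ) (fun _ _ => show _ ∧ _ from ⟨rfl, rfl⟩) (by simp)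
          · exact zero_mem _
      · rw [theta_inl]
        cases y
        · rw [if_neg (by simp), HPhi_emb_inl]
          exact zsmul_mem (emb_mem N (P := Set.univ) (fun _ _ => show _ ∧ _ from ⟨rfl, rfl⟩) (by simp)) _
        · simp
    refine (Finsupp.mem_supported' k _).2 fun c' hc' => ?_
    by_cases hI : InB D c'
    · have hr : ¬ rkC D c' < rkC D ((Sum.inl v, y), κ, w) := fun h => hc' ⟨hI, h⟩
      rw [Finsupp.add_apply, (Finsupp.mem_supported' k _).1 h1 c' hr, zero_add]
      refine (Finsupp.mem_supported' k _).1 h2 c' ?_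
      rintro ⟨rfl, he⟩
      refine hr ?_
      obtain ⟨β, c''⟩ := c'
      simp only at he
      subst he
      have := rankT_bound D hI
      simp only [rkC, if_true, Bool.false_eq_true, if_false]
      omega
    · exact (Finsupp.mem_supported' k _).1 hb c' hI
  · have e : DPhi D N (HPhi N (insC N ((Sum.inr (h, false), y), κ, w) m)) +
        HPhi N (DPhi D N (insC N ((Sum.inr (h, false), y), κ, w) m)) +
        secPhi N (piPhi N (insC N ((Sum.inr (h, false), y), κ, w) m)) -
        insC N ((Sum.inr (h, false), y), κ, w) m = 0 := by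
      rw [← embB_insT N (Sum.inr (h, false), y), HPhi_emb_Qf, DPhi_emb, DPhi_emb, piPhi_emb_inr,
        map_zero, map_add, map_zsmul, HPhi_emb_Qf, embB_insT, embB_insT, theta_Qt, theta_Qf]
      have hs : ((-1 : ℤ) ^ shiftB (Sum.inr (h, true), y)) =
          -((-1 : ℤ) ^ shiftB (Sum.inr (h, false), y)) := by
        cases y <;> simp [shiftB]
      rw [hs, neg_smul]
      cases y <;> simp [HPhi_emb_Qf] <;> abel
    rw [e]; exact zero_mem _
  · have e : DPhi D N (HPhi N (insC N ((Sum.inr (h, true), y), κ, w) m)) +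
        HPhi N (DPhi D N (insC N ((Sum.inr (h, true), y), κ, w) m)) +
        secPhi N (piPhi N (insC N ((Sum.inr (h, true), y), κ, w) m)) -
        insC N ((Sum.inr (h, true), y), κ, w) m = 0 := by
      rw [← embB_insT N (Sum.inr (h, true), y), HPhi_emb_Qt, DPhi_emb, piPhi_emb_inr,
        map_zero, map_zero, map_add, map_zsmul, HPhi_emb_Qt, embB_insT, theta_Qt, map_sub]
      have hq : HPhi N (insC N ((Sum.inr (h, false), y), κ, w) m) =
          insC N ((Sum.inr (h, true), y), κ, w) m := by
        rw [← embB_insT, HPhi_emb_Qf, embB_insT]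
      cases y <;> simp [HPhi_emb_Qt, hq]
    rw [e]; exact zero_mem _

theorem exact_kernel_aux (r : ℕ) : ∀ z : Phi N, z ∈ Finsupp.supported N.M k (Below D r) →
    DPhi D N z = 0 → piPhi N z = 0 →
    ∃ y ∈ Finsupp.supported N.M k {c | InB D c}, piPhi N y = 0 ∧ DPhi D N y = z := by
  induction r with
  | zero =>
    intro z hz _ _
    have : z = 0 := by
      refine Finsupp.ext fun c => ?_
      exact (Finsupp.mem_supported' k _).1 hz c fun h => Nat.not_lt_zero _ h.2
    exact ⟨0, zero_mem _, map_zero _, by rw [this, map_zero]⟩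
  | succ r ih =>
    intro z hz hd hp
    have hzb : z ∈ Finsupp.supported N.M k {c | InB D c} :=
      Finsupp.supported_mono (fun c hc => hc.1) hz
    let N' : Phi N →ₗ[k] Phi N := DPhi D N ∘ₗ HPhi N + HPhi N ∘ₗ DPhi D N +
      secPhi N ∘ₗ piPhi N - LinearMap.id
    have hN : N' z ∈ Finsupp.supported N.M k (Below D r) := by
      rw [← z.sum_single, Finsupp.sum, map_sum]
      refine Submodule.sum_mem _ fun c hc => ?_
      have hc' : c ∈ Below D (r + 1) := (Finsupp.mem_supported k z).1 hz hc
      have := core_lower D N c (z c) hc'.1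
      refine Finsupp.supported_mono (fun c'' h'' => ?_) this
      exact ⟨h''.1, lt_of_lt_of_le h''.2 (Nat.lt_succ_iff.1 hc'.2)⟩
    have e : N' z = DPhi D N (HPhi N z) - z := by
      simp [N', hd, hp]
    have hp' : piPhi N (DPhi D N (HPhi N z)) = 0 := by
      rw [piPhi_DPhi, piPhi_HPhi]; funext p; simp [twoD]
    have hd' : DPhi D N (DPhi D N (HPhi N z)) = 0 := by
      rw [← toPhi_ofPhi D N (HPhi_bdd D N hzb), ← toPhi_d, ← toPhi_d]
      have : (theSetting D).d N.Hat ((theSetting D).d N.Hat (ofPhi D N (HPhi N z))) = 0 := by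
        refine Subtype.ext ?_
        show (theSetting D).mv (theSetting D).D ((theSetting D).mv (theSetting D).D _) = 0
        rw [Setting.mv_mv, Setting.D_sq]
        funext i
        simp [Setting.mv]
      rw [this, toPhi_zero]
    obtain ⟨y, hy1, hy2, hy3⟩ := ih (-N' z) (neg_mem hN)
      (by rw [map_neg, e, map_sub, hd, hd', sub_zero, neg_zero])
      (by rw [map_neg, e, map_sub, hp, hp', sub_zero, neg_zero])
    refine ⟨HPhi N z + y, add_mem (HPhi_bdd D N hzb) hy1, by simp [piPhi_HPhi, hy2], ?_⟩
    rw [map_add, hy3, e]; abel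

theorem exact_kernel {z : Phi N} (hz : z ∈ Finsupp.supported N.M k {c | InB D c})
    (hd : DPhi D N z = 0) (hp : piPhi N z = 0) :
    ∃ y ∈ Finsupp.supported N.M k {c | InB D c}, piPhi N y = 0 ∧ DPhi D N y = z := by
  refine exact_kernel_aux D N (2 * BIG D + 1) z
    (Finsupp.supported_mono (t := Below D (2 * BIG D + 1)) (fun c hc => ⟨hc, ?_⟩) hz) hd hp
  obtain ⟨⟨v | q, y⟩, c'⟩ := c
  · have := rankT_bound D hc
    cases y <;> simp [rkC] <;> omega
  · simp [rkC]

end Vale.Agent.P176
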