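import Vale.Agent.P176.Peel

set_option linter.unusedSectionVars false
set_option linter.unusedVariables false

/-! The machine: iterated reductions give finite and unbounded projective dimensions. -/

namespace Vale.Agent.P176

open CategoryTheory Abelian

universe u v

namespace Setting

variable {k B : Type u} [Field k] [Ring B] [Algebra k B] (S : Setting k B)

/-- A component of the scalar part acts on each cell through the degree of the cell. -/
theorem R_mv_congr {U : Type u} [AddCommGroup U] [Module B U] (v : S.Vtx) (i : Fin (S.l + 1))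
    (z : S.F U) (c : S.Cell) (hc : S.deg c = i) :
    S.mv (S.R v) z.1 c = (v i • z).1 c := by
  simp only [mv, R, hc]
  rfl

/-- The two projections of a reduction are linear over the algebra of the machine. -/
theorem proj_linear {U G : Type u} [AddCommGroup U] [Module B U] [AddCommGroup G] [Module B G]
    (i : Fin (S.l + 1)) (p : S.F U →ₗ[B] G)
    (hsupp : ∀ z : S.F U, (∀ c, (S.deg c : ℕ) = i → z.1 c = 0) → p z = 0)
    (hd : ∀ z, p (S.d U z) = 0) (x : S.Alg) (z : S.F U) :
    p (x • z) = S.pos i x • p z := by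
  let b : B := x.fst.fst i
  let b' : B := S.up x.fst.snd i
  have key : p (x • z - b • z - b' • S.d U z) = 0 := by
    refine hsupp _ fun c hc => ?_
    have hc' : S.deg c = i := Fin.ext hc
    show (x • z).1 c - (b • z).1 c - (b' • S.d U z).1 c = 0
    have e : (x • z).1 c = S.mv (S.R x.fst.fst) z.1 c
        + S.mv (S.R (S.up x.fst.snd) * S.D) z.1 c :=
      congrFun (S.add_mv (S.R x.fst.fst) (S.R (S.up x.fst.snd) * S.D) z.1) c
    rw [e, R_mv_congr S _ i z c hc', ← mv_mv, show S.mv S.D z.1 = (S.d U z).1 from rfl,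
      R_mv_congr S _ i (S.d U z) c hc']
    abel
  rw [map_sub, map_sub, p.map_smul b z, p.map_smul b' (S.d U z), hd, smul_zero, sub_zero, sub_eq_zero] at key
  exact key

section Reduce

variable {U G T : ModuleCat.{u} B} (hl : 2 ≤ S.l) (r : S.Reduction U G T)

/-- The position two. -/
def two : Fin (S.l + 1) := ⟨2, by omega⟩

/-- The position one. -/
def one' : Fin (S.l + 1) := ⟨1, by omega⟩

/-- The map onto the two remaining terms. -/
noncomputable def redMap : S.F U →ₗ[S.Alg] S.Pt (S.two hl) G × S.Pt (S.one' hl) T where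
  toFun z := (Pt.mk (r.pG z), Pt.mk (r.pT z))
  map_add' a b := Prod.ext (r.pG.map_add a b) (r.pT.map_add a b)
  map_smul' x z := Prod.ext (S.proj_linear (S.two hl) r.pG r.pG_supp r.pG_d x z)
    (S.proj_linear (S.one' hl) r.pT r.pT_supp r.pT_d x z)

theorem redMap_surj : Function.Surjective (S.redMap hl r) := by
  rintro ⟨g, t⟩
  obtain ⟨x, hx⟩ := r.pG_surj g.out
  obtain ⟨y, hy⟩ := r.pT_surj t.out
  let cut : S.F U → ℕ → S.F U := fun z n =>
    ⟨fun c => if (S.deg c : ℕ) = n then z.1 c else 0, fun c => by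
      show S.ev c • (if (S.deg c : ℕ) = n then z.1 c else 0)
        = (if (S.deg c : ℕ) = n then z.1 c else 0)
      split_ifs
      · exact z.2 c
      · exact smul_zero _⟩
  have hG : r.pG (cut x 2) = r.pG x := by
    refine sub_eq_zero.1 ((map_sub _ _ _).symm.trans (r.pG_supp _ fun c hc => ?_))
    show (cut x 2).1 c - x.1 c = 0
    simp [cut, hc]
  have hT : r.pT (cut y 1) = r.pT y := by
    refine sub_eq_zero.1 ((map_sub _ _ _).symm.trans (r.pT_supp _ fun c hc => ?_))
    show (cut y 1).1 c - y.1 c = 0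
    simp [cut, hc]
  have hG' : r.pG (cut y 1) = 0 := r.pG_supp _ fun c hc => by simp [cut, hc]
  have hT' : r.pT (cut x 2) = 0 := r.pT_supp _ fun c hc => by simp [cut, hc]
  refine ⟨cut x 2 + cut y 1, Prod.ext ?_ ?_⟩
  · show r.pG (cut x 2 + cut y 1) = g.out
    rw [map_add, hG, hG', add_zero, hx]
  · show r.pT (cut x 2 + cut y 1) = t.out
    rw [map_add, hT, hT', zero_add, hy]

include hl r in
/-- The sequence of a reduction, with an acyclic first term. -/
theorem ses_red (hgl : ∀ U : ModuleCat.{u} B, HasProjectiveDimensionLT U 3) :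
    ∃ W : ShortComplex (ModuleCat.{u} S.Alg), W.ShortExact ∧ W.X₂ = S.mF U ∧
      W.X₃ = ModuleCat.of S.Alg (S.Pt (S.two hl) G × S.Pt (S.one' hl) T) ∧
      HasProjectiveDimensionLT W.X₁ 3 ∧
      ∀ (K : ModuleCat.{u} B) (m : ℕ) (e : Ext W.X₁ (S.mI 0 K) m), e = 0 := by
  let Ker := LinearMap.ker (S.redMap hl r)
  obtain ⟨h1, h2⟩ := S.exact_acyclic hgl (S.l + 1) (ModuleCat.of S.Alg Ker)
    (fun x z => Subtype.ext (S.X_smul_F U x z.1)) (fun i hi => absurd i.isLt (by omega))
    (fun z hz => by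
      have hz0 := congrArg Prod.fst (LinearMap.mem_ker.1 z.2)
      have hz1 := congrArg Prod.snd (LinearMap.mem_ker.1 z.2)
      obtain ⟨y, hy1, hy2, hy3⟩ := r.exact_ker z.1
        ((S.Δ_smul_F U z.1).symm.trans (congrArg Subtype.val hz)) hz0 hz1
      exact ⟨⟨y, LinearMap.mem_ker.2 (Prod.ext hy1 hy2)⟩,
        Subtype.ext ((S.Δ_smul_F U y).trans hy3)⟩)
  exact ⟨_, shortExact_of Ker.subtype (S.redMap hl r) Subtype.val_injective
    (LinearMap.exact_subtype_ker_map _) (S.redMap_surj hl r), rfl, rfl, h1, h2⟩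

end Reduce

/-- Finite projective dimension at position zero moves to every position. -/
theorem pd_positions (hgl : ∀ U : ModuleCat.{u} B, HasProjectiveDimensionLT U 3)
    (U : ModuleCat.{u} B) {d : ℕ} (h : HasProjectiveDimensionLT (S.mI 0 U) d) :
    ∀ (n : ℕ) (hn : n < S.l + 1),
      HasProjectiveDimensionLT (S.mI ⟨n, hn⟩ U) (d + 3 + n) := by
  intro n
  induction n with
  | zero => intro hn; exact hasProjectiveDimensionLT_of_ge (S.mI 0 U) d _ (by omega)
  | succ n ih =>
    intro hn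
    obtain ⟨T, hT, h1, h2, h3⟩ := S.ses_disc ⟨n, by omega⟩ U
    have a := S.pd_mD hgl ⟨n, by omega⟩ U
    have a' : HasProjectiveDimensionLT T.X₂ (d + 3 + n + 1) := by
      rw [h2]; exact hasProjectiveDimensionLT_of_ge _ 3 _ (by omega)
    have b : HasProjectiveDimensionLT T.X₁ (d + 3 + n) := h1 ▸ ih (by omega)
    exact h3 ▸ hT.hasProjectiveDimensionLT_X₃ (d + 3 + n) b a'

/-- The position zero module has finite projective dimension if the complex has. -/
theorem pd_of_complex (hgl : ∀ U : ModuleCat.{u} B, HasProjectiveDimensionLT U 3)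
    (U : ModuleCat.{u} B) {d : ℕ} (h : HasProjectiveDimensionLT (S.mF U) d) :
    HasProjectiveDimensionLT (S.mI 0 U) (d + 3 + 1) := by
  obtain ⟨T, hT, h1, h2, h3⟩ := S.ses_cover U
  have a := S.pd_mW hgl U
  have a' : HasProjectiveDimensionLT T.X₂ (d + 3 + 1) := by
    rw [h2]; exact hasProjectiveDimensionLT_of_ge _ 3 _ (by omega)
  have b : HasProjectiveDimensionLT T.X₁ (d + 3) := by
    rw [h1]; exact hasProjectiveDimensionLT_of_ge _ d _ (by omega)
  exact h3 ▸ hT.hasProjectiveDimensionLT_X₃ (d + 3) b a'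

/-- A nonzero class at a position gives one a position higher. -/
theorem ext_succ (j : Fin S.l) (U K : ModuleCat.{u} B) {m : ℕ}
    (h : ∃ e : Ext (S.mI j.castSucc U) (S.mI 0 K) m, e ≠ 0) :
    ∃ e : Ext (S.mI j.succ U) (S.mI 0 K) (m + 1), e ≠ 0 := by
  obtain ⟨T, hT, h1, h2, h3⟩ := S.ses_disc j U
  rw [← h1] at h
  rw [← h3]
  obtain ⟨e, he⟩ := h
  refine ⟨hT.extClass.comp e (add_comm 1 m), fun h0 => he ?_⟩
  obtain ⟨x₂, rfl⟩ := Ext.contravariant_sequence_exact₁ hT _ e (add_comm 1 m) h0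
  have hx : ∀ X (x : Ext X (S.mI 0 K) m), X = S.mD j U → x = 0 := by
    rintro X x rfl
    exact S.ext_mD_zero j K m U x
  rw [hx _ x₂ h2, Ext.comp_zero]

/-- A nonzero class on the complex gives one on the position zero module. -/
theorem ext_cover (hgl : ∀ U : ModuleCat.{u} B, HasProjectiveDimensionLT U 3)
    (U K : ModuleCat.{u} B) {m : ℕ} (hm : 3 ≤ m)
    (h : ∃ e : Ext (S.mF U) (S.mI 0 K) m, e ≠ 0) :
    ∃ e : Ext (S.mI 0 U) (S.mI 0 K) (m + 1), e ≠ 0 := by
  obtain ⟨T, hT, h1, h2, h3⟩ := S.ses_cover U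
  rw [← h1] at h
  rw [← h3]
  obtain ⟨e, he⟩ := h
  refine ⟨hT.extClass.comp e (add_comm 1 m), fun h0 => he ?_⟩
  obtain ⟨x₂, rfl⟩ := Ext.contravariant_sequence_exact₁ hT _ e (add_comm 1 m) h0
  have hX : HasProjectiveDimensionLT T.X₂ 3 := h2 ▸ S.pd_mW hgl U
  rw [x₂.eq_zero_of_hasProjectiveDimensionLT 3 hm, Ext.comp_zero]

/-- The base class: a module that is not projective has an extension. -/
theorem ext_base (U : ModuleCat.{u} B) (hU : ¬ Projective U) :
    ∃ (K : ModuleCat.{u} B) (e : Ext (S.mI 0 U) (S.mI 0 K) 1), e ≠ 0 := by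
  obtain ⟨K, P, f, g, hP, hf, hex, hg⟩ := presentation U
  have hS := shortExact_of (S.mapPt 0 f) (S.mapPt 0 g) hf hex hg
  refine ⟨K, hS.extClass, fun h0 => hU ?_⟩
  have h1 : hS.extClass.comp (Ext.mk₀ (𝟙 (S.mI 0 K))) (add_zero 1) = 0 := by
    rw [Ext.comp_mk₀_id, h0]
  obtain ⟨x₂, hx⟩ := Ext.contravariant_sequence_exact₁ hS _ (Ext.mk₀ (𝟙 (S.mI 0 K)))
    (add_zero 1) h1
  obtain ⟨φ, rfl⟩ := Ext.homEquiv₀.symm.surjective x₂
  simp only [Ext.homEquiv₀_symm_apply, Ext.mk₀_comp_mk₀] at hx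
  have hφ : ModuleCat.ofHom (S.mapPt 0 f) ≫ φ = 𝟙 (S.mI 0 K) :=
    Ext.homEquiv₀.symm.injective (by simpa using hx)
  let ret : P →ₗ[B] K :=
    { toFun := fun u => φ.hom (Pt.mk u : S.Pt 0 P)
      map_add' := fun a b => φ.hom.map_add (Pt.mk a : S.Pt 0 P) (Pt.mk b)
      map_smul' := fun b u => φ.hom.map_smul (S.vtx b) (Pt.mk u : S.Pt 0 P) }
  have hr : ret.comp f = LinearMap.id := LinearMap.ext fun u =>
    congrArg (fun t : S.mI 0 K ⟶ S.mI 0 K => t.hom (Pt.mk u : S.Pt 0 K)) hφ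
  obtain ⟨s, hs⟩ : ∃ s : U →ₗ[B] P, g.comp s = LinearMap.id :=
    (show (∃ l, g ∘ₗ l = LinearMap.id) ↔ (∃ l, l ∘ₗ f = LinearMap.id) from
      (Function.Exact.split_tfae hex hf hg).out 0 1).2 ⟨ret, hr⟩
  exact (IsProjective.iff_projective _).1 (Module.Projective.of_split s g hs)

end Setting

/-- The machine: iterated reductions give an algebra with unbounded finitistic dimension. -/
theorem machine {k B : Type u} [Field k] [Ring B] [Algebra k B] [Module.Finite k B]
    (S : Setting k B) (hgl : ∀ U : ModuleCat.{u} B, HasProjectiveDimensionLT U 3)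
    (P : ℕ → ModuleCat.{u} B → Prop) (Triv : ModuleCat.{u} B → Prop)
    (hfin : ∀ n U, P n U → Module.Finite B U) (hne : ∀ n, ∃ U, P n U)
    (h0 : ∀ U, P 0 U → S.Acyclic U ∧ ¬ Projective U)
    (hT : ∀ U, Triv U → S.Acyclic U)
    (hstep : ∀ n U, P (n + 1) U → ∃ G T, P n G ∧ Triv T ∧ Nonempty (S.Reduction U G T)) :
    UnboundedFindim k := by
  have hl : 2 ≤ S.l := by
    by_contra h
    obtain ⟨U, hU⟩ := hne 1
    obtain ⟨G, T, hG, -, ⟨r⟩⟩ := hstep 0 U hU
    have : Subsingleton G := ⟨fun a b => by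
      obtain ⟨x, rfl⟩ := r.pG_surj a
      obtain ⟨y, rfl⟩ := r.pG_surj b
      have e : ∀ z, r.pG z = 0 := fun z => r.pG_supp z fun i hi => by
        have := (S.deg i).isLt
        omega
      rw [e, e]⟩
    have := (ModuleCat.isZero_of_subsingleton G)
    exact (h0 G hG).2 this.projective
  have hacyc : ∀ U : ModuleCat.{u} B, S.Acyclic U → HasProjectiveDimensionLT (S.mI 0 U) 7 :=
    fun U hU => S.pd_of_complex hgl U (S.acyclic_mF hgl U hU).1
  have hupper : ∀ (n : ℕ) (U : ModuleCat.{u} B), P n U →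
      ∃ d, HasProjectiveDimensionLT (S.mI 0 U) d := by
    intro n
    induction n with
    | zero => exact fun U hU => ⟨7, hacyc U (h0 U hU).1⟩
    | succ n ih =>
      intro U hU
      obtain ⟨G, T, hG, hTr, ⟨r⟩⟩ := hstep n U hU
      obtain ⟨d, hd⟩ := ih G hG
      obtain ⟨W, hW, h2, h3, h1, -⟩ := S.ses_red hl r hgl
      let M := max 7 d + 3 + 2
      have hG2 := S.pd_positions hgl G hd 2 (by omega)
      have hT1 := S.pd_positions hgl T (hacyc T (hT T hTr)) 1 (by omega)
      have a : HasProjectiveDimensionLT (S.mI (S.two hl) G) M :=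
        have : HasProjectiveDimensionLT (S.mI (S.two hl) G) (d + 3 + 2) := hG2
        hasProjectiveDimensionLT_of_ge (S.mI (S.two hl) G) (d + 3 + 2) M (by omega)
      have b : HasProjectiveDimensionLT (S.mI (S.one' hl) T) M :=
        have : HasProjectiveDimensionLT (S.mI (S.one' hl) T) (7 + 3 + 1) := hT1
        hasProjectiveDimensionLT_of_ge (S.mI (S.one' hl) T) (7 + 3 + 1) M (by omega)
      have hprod : HasProjectiveDimensionLT
          (ModuleCat.of S.Alg (S.Pt (S.two hl) G × S.Pt (S.one' hl) T)) M :=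
        (shortExact_of (LinearMap.inl S.Alg (S.Pt (S.two hl) G) (S.Pt (S.one' hl) T))
          (LinearMap.snd S.Alg (S.Pt (S.two hl) G) (S.Pt (S.one' hl) T)) LinearMap.inl_injective
          Function.Exact.inl_snd LinearMap.snd_surjective).hasProjectiveDimensionLT_X₂ M a b
      have hW3 : HasProjectiveDimensionLT W.X₃ M := h3 ▸ hprod
      have hW1 : HasProjectiveDimensionLT W.X₁ M :=
        hasProjectiveDimensionLT_of_ge _ 3 M (by omega)
      have hF : HasProjectiveDimensionLT (S.mF U) M :=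
        h2 ▸ hW.hasProjectiveDimensionLT_X₂ M hW1 hW3
      exact ⟨_, S.pd_of_complex hgl U hF⟩
  have hlower : ∀ (n : ℕ) (U : ModuleCat.{u} B), P n U →
      ∃ (K : ModuleCat.{u} B) (e : Ext (S.mI 0 U) (S.mI 0 K) (3 * n + 1)), e ≠ 0 := by
    intro n
    induction n with
    | zero => exact fun U hU => S.ext_base U (h0 U hU).2
    | succ n ih =>
      intro U hU
      obtain ⟨G, T, hG, hTr, ⟨r⟩⟩ := hstep n U hU
      obtain ⟨K, hK⟩ := ih G hG
      refine ⟨K, ?_⟩
      obtain ⟨e, he⟩ := S.ext_succ ⟨1, by omega⟩ G K (S.ext_succ ⟨0, by omega⟩ G K hK)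
      obtain ⟨W, hW, h2, h3, -, h1⟩ := S.ses_red hl r hgl
      let Two := ModuleCat.of S.Alg (S.Pt (S.two hl) G × S.Pt (S.one' hl) T)
      let pr : Two ⟶ S.mI (S.two hl) G := ModuleCat.ofHom (LinearMap.fst S.Alg _ _)
      let inj : S.mI (S.two hl) G ⟶ Two := ModuleCat.ofHom (LinearMap.inl S.Alg _ _)
      have hid : inj ≫ pr = 𝟙 _ := ModuleCat.hom_ext (LinearMap.ext fun g => rfl)
      let e₂ : Ext (S.mI (S.two hl) G) (S.mI 0 K) (3 * n + 1 + 1 + 1) := e
      have hTwo : ∃ e' : Ext Two (S.mI 0 K) (3 * n + 1 + 1 + 1), e' ≠ 0 := by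
        refine ⟨(Ext.mk₀ pr).comp e₂ (zero_add _), fun h => he ?_⟩
        have := congrArg (fun x => (Ext.mk₀ inj).comp x (zero_add _)) h
        simp only [Ext.comp_zero, Ext.mk₀_comp_mk₀_assoc, hid, Ext.mk₀_id_comp] at this
        exact this
      rw [show Two = W.X₃ from h3.symm] at hTwo
      obtain ⟨e', he'⟩ := hTwo
      have hF : ∃ e'' : Ext (S.mF U) (S.mI 0 K) (3 * n + 1 + 1 + 1), e'' ≠ 0 := by
        rw [← h2]
        refine ⟨(Ext.mk₀ W.g).comp e' (zero_add _), fun h => he' ?_⟩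
        obtain ⟨x₁, rfl⟩ := Ext.contravariant_sequence_exact₃ hW _ e' h
          (show 1 + (3 * n + 1 + 1) = 3 * n + 1 + 1 + 1 by omega)
        rw [h1 K _ x₁, Ext.comp_zero]
      have := S.ext_cover hgl U K (by omega) hF
      rw [show 3 * (n + 1) + 1 = 3 * n + 1 + 1 + 1 + 1 by ring]
      exact this
  refine ⟨S.Alg, inferInstance, inferInstance, S.finite_alg, fun N => ?_⟩
  obtain ⟨U, hU⟩ := hne N
  refine ⟨S.mI 0 U, ?_, hupper N U hU, fun h => ?_⟩
  · obtain ⟨s, hs⟩ := (hfin N U hU).fg_top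
    let s' : Finset (S.Pt 0 U) := s
    refine ⟨⟨s', Submodule.eq_top_iff'.2 fun u => ?_⟩⟩
    suffices ∀ v : U, v ∈ Submodule.span B (s : Set U) →
        (Setting.Pt.mk v : S.Pt 0 U) ∈ Submodule.span S.Alg (s' : Set (S.Pt 0 U)) from
      this u (hs ▸ Submodule.mem_top)
    intro v hv
    induction hv using Submodule.span_induction with
    | mem x hx => exact Submodule.subset_span hx
    | zero => exact Submodule.zero_mem _
    | add x y _ _ hx hy => exact Submodule.add_mem _ hx hy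
    | smul b x _ hx => exact Submodule.smul_mem _ (S.vtx b) hx
  · obtain ⟨K, e, he⟩ := hlower N U hU
    exact he (e.eq_zero_of_hasProjectiveDimensionLT N (by omega))

end Vale.Agent.P176
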