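import Vale.Agent.P176.Group

/-!
P176: finite-dimensional models on which exactly `n` shifts survive.
-/

namespace Vale.Agent.P176.Models

universe u

variable (k : Type u) [Field k] (n : ℕ)

/-- Pairs of vectors over `ZMod 2`. -/
abbrev Pt : Type := (Fin (n + 1) → ZMod 2) × (Fin (n + 1) → ZMod 2)

abbrev Space : Type u := Pt n → k

variable {k n}

/-- A weighted substitution operator. -/
def sub (c : Pt n → k) (π : Pt n → Pt n) : Module.End k (Space k n) where
  toFun f x := c x * f (π x)
  map_add' f g := by funext x; simp [mul_add]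
  map_smul' r f := by funext x; simp; ring

theorem sub_mul (c c' : Pt n → k) (π π' : Pt n → Pt n) :
    sub c π * sub c' π' = sub (fun x => c x * c' (π x)) (π' ∘ π) := by
  refine LinearMap.ext fun f => funext fun x => ?_
  simp [sub, Module.End.mul_apply, mul_assoc]

theorem sub_one : sub (fun _ => 1) id = (1 : Module.End k (Space k n)) := by
  refine LinearMap.ext fun f => funext fun x => ?_
  simp [sub]

theorem sub_ext {c c' : Pt n → k} {π π' : Pt n → Pt n} (hc : ∀ x, c x = c' x)
    (hπ : ∀ x, π x = π' x) : sub c π = sub c' π' := by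
  rw [funext hc, funext hπ]

theorem sub_eq_one {c : Pt n → k} {π : Pt n → Pt n} (hc : ∀ x, c x = 1) (hπ : ∀ x, π x = x) :
    sub c π = (1 : Module.End k (Space k n)) := by
  rw [← sub_one]; exact sub_ext hc hπ

variable (k) in
/-- The sign character of `ZMod 2`. -/
def sgn (a : ZMod 2) : k := if a = 0 then 1 else -1

theorem sgn_add (a b : ZMod 2) : sgn k (a + b) = sgn k a * sgn k b := by
  have h : ∀ c : ZMod 2, c = 0 ∨ c = 1 := by decide
  have h2 : (1 + 1 : ZMod 2) = 0 := by decide
  rcases h a with rfl | rfl <;> rcases h b with rfl | rfl <;> simp [sgn, h2]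

theorem sgn_sq (a : ZMod 2) : sgn k a * sgn k a = 1 := by
  unfold sgn; split_ifs <;> simp

theorem add_self_left (d e : Fin (n + 1) → ZMod 2) : d + (d + e) = e := by
  funext i; simp [← add_assoc, CharTwo.add_self_eq_zero]

theorem add_self (d : Fin (n + 1) → ZMod 2) : d + d = 0 := by
  funext i; exact CharTwo.add_self_eq_zero (d i)

/-- Sum of the first `n` coordinates. -/
def par (d : Fin (n + 1) → ZMod 2) : ZMod 2 := ∑ i : Fin n, d i.castSucc

theorem par_add (d d' : Fin (n + 1) → ZMod 2) : par (d + d') = par d + par d' := by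
  simp [par, Finset.sum_add_distrib]

def δ0 : Fin (n + 1) → ZMod 2 := Pi.single 0 1

/-- Cyclic shift of coordinates. -/
def rot (d : Fin (n + 1) → ZMod 2) : Fin (n + 1) → ZMod 2 := fun i => d (i + 1)
def rot' (d : Fin (n + 1) → ZMod 2) : Fin (n + 1) → ZMod 2 := fun i => d (i - 1)

theorem rot_rot' (d : Fin (n + 1) → ZMod 2) : rot (rot' d) = d := by
  funext i; simp [rot, rot']

theorem rot'_rot (d : Fin (n + 1) → ZMod 2) : rot' (rot d) = d := by
  funext i; simp [rot, rot']

theorem rot_add (d e : Fin (n + 1) → ZMod 2) : rot (d + e) = rot d + rot e := rfl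
theorem rot'_add (d e : Fin (n + 1) → ZMod 2) : rot' (d + e) = rot' d + rot' e := rfl

variable (k n) in
/-- The operators of the model. -/
def op : Gen → Module.End k (Space k n)
  | .gu => sub (fun _ => 1) fun x => (rot x.1, x.2)
  | .gU => sub (fun _ => 1) fun x => (rot' x.1, x.2)
  | .gv => sub (fun _ => 1) fun x => (x.1, rot x.2)
  | .gV => sub (fun _ => 1) fun x => (x.1, rot' x.2)
  | .ga => sub (fun _ => 1) fun x => (x.1 + δ0, x.2)
  | .gb => sub (fun x => sgn k (par x.2)) fun x => x
  | .gq => sub (fun _ => 1) fun x => (x.1, x.2 + x.1)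
  | .cc => sub (fun _ => 1) fun x => (rot x.1, rot x.2)
  | .aq => sub (fun _ => 1) fun x => (x.1 + δ0, x.2 + (x.1 + δ0))
  | .qb => sub (fun x => sgn k (par (x.2 + x.1))) fun x => (x.1, x.2 + x.1)
  | .gw => sub (fun _ => 1) fun x => (x.1, x.2 + δ0)
  | .gx => sub (fun x => sgn k (par x.1)) fun x => x

theorem sat : Sat (op k n) := by
  intro r
  fin_cases r <;> dsimp [ruleTable, RuleOK] <;> simp only [op, sub_mul] <;>
    first
    | exact sub_eq_one (fun x => by simp [sgn_sq]) (fun x => by
        simp [rot_rot', rot'_rot, add_assoc, add_self])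
    | exact sub_ext (fun x => by simp [add_assoc, add_self, par_add, sgn_add, mul_comm,
          mul_left_comm, sgn_sq])
        (fun x => by simp [add_assoc, add_self, add_self_left, rot_add, add_comm, add_left_comm])

/-- Translation of the second component. -/
def tr (d : Fin (n + 1) → ZMod 2) : Module.End k (Space k n) :=
  sub (fun _ => 1) fun x => (x.1, x.2 + d)

theorem wj_op (j : ℕ) : j ≤ n → ∀ hj : j < n + 1,
    wj (op k n) j = tr (Pi.single (⟨j, hj⟩ : Fin (n + 1)) 1) := by
  induction j with
  | zero => intro _ _; simp [wj, tr, op, δ0]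
  | succ j ih =>
    intro hle hj
    have h1 : wj (op k n) (j + 1) = op k n .gv * wj (op k n) j * op k n .gV := by
      simp only [wj, pow_succ' (op k n .gv), pow_succ (op k n .gV), mul_assoc]
    rw [h1, ih (by omega) (by omega)]
    simp only [op, tr, sub_mul]
    refine sub_ext (fun x => by simp) fun x => ?_
    simp only [Function.comp_apply, rot'_add, rot'_rot, Prod.mk.injEq, true_and, add_right_inj]
    funext i
    simp only [rot', Pi.single_apply]
    refine if_congr ?_ rfl rfl
    rw [sub_eq_iff_eq_add]
    refine Eq.congr_right ?_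
    ext
    simp [Fin.val_add, Nat.mod_eq_of_lt hj]

theorem zeta_op (j : ℕ) (hle : j ≤ n) :
    zeta (op k n) j = if j < n then -1 else 1 := by
  rw [zeta, wj_op j hle (by omega)]
  simp only [op, tr, sub_mul]
  have hs : ∀ i : Fin (n + 1),
      par (Pi.single i (1 : ZMod 2) : Fin (n + 1) → ZMod 2) = if (i : ℕ) < n then 1 else 0 := by
    intro i
    simp only [par, Pi.single_apply]
    split_ifs with h
    · rw [Finset.sum_eq_single (⟨i, h⟩ : Fin n)]
      · simp [Fin.ext_iff]
      · intro b _ hb
        simp only [Fin.ext_iff, Fin.val_castSucc]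
        exact if_neg fun he => hb (Fin.ext he)
      · simp
    · refine Finset.sum_eq_zero fun b _ => if_neg fun he => h ?_
      rw [← he]; exact b.isLt
  refine LinearMap.ext fun f => funext fun x => ?_
  have hx := hs ⟨j, by omega⟩
  simp only [sub, LinearMap.coe_mk, AddHom.coe_mk, Function.comp_apply, one_mul, mul_one,
    add_assoc, add_self, add_zero, par_add, sgn_add, hx]
  rw [mul_comm (sgn k (par x.2)) _, mul_assoc _ (sgn k (par x.2))]
  split_ifs <;> simp [sgn, mul_comm] <;> split_ifs <;> simp

instance : Nontrivial (Space k n) := inferInstance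

instance : Module.Finite k (Space k n) := inferInstance

end Vale.Agent.P176.Models
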