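import Vale.Agent.P176.Twist
import Vale.Agent.P176.Machine
import Vale.Agent.P176.Models

/-!
P176: the finitistic dimension is unbounded for some finite dimensional algebra.
-/

namespace Vale.Agent.P176

open CategoryTheory

universe u

variable {k : Type u} [Field k]

/-- The modules surviving exactly `n` twists. -/
def Surv (n : ℕ) (U : ModuleCat.{u} (Win k)) : Prop :=
  ∃ N : RMod k, U = N.hat ∧ Nontrivial N.M ∧ Module.Finite k N.M ∧
    (∀ j, j < n → zeta N.op j = -1) ∧ zeta N.op n = 1

/-- The trivial class. -/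
def TrivCls (U : ModuleCat.{u} (Win k)) : Prop :=
  ∃ N : RMod k, U = N.hat ∧ zeta N.op 0 = 1

theorem idem_of_one {N : RMod k} (h : zeta N.op 0 = 1) : idem k N.op = 0 := by
  rw [idem, h, sub_self, smul_zero]

theorem idem_of_neg_one (h2 : (2 : k) ≠ 0) {N : RMod k} (h : zeta N.op 0 = -1) :
    idem k N.op = 1 := by
  rw [idem, h, sub_neg_eq_add, show (1 + 1 : Module.End k N.M) = (2 : k) • 1 from
    (two_smul k (1 : Module.End k N.M)).symm, smul_smul, inv_mul_cancel₀ h2, one_smul]

theorem zeta_const {E : Type u} [Monoid E] (j : ℕ) : zeta (fun _ : Gen => (1 : E)) j = 1 := by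
  simp [zeta, wj]

theorem unboundedFindim (h2 : (2 : k) ≠ 0) : UnboundedFindim k := by
  obtain ⟨D⟩ := nonempty_lifts k h2
  refine machine (theSetting D) Win.gldim Surv TrivCls ?_ ?_ ?_ ?_ ?_
  · rintro n U ⟨N, rfl, -, hfin, -, -⟩
    exact N.finite_hat
  · intro n
    refine ⟨(RMod.hat { M := Models.Space k n, op := Models.op k n, sat := Models.sat } :
      ModuleCat.{u} (Win k)), _, rfl, ?_, ?_, fun j hj => ?_, ?_⟩
    · exact inferInstanceAs (Nontrivial (Models.Space k n))
    · exact inferInstanceAs (Module.Finite k (Models.Space k n))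
    · exact (Models.zeta_op j hj.le).trans (if_pos hj)
    · exact (Models.zeta_op n le_rfl).trans (if_neg (lt_irrefl n))
  · rintro U ⟨N, rfl, hnt, -, -, h1⟩
    exact ⟨acyclic D N (idem_of_one h1), N.not_projective_hat⟩
  · rintro U ⟨N, rfl, h1⟩
    exact acyclic D N (idem_of_one h1)
  · rintro n U ⟨N, rfl, hnt, hfin, hneg, h1⟩
    refine ⟨(Gy N false).hat, (Gy N true).hat, ⟨Gy N false, rfl, hnt, hfin, fun j hj => ?_, ?_⟩,
      ⟨Gy N true, rfl, zeta_const 0⟩, reduction D N (idem_of_neg_one h2 (hneg 0 n.succ_pos))⟩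
    · exact (zeta_shift N.op j).trans (hneg (j + 1) (Nat.succ_lt_succ hj))
    · exact (zeta_shift N.op n).trans h1

end Vale.Agent.P176
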