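import Vale.Agent.P176.Blocks

/-!
P176: the window resolution `T` and the operators on `Blk × Kind` families.
-/

namespace Vale.Agent.P176

open MulOpposite

universe u

/-- Cells of the window resolution. -/
abbrev Kind : Type := Fin 3 ⊕ (Fin 2 × V) ⊕ Rel

/-- Vertex of the coefficient of a cell. -/
def ksrc : Kind → Fin 3
  | .inl v => v
  | .inr (.inl (v, _)) => v.castSucc
  | .inr (.inr _) => 0

/-- Weight offset of a cell. -/
def koff : Kind → ℕ
  | .inl v => v
  | .inr (.inl (v, _)) => v + 1
  | .inr (.inr _) => 2

/-- Degree of a cell. -/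
def kdg : Kind → ℕ
  | .inl _ => 0
  | .inr (.inl _) => 1
  | .inr (.inr _) => 2

variable (k : Type u) [Field k]

/-- `S` with coefficients in the opposite window algebra. -/
abbrev SB : Type u := MonoidAlgebra (Win k)ᵐᵒᵖ Word

/-- A monomial. -/
noncomputable def el (w : List Letter) (c : Win k) : SB k :=
  MonoidAlgebra.single (FreeMonoid.ofList w) (op c)

theorem el_mul (v w : List Letter) (b c : Win k) : el k v b * el k w c = el k (v ++ w) (c * b) := by
  simp [el, MonoidAlgebra.single_mul_single]

theorem el_add (w : List Letter) (b c : Win k) : el k w (b + c) = el k w b + el k w c := by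
  simp [el, MonoidAlgebra.single_add]

theorem el_smul (w : List Letter) (r : k) (c : Win k) : el k w (r • c) = r • el k w c := by
  simp [el, MonoidAlgebra.smul_single]

theorem el_zero (w : List Letter) : el k w 0 = 0 := by simp [el]

theorem el_one : el k [] 1 = 1 := rfl

@[elab_as_elim]
theorem SB_induction {p : SB k → Prop} (x : SB k) (h0 : p 0)
    (hadd : ∀ a b, p a → p b → p (a + b)) (hel : ∀ w c, p (el k w c)) : p x := by
  induction x using MonoidAlgebra.induction_linear with
  | zero => exact h0
  | add a b ha hb => exact hadd a b ha hb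
  | single m c => simpa [el] using hel m.toList c.unop

/-- The inclusion of `S`. -/
noncomputable def ι : S k →ₐ[k] SB k :=
  MonoidAlgebra.lift k (SB k) Word (MonoidAlgebra.of (Win k)ᵐᵒᵖ Word)

theorem ι_sW (w : List Letter) : ι k (sW k w) = el k w 1 := by
  simp [ι, sW, el]

theorem ι_comm (s : S k) (b : Win k) : ι k s * el k [] b = el k [] b * ι k s := by
  refine sW_induction k s (by simp) (fun x y hx hy => by simp [add_mul, mul_add, hx, hy])
    (fun c x hx => by simp [hx]) (fun w => ?_)
  rw [ι_sW, el_mul, el_mul]
  simp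

/-- Linear extension of a map given on words, in the scalars of `S`. -/
noncomputable def extB (f : S k →ₗ[k] S k) : SB k →ₗ[k] SB k :=
  (Finsupp.lsum k fun m : Word =>
    { toFun := fun c : (Win k)ᵐᵒᵖ => ι k (f (sW k m.toList)) * el k [] c.unop
      map_add' := fun b c => by rw [unop_add, el_add, mul_add]
      map_smul' := fun r c => by rw [unop_smul, el_smul, mul_smul_comm]; rfl }) ∘ₗ
    (MonoidAlgebra.coeffLinearEquiv k).toLinearMap

theorem extB_el (f : S k →ₗ[k] S k) (w : List Letter) (c : Win k) :
    extB k f (el k w c) = ι k (f (sW k w)) * el k [] c := by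
  simp [extB, el]

theorem extB_tensor (f : S k →ₗ[k] S k) (s : S k) (c : Win k) :
    extB k f (ι k s * el k [] c) = ι k (f s) * el k [] c := by
  refine sW_induction k s (by simp) (fun x y hx hy => by simp [add_mul, hx, hy])
    (fun r x hx => by simp [hx]) (fun w => ?_)
  rw [ι_sW, el_mul, List.append_nil, mul_one, extB_el]

theorem extB_ι (f : S k →ₗ[k] S k) (s : S k) : extB k f (ι k s) = ι k (f s) := by
  simpa [el_one] using extB_tensor k f s 1

/-- The differential on `SB`. -/
noncomputable def δB : SB k →ₗ[k] SB k := extB k (δ k)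

/-- The parity on `SB`. -/
noncomputable def τB : SB k →ₗ[k] SB k := extB k (τ k)

theorem el_tensor (w : List Letter) (c : Win k) : el k w c = ι k (sW k w) * el k [] c := by
  rw [ι_sW, el_mul, List.append_nil, mul_one]

theorem tensor_mul (s t : S k) (b c : Win k) :
    (ι k s * el k [] b) * (ι k t * el k [] c) = ι k (s * t) * el k [] (c * b) := by
  rw [map_mul, mul_assoc, ← mul_assoc (el k [] b), ← ι_comm, mul_assoc (ι k t), el_mul,
    ← mul_assoc]
  rfl

theorem δB_mul (x y : SB k) : δB k (x * y) = δB k x * y + τB k x * δB k y := by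
  refine SB_induction k x (by simp) (fun a b ha hb => by simp [add_mul, ha, hb]; abel)
    (fun v b => ?_)
  refine SB_induction k y (by simp) (fun a b ha hb => by simp [mul_add, ha, hb]; abel)
    (fun w c => ?_)
  simp only [el_tensor k v b, el_tensor k w c, tensor_mul, δB, τB, extB_tensor, δ_mul, map_add,
    add_mul]

theorem τB_mul (x y : SB k) : τB k (x * y) = τB k x * τB k y := by
  refine SB_induction k x (by simp) (fun a b ha hb => by simp [add_mul, ha, hb]) (fun v b => ?_)
  refine SB_induction k y (by simp) (fun a b ha hb => by simp [mul_add, ha, hb]) (fun w c => ?_)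
  simp only [el_tensor k v b, el_tensor k w c, tensor_mul, τB, extB_tensor, τ_mul]

theorem τB_τB (x : SB k) : τB k (τB k x) = x := by
  refine SB_induction k x (by simp) (fun a b ha hb => by simp [ha, hb]) (fun v b => ?_)
  simp only [el_tensor k v b, τB, extB_tensor, τ_τ]

theorem δB_δB (x : SB k) : δB k (δB k x) = 0 := by
  refine SB_induction k x (by simp) (fun a b ha hb => by simp [ha, hb]) (fun v b => ?_)
  simp only [el_tensor k v b, δB, extB_tensor, δ_δ, map_zero, zero_mul]

theorem τB_δB (x : SB k) : τB k (δB k x) = -δB k (τB k x) := by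
  refine SB_induction k x (by simp) (fun a b ha hb => by simp [ha, hb, add_comm]) (fun v b => ?_)
  simp only [el_tensor k v b, δB, τB, extB_tensor, τ_δ, map_neg]
  generalize ι k (δ k (τ k (sW k v))) = a
  exact neg_mul a (el k [] b)

theorem τB_el_nil (c : Win k) : τB k (el k [] c) = el k [] c := by
  rw [el_tensor k [] c, τB, extB_tensor, sW_nil, τ_one]

theorem δB_el_nil (c : Win k) : δB k (el k [] c) = 0 := by
  rw [el_tensor k [] c, δB, extB_tensor, sW_nil, δ_Deg_zero k (one_mem_Deg k), map_zero, zero_mul]

/-- The word of an arrow label. -/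
def gWord : V → List Letter
  | none => []
  | some g => [.inl g]

theorem sW_gWord (g : V) : sW k (gWord g) = gV' k g := by cases g <;> rfl

/-- The rows of the twisting cochain. -/
noncomputable def Δrow : Kind → Kind → SB k
  | .inl _ => 0
  | .inr (.inl (v, g)) =>
    Pi.single (.inl v.castSucc) (el k (gWord g) (Win.vert k v.castSucc)) -
      Pi.single (.inl v.succ) (el k [] (Win.arr k v g))
  | .inr (.inr l) =>
    ((relTerms l).map fun x => (x.1 : ℤ) •
        (Pi.single (.inr (.inl (0, x.2.2))) (el k (gWord x.2.1) (Win.vert k 0)) +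
          Pi.single (.inr (.inl (1, x.2.1))) (el k [] (Win.arr k 0 x.2.2)))).sum -
      (match l with
        | .inl _ => 0
        | .inr r => Pi.single (.inl 0) (el k [.inr r] (Win.vert k 0)))

noncomputable def Δ : Matrix Kind Kind (SB k) := Matrix.of (Δrow k)

theorem single_vecMul (j : Kind) (a : SB k) :
    Matrix.vecMul (Pi.single j a) (Δ k) = fun l => a * Δrow k j l :=
  funext fun l => by simp [Matrix.vecMul, Δ, single_dotProduct]

theorem δB_single (j : Kind) (w : List Letter) (c : Win k) :
    (fun l => δB k ((Pi.single j (el k w c) : Kind → SB k) l)) =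
      Pi.single j (ι k (dWord k w) * el k [] c) := by
  funext l
  rw [δB, Pi.apply_single (fun _ => extB k (δ k)) (fun _ => map_zero _), extB_el, δ_sW]

theorem τB_single (j : Kind) (w : List Letter) (c : Win k) :
    (fun l => τB k ((Pi.single j (el k w c) : Kind → SB k) l)) =
      Pi.single j (sgnW w • el k w c) := by
  funext l
  rw [τB, Pi.apply_single (fun _ => extB k (τ k)) (fun _ => map_zero _), extB_el, τ_sW,
    map_zsmul, smul_mul_assoc, ← el_tensor]

/-- The Maurer-Cartan operator on rows. -/
noncomputable def mc : (Kind → SB k) →+ (Kind → SB k) :=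
  AddMonoidHom.mk' (fun x => (fun l => δB k (x l)) + Matrix.vecMul (fun l => τB k (x l)) (Δ k))
    fun x y => by
      have e : (fun l => τB k ((x + y) l)) = (fun l => τB k (x l)) + fun l => τB k (y l) := by
        funext l; simp
      simp only [e, Matrix.add_vecMul]
      funext l; simp; abel

theorem mc_single (j : Kind) (w : List Letter) (c : Win k) :
    mc k (Pi.single j (el k w c)) =
      Pi.single j (ι k (dWord k w) * el k [] c) + fun l => (sgnW w • el k w c) * Δrow k j l := by
  simp only [mc, AddMonoidHom.mk'_apply, δB_single, τB_single, single_vecMul]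

theorem dWord_gWord (g : V) : dWord k (gWord g) = 0 := by
  cases g <;> simp [gWord, dWord, dLetter]

theorem sgnW_gWord (g : V) : sgnW (gWord g) = 1 := by
  cases g <;> simp [gWord, sgnW, ecount]

theorem mc_row (κ : Kind) : mc k (Δrow k κ) = 0 := by
  rcases κ with v | ⟨v, g⟩ | l
  · simp [Δrow]
  · simp only [Δrow, map_sub, mc_single, dWord_gWord, sgnW_gWord]
    funext l; simp [Δrow, sgnW, ecount, dWord]
  · have hterm : ∀ g h : V,
        mc k (Pi.single (Sum.inr (Sum.inl (0, h))) (el k (gWord g) (Win.vert k 0)) +
          Pi.single (Sum.inr (Sum.inl (1, g))) (el k [] (Win.arr k 0 h))) =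
        Pi.single (Sum.inl 0) (el k (gWord g ++ gWord h) (Win.vert k 0)) -
          Pi.single (Sum.inl 2) (el k [] (Win.arr k 1 g * Win.arr k 0 h)) := by
      intro g h
      rw [map_add, mc_single, mc_single, dWord_gWord, sgnW_gWord]
      have a1 : Win.arr k 0 h * Win.vert k 0 = Win.arr k 0 h := Win.arr_mul_vert k 0 h
      have a2 : Win.vert k 1 * Win.arr k 0 h = Win.arr k 0 h := Win.vert_mul_arr k 0 h
      funext l
      simp only [Δrow, dWord, map_zero, zero_mul, Pi.single_zero, zero_add, Pi.add_apply,
        Pi.sub_apply, mul_sub, sgnW, ecount, pow_zero, one_smul, Pi.single_apply]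
      simp only [mul_ite, mul_zero, el_mul, List.append_nil, List.nil_append]
      simp [Win.vert_mul_vert, a1, a2]
    have hsum : mc k ((relTerms l).map fun x => (x.1 : ℤ) •
        (Pi.single (Sum.inr (Sum.inl (0, x.2.2))) (el k (gWord x.2.1) (Win.vert k 0)) +
          Pi.single (Sum.inr (Sum.inl (1, x.2.1))) (el k [] (Win.arr k 0 x.2.2)))).sum =
        Pi.single (Sum.inl 0) (ι k (relVal k l) * el k [] (Win.vert k 0)) := by
      rw [map_list_sum, List.map_map]
      have h0 := Win.arr_rel k l
      let φ0 : Win k →+ SB k := AddMonoidHom.mk' (el k []) (el_add k [])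
      have h1 := congrArg ((AddMonoidHom.single (fun _ : Kind => SB k) (Sum.inl 2)).comp φ0) h0
      rw [map_list_sum, map_zero, List.map_map] at h1
      let φ1 : S k →+ SB k :=
        AddMonoidHom.mk' (fun s => ι k s * el k [] (Win.vert k 0)) fun a b => by simp [add_mul]
      have h2 : Pi.single (M := fun _ : Kind => SB k) (Sum.inl 0)
          (ι k (relVal k l) * el k [] (Win.vert k 0)) =
          ((relTerms l).map fun x => (x.1 : ℤ) • Pi.single (M := fun _ : Kind => SB k) (Sum.inl 0)
            (el k (gWord x.2.1 ++ gWord x.2.2) (Win.vert k 0))).sum := by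
        show ((AddMonoidHom.single (fun _ : Kind => SB k) (Sum.inl 0)).comp φ1) (relVal k l) = _
        rw [relVal, map_list_sum, List.map_map]
        congr 1
        refine List.map_congr_left fun x _ => ?_
        rw [Function.comp_apply, map_zsmul, el_tensor k (gWord x.2.1 ++ gWord x.2.2), ← sW_mul,
          sW_gWord, sW_gWord]
        rfl
      have h3 : ((relTerms l).map fun x => (x.1 : ℤ) •
          (Pi.single (M := fun _ : Kind => SB k) (Sum.inl 0)
              (el k (gWord x.2.1 ++ gWord x.2.2) (Win.vert k 0)) -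
            Pi.single (M := fun _ : Kind => SB k) (Sum.inl 2)
              (el k [] (Win.arr k 1 x.2.1 * Win.arr k 0 x.2.2)))).sum =
          Pi.single (M := fun _ : Kind => SB k) (Sum.inl 0)
            (ι k (relVal k l) * el k [] (Win.vert k 0)) := by
        have h4 : ((relTerms l).map fun x => (x.1 : ℤ) •
            Pi.single (M := fun _ : Kind => SB k) (Sum.inl 2)
              (el k [] (Win.arr k 1 x.2.1 * Win.arr k 0 x.2.2))).sum = 0 := by
          rw [← h1]; congr 1
          refine List.map_congr_left fun x _ => ?_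
          simp only [Function.comp_apply, map_zsmul]
          rfl
        rw [h2, ← sub_zero (((relTerms l).map fun x => (x.1 : ℤ) •
            Pi.single (M := fun _ : Kind => SB k) (Sum.inl 0)
              (el k (gWord x.2.1 ++ gWord x.2.2) (Win.vert k 0))).sum), ← h4]
        simp only [smul_sub]
        induction relTerms l with
        | nil => simp
        | cons a t ih => simp only [List.map_cons, List.sum_cons, ih]; abel
      rw [← h3]
      congr 1
      refine List.map_congr_left fun x _ => ?_
      simp only [Function.comp_apply, map_zsmul, hterm]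
    simp only [Δrow, map_sub, hsum]
    cases l with
    | inl g => simp [relVal_comm]
    | inr r =>
      simp only [mc_single]
      funext j
      simp [Δrow, dWord, dLetter, sW_nil]

theorem Δ_mc : (Δ k).map (δB k) + (Δ k).map (τB k) * Δ k = 0 := by
  refine Matrix.ext fun κ l => ?_
  have := congrFun (mc_row k κ) l
  simpa [mc, Matrix.vecMul, Matrix.mul_apply, Δ, dotProduct] using this

/-- The algebra map from block matrices. -/
noncomputable def Ψ : MatS k →ₐ[k] Matrix Blk Blk (SB k) :=
  ((ι k).mapMatrix).comp (Matrix.compAlgEquiv Slot Bool (S k) k).toAlgHom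

theorem Ψ_apply (M : MatS k) (b' b : Blk) : Ψ k M b' b = ι k (M b'.1 b.1 b'.2 b.2) := rfl

theorem Ψ_δ (M : MatS k) : (Ψ k M).map (δB k) = Ψ k (δM k M) := by
  ext b' b : 2
  simp [Ψ_apply, δB, extB_ι, δM_apply]

/-- Entrywise parity of block matrices. -/
noncomputable def τM : MatS k →ₗ[k] MatS k where
  toFun M := fun s t => (M s t).map (τ k)
  map_add' M N := funext fun s => funext fun t => Matrix.ext fun a b => map_add (τ k) _ _
  map_smul' c M := funext fun s => funext fun t => Matrix.ext fun a b => map_smul (τ k) c _

theorem Ψ_τ (M : MatS k) : (Ψ k M).map (τB k) = Ψ k (τM k M) := by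
  refine Matrix.ext fun b' b => ?_
  rw [Matrix.map_apply, Ψ_apply, Ψ_apply, τB, extB_ι]
  rfl

/-- Families over blocks and kinds. -/
abbrev XSp : Type u := Matrix Blk Kind (SB k)

variable {k}

theorem map_δ_mul {I J L : Type} [Fintype J] (A : Matrix I J (SB k)) (B : Matrix J L (SB k)) :
    (A * B).map (δB k) = A.map (δB k) * B + A.map (τB k) * B.map (δB k) := by
  ext i j : 2
  simp [Matrix.mul_apply, δB_mul, Finset.sum_add_distrib]

theorem map_τ_mul {I J L : Type} [Fintype J] (A : Matrix I J (SB k)) (B : Matrix J L (SB k)) :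
    (A * B).map (τB k) = A.map (τB k) * B.map (τB k) := by
  ext i j : 2
  simp [Matrix.mul_apply, τB_mul]

/-- The differential of `T`, on every block. -/
noncomputable def dT (x : XSp k) : XSp k := x.map (δB k) + x.map (τB k) * Δ k

theorem dT_add (x y : XSp k) : dT (x + y) = dT x + dT y := by
  simp only [dT, Matrix.map_add _ (map_add (δB k)), Matrix.map_add _ (map_add (τB k)),
    Matrix.add_mul]
  abel

theorem dT_mul (A : Matrix Blk Blk (SB k)) (x : XSp k) :
    dT (A * x) = A.map (δB k) * x + A.map (τB k) * dT x := by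
  rw [dT, dT, map_δ_mul, map_τ_mul, Matrix.mul_add, Matrix.mul_assoc]
  abel

theorem dT_dT (x : XSp k) : dT (dT x) = 0 := by
  have h1 : (x.map (δB k)).map (δB k) = 0 := by ext i j : 2; simp [δB_δB]
  have h2 : (x.map (τB k)).map (τB k) = x := by ext i j : 2; simp [τB_τB]
  have h3 : (x.map (δB k)).map (τB k) = -(x.map (τB k)).map (δB k) := by
    ext i j : 2; simp [τB_δB]
  show (x.map (δB k) + x.map (τB k) * Δ k).map (δB k) +
    (x.map (δB k) + x.map (τB k) * Δ k).map (τB k) * Δ k = 0
  rw [Matrix.map_add _ (map_add (δB k)), Matrix.map_add _ (map_add (τB k)), h1, map_δ_mul,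
    map_τ_mul, h2, h3, Matrix.add_mul, Matrix.neg_mul, Matrix.mul_assoc x _ (Δ k)]
  have h4 : x * (Δ k).map (δB k) + x * ((Δ k).map (τB k) * Δ k) = 0 := by
    rw [← Matrix.mul_add, Δ_mc, Matrix.mul_zero]
  linear_combination (norm := abel) h4

end Vale.Agent.P176
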