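import Vale.Agent.P176.Hat
import Vale.Agent.P176.Ops

/-!
P176: the window resolution evaluated on `hat M`: the pairing contraction up to lower rank.
-/

namespace Vale.Agent.P176

universe u

/-- Cells of `T`. -/
abbrev TC : Type := Kind × List Letter

/-- Weight of a cell. -/
def wtT (c : TC) : ℕ := weight c.2 + koff c.1

/-- Number of `eps`, counted on the lower cell of the pair. -/
def epsT : TC → ℕ
  | (.inr (.inr (.inr _)), w) => ecount w + 1
  | (_, w) => ecount w

/-- Stage of a pair. -/
def stageT : Kind → ℕ
  | .inl v => 2 - v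
  | .inr (.inl (0, some _)) => 2
  | .inr (.inl (0, none)) => 1
  | .inr (.inl (_, none)) => 0
  | .inr (.inl (_, some _)) => 3
  | .inr (.inr (.inl _)) => 3
  | .inr (.inr (.inr _)) => 2

/-- The rank. -/
def rankT (c : TC) : ℕ := 4 * (wtT c * (wtT c + 1) + epsT c) + stageT c.1

variable {k : Type u} [Field k] (N : RMod k)

/-- `T ⊗ hat M`, unbounded. -/
abbrev PhiT : Type u := TC →₀ N.M

/-- The insertion at a cell. -/
noncomputable def insT (c : TC) : N.M →ₗ[k] PhiT N := Finsupp.lsingle c

/-- Insertion of a combination of words. -/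
noncomputable def wordsTo (κ : Kind) : S k →ₗ[k] (N.M →ₗ[k] PhiT N) :=
  linOn k fun u => insT N (κ, u)

/-- The twisting part at a cell. -/
noncomputable def deltaCell : Kind → List Letter → (N.M →ₗ[k] PhiT N)
  | .inl _, _ => 0
  | .inr (.inl (v, g)), w =>
    insT N (.inl v.castSucc, w ++ gWord g) - insT N (.inl v.succ, w) ∘ₗ N.arrow g
  | .inr (.inr l), w =>
    ((relTerms l).map fun x => (x.1 : ℤ) •
        (insT N (.inr (.inl (0, x.2.2)), w ++ gWord x.2.1) +
          insT N (.inr (.inl (1, x.2.1)), w) ∘ₗ N.arrow x.2.2)).sum -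
      (match l with
        | .inl _ => 0
        | .inr r => insT N (.inl 0, w ++ [Sum.inr r]))

/-- The differential. -/
noncomputable def dTM : PhiT N →ₗ[k] PhiT N :=
  Finsupp.lsum k fun c : TC =>
    wordsTo N c.1 (dWord k c.2) + sgnW c.2 • deltaCell N c.1 c.2

/-- The partner of a nonempty lower cell at vertex `0`; the word is given reversed. -/
noncomputable def hLast : List Letter → (N.M →ₗ[k] PhiT N)
  | [] => 0
  | .inl g :: r => sgnW r.reverse • insT N (.inr (.inl (0, some g)), r.reverse)
  | .inr i :: r => -(sgnW r.reverse • insT N (.inr (.inr (.inr i)), r.reverse))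

/-- The homotopy at a cell. -/
noncomputable def hCell : TC → (N.M →ₗ[k] PhiT N)
  | (.inl 0, w) => hLast N w.reverse
  | (.inl 1, w) => -(sgnW w • insT N (.inr (.inl (0, none)), w))
  | (.inl 2, w) => -(sgnW w • insT N (.inr (.inl (1, none)), w))
  | (.inr (.inl (1, some g)), w) => -(sgnW w • insT N (.inr (.inr (.inl g)), w))
  | _ => 0

/-- The homotopy. -/
noncomputable def hTM : PhiT N →ₗ[k] PhiT N := Finsupp.lsum k (hCell N)

/-- The augmentation at a cell. -/
noncomputable def augCell : TC → (N.M →ₗ[k] N.M)
  | (.inl _, w) => evS k N.op (sW k w)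
  | _ => 0

/-- The augmentation `T ⊗ hat M → M`. -/
noncomputable def augT : PhiT N →ₗ[k] N.M := Finsupp.lsum k (augCell N)

/-- The section of the augmentation. -/
noncomputable def secT : N.M →ₗ[k] PhiT N := insT N (.inl 0, [])

theorem insT_mem {A : Set TC} {c : TC} (h : c ∈ A) (m : N.M) :
    insT N c m ∈ Finsupp.supported N.M k A := Finsupp.single_mem_supported k m h

theorem dTM_insT (c : TC) (m : N.M) :
    dTM N (insT N c m) = wordsTo N c.1 (dWord k c.2) m + sgnW c.2 • deltaCell N c.1 c.2 m := by
  simp [dTM, insT]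

theorem hTM_insT (c : TC) (m : N.M) : hTM N (insT N c m) = hCell N c m := by
  simp [hTM, insT]

theorem augT_insT (c : TC) (m : N.M) : augT N (insT N c m) = augCell N c m := by
  simp [augT, insT]

theorem augT_wordsTo (κ : Kind) (x : S k) (m : N.M) :
    augT N (wordsTo N κ x m) = match κ with
      | .inl _ => evS k N.op x m
      | _ => 0 := by
  refine sW_induction k x ?_ (fun a b ha hb => ?_) (fun c a ha => ?_) (fun w => ?_)
  · rcases κ with v | _ <;> simp
  · rcases κ with v | _ <;> simp [ha, hb]
  · rcases κ with v | _ <;> simp [ha]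
  · rw [wordsTo, linOn_sW, augT_insT]
    rcases κ with v | _ <;> rfl

theorem evS_gWord (w : List Letter) (g : V) :
    evS k N.op (sW k (w ++ gWord g)) = evS k N.op (sW k w) * N.arrow g := by
  rw [← sW_mul, map_mul, sW_gWord, evS_gV']
  cases g <;> rfl

theorem augT_secT (m : N.M) : augT N (secT N m) = m := by
  simp [secT, augT_insT, augCell, sW_nil]

theorem augT_dTM (x : PhiT N) : augT N (dTM N x) = 0 := by
  induction x using Finsupp.induction_linear with
  | zero => simp
  | add a b ha hb => simp [ha, hb]
  | single c m =>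
    show augT N (dTM N (insT N c m)) = 0
    rw [dTM_insT, map_add, map_zsmul, augT_wordsTo]
    rcases c with ⟨v | ⟨v, g⟩ | l, w⟩
    · simp [deltaCell, ← δ_sW, evS_δ k N.sat]
    · simp [deltaCell, augT_insT, augCell, evS_gWord]
    · have h0 : ((augT N).comp (deltaCell N (.inr (.inr l)) w)) = 0 := by
        rw [deltaCell.eq_def]
        simp only [LinearMap.comp_sub]
        have h1 : ∀ L : List (ℤ × (V × V)), (augT N).comp ((L.map fun x => (x.1 : ℤ) •
            (insT N (.inr (.inl (0, x.2.2)), w ++ gWord x.2.1) +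
              insT N (.inr (.inl (1, x.2.1)), w) ∘ₗ N.arrow x.2.2)).sum) = 0 := by
          intro L
          induction L with
          | nil => simp
          | cons x L ih =>
            rw [List.map_cons, List.sum_cons, LinearMap.comp_add, ih, add_zero]
            ext y
            simp [augT_insT, augCell]
        rw [h1, zero_sub, neg_eq_zero]
        rcases l with g | r
        · simp
        · ext y
          simp [augT_insT, augCell, ← sW_mul, evS, evL_sW, opLetter]
      simp [← LinearMap.comp_apply (augT N), h0]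

theorem augT_hTM (x : PhiT N) : augT N (hTM N x) = 0 := by
  induction x using Finsupp.induction_linear with
  | zero => simp
  | add a b ha hb => simp [ha, hb]
  | single c m =>
    show augT N (hTM N (insT N c m)) = 0
    rw [hTM_insT]
    rcases c with ⟨v | ⟨v, g⟩ | l, w⟩
    · fin_cases v
      · show augT N (hLast N w.reverse m) = 0
        rcases w.reverse with _ | ⟨g | i, r⟩ <;> simp [hLast, augT_insT, augCell]
      all_goals simp [hCell, augT_insT, augCell]
    · fin_cases v <;> rcases g with _ | g <;> simp [hCell, augT_insT, augCell]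
    · simp [hCell]

theorem epsT_le_wtT (c : TC) : epsT c ≤ wtT c := by
  rcases c with ⟨v | ⟨v, g⟩ | g | r, w⟩ <;> have := ecount_le_weight w <;>
    simp only [epsT, wtT, koff] <;> omega

theorem stageT_le (κ : Kind) : stageT κ ≤ 3 := by
  rcases κ with v | ⟨v, _ | g⟩ | g | r <;> first | (fin_cases v <;> simp [stageT]) | simp [stageT]

/-- The rank is lexicographic. -/
theorem rankT_lt {c' c : TC}
    (h : wtT c' < wtT c ∨ wtT c' = wtT c ∧
      (epsT c' < epsT c ∨ epsT c' = epsT c ∧ stageT c'.1 < stageT c.1)) :
    rankT c' < rankT c := by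
  have h1 := epsT_le_wtT c'
  have h2 := stageT_le c'.1
  unfold rankT
  rcases h with h | ⟨h, h'⟩
  · have h3 : (wtT c' + 1) * (wtT c' + 2) ≤ wtT c * (wtT c + 1) := Nat.mul_le_mul h (by omega)
    nlinarith
  · rw [h]
    omega

/-- Cells of at most the weight and of lower rank. -/
def below (c : TC) : Set TC := {c' | wtT c' ≤ wtT c ∧ rankT c' < rankT c}

/-- Cells of the same weight and rank. -/
def level (c : TC) : Set TC := {c' | wtT c' = wtT c ∧ rankT c' = rankT c}

theorem mem_below {c' c : TC} (hW : wtT c' ≤ wtT c)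
    (h : wtT c' = wtT c → epsT c' < epsT c ∨ epsT c' = epsT c ∧ stageT c'.1 < stageT c.1) :
    c' ∈ below c := by
  rcases hW.lt_or_eq with h' | h'
  · exact ⟨hW, rankT_lt (Or.inl h')⟩
  · exact ⟨hW, rankT_lt (Or.inr ⟨h', h h'⟩)⟩

theorem wordsTo_mem (κ : Kind) {T : Set (List Letter)} {x : S k}
    (hx : x ∈ Submodule.span k (sW k '' T)) (m : N.M) :
    wordsTo N κ x m ∈ Finsupp.supported N.M k {c : TC | c.1 = κ ∧ c.2 ∈ T} := by
  refine Submodule.span_induction (p := fun x _ => wordsTo N κ x m ∈ _) ?_ (by simp)
    (fun a b _ _ ha hb => by simpa using add_mem ha hb)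
    (fun c a _ ha => by simpa using Submodule.smul_mem _ c ha) hx
  rintro _ ⟨w, hw, rfl⟩
  rw [wordsTo, linOn_sW]
  exact insT_mem N (A := {c : TC | c.1 = κ ∧ c.2 ∈ T}) (c := (κ, w)) ⟨rfl, hw⟩ m

theorem wordsTo_dWord_below (c : TC) (m : N.M) :
    wordsTo N c.1 (dWord k c.2) m ∈ Finsupp.supported N.M k (below c) := by
  obtain ⟨κ, w⟩ := c
  rcases Nat.eq_zero_or_pos (ecount w) with h | h
  · rw [← δ_sW, δ_Deg_zero k (sW_mem_Deg k h)]
    simp
  · have hm := And.intro (wordsTo_mem N κ (dWord_mem_Deg k w (ecount w - 1) (by omega)) m)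
      (wordsTo_mem N κ (dWord_mem_Wt k w) m)
    rw [← Submodule.mem_inf, ← Finsupp.supported_inter] at hm
    refine Finsupp.supported_mono ?_ hm
    rintro ⟨κ', u⟩ ⟨⟨rfl, hu⟩, -, hu'⟩
    simp only [Set.mem_ofPred_eq] at hu hu'
    refine mem_below (by simp [wtT]; omega) fun _ => Or.inl ?_
    rcases κ' with v | ⟨v, g⟩ | g | r <;> simp only [epsT] <;> omega

/-- The leading term of the differential. -/
noncomputable def leadT : TC → (N.M →ₗ[k] PhiT N)
  | (.inr (.inl (0, some g)), w) => sgnW w • insT N (.inl 0, w ++ [.inl g])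
  | (.inr (.inl (0, none)), w) => -(sgnW w • insT N (.inl 1, w))
  | (.inr (.inl (1, none)), w) => -(sgnW w • insT N (.inl 2, w))
  | (.inr (.inr (.inl g)), w) => -(sgnW w • insT N (.inr (.inl (1, some g)), w))
  | (.inr (.inr (.inr r)), w) => -(sgnW w • insT N (.inl 0, w ++ [.inr r]))
  | _ => 0

/-- The leading differential. -/
noncomputable def LT : PhiT N →ₗ[k] PhiT N := Finsupp.lsum k (leadT N)

theorem LT_insT (c : TC) (m : N.M) : LT N (insT N c m) = leadT N c m := by
  simp [LT, insT]

theorem leadT_level (c : TC) (m : N.M) :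
    leadT N c m ∈ Finsupp.supported N.M k (level c) := by
  rcases c with ⟨v | ⟨v, _ | g⟩ | g | r, w⟩
  · simp [leadT]
  · fin_cases v <;> refine neg_mem (zsmul_mem (insT_mem N ?_ m) _) <;>
      simp [level, wtT, rankT, epsT, stageT, koff]
  · fin_cases v
    · refine zsmul_mem (insT_mem N ?_ m) _
      simp [level, wtT, rankT, epsT, stageT, koff, weight_append, weight, ecount_append, ecount]
    · simp [leadT]
  · refine neg_mem (zsmul_mem (insT_mem N ?_ m) _)
    simp [level, wtT, rankT, epsT, stageT, koff]
  · refine neg_mem (zsmul_mem (insT_mem N ?_ m) _)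
    simp [level, wtT, rankT, epsT, stageT, koff, weight_append, weight, ecount_append, ecount]

theorem sum_apply_mem {ι : Type*} (L : List ι) (F : ι → (N.M →ₗ[k] PhiT N))
    {B : Submodule k (PhiT N)} {m : N.M} (h : ∀ x ∈ L, F x m ∈ B) : (L.map F).sum m ∈ B := by
  induction L with
  | nil => simp
  | cons x L ih =>
    rw [List.map_cons, List.sum_cons, LinearMap.add_apply]
    exact add_mem (h x List.mem_cons_self) (ih fun y hy => h y (List.mem_cons_of_mem _ hy))

theorem dTM_below (c : TC) (m : N.M) :
    dTM N (insT N c m) - leadT N c m ∈ Finsupp.supported N.M k (below c) := by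
  have hw := wordsTo_dWord_below N c m
  rw [dTM_insT, add_sub_assoc]
  refine add_mem hw ?_
  rcases c with ⟨v | ⟨v, g⟩ | g | r, w⟩
  · simp [deltaCell, leadT]
  · simp only [deltaCell, LinearMap.sub_apply, LinearMap.comp_apply, smul_sub]
    fin_cases v <;> rcases g with _ | g
    · simp [leadT, gWord, RMod.arrow]
      refine zsmul_mem (insT_mem N (mem_below ?_ ?_) m) _ <;> simp [wtT, koff]
    · simp [leadT, gWord]
      refine zsmul_mem (insT_mem N (mem_below ?_ ?_) _) _ <;> simp [wtT, koff, epsT, stageT]
    · simp [leadT, gWord, RMod.arrow]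
      refine zsmul_mem (insT_mem N (mem_below ?_ ?_) m) _ <;> simp [wtT, koff]
    · simp [leadT, gWord]
      refine sub_mem (zsmul_mem (insT_mem N (mem_below ?_ ?_) _) _)
        (zsmul_mem (insT_mem N (mem_below ?_ ?_) _) _) <;>
        simp [wtT, koff, epsT, stageT, weight_append, weight, ecount_append, ecount]
  · simp [deltaCell, leadT, relTerms, lead, tailTerms, gWord, RMod.arrow, smul_add]
    have h1 : ((Sum.inr (Sum.inl (0, some g)), w) : TC) ∈ below (.inr (.inr (.inl g)), w) :=
      mem_below (by simp [wtT, koff]) (by simp [wtT, koff])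
    have h2 : ((Sum.inr (Sum.inl (1, none)), w) : TC) ∈ below (.inr (.inr (.inl g)), w) :=
      mem_below (by simp [wtT, koff]) (by simp [epsT, stageT])
    have h3 : ((Sum.inr (Sum.inl (0, none)), w ++ [Sum.inl g]) : TC) ∈
        below (.inr (.inr (.inl g)), w) :=
      mem_below (by simp [wtT, koff, weight_append, weight])
        (by simp [epsT, stageT, ecount_append, ecount])
    rw [show ∀ a b c d : PhiT N, a + b + (-c + -d) + d = a + b + -c from
      fun _ _ _ _ => by abel]
    exact add_mem (add_mem (zsmul_mem (insT_mem N h1 _) _)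
      (zsmul_mem (sub_mem (insT_mem N h2 _) (insT_mem N h2 _)) _))
      (neg_mem (zsmul_mem (insT_mem N h3 _) _))
  · simp only [deltaCell, leadT, LinearMap.sub_apply, LinearMap.neg_apply, LinearMap.smul_apply,
      smul_sub, sub_neg_eq_add, sub_add_cancel]
    refine zsmul_mem ?_ _
    refine sum_apply_mem N _ _ fun x _ => ?_
    obtain ⟨z, a, b⟩ := x
    simp only [LinearMap.smul_apply, LinearMap.add_apply, LinearMap.comp_apply]
    refine zsmul_mem (add_mem (insT_mem N (mem_below ?_ ?_) _)
      (insT_mem N (mem_below ?_ ?_) _)) _ <;>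
      rcases a with _ | a <;>
      simp [wtT, koff, epsT, gWord, weight_append, weight, ecount_append, ecount]

theorem hCell_level (c : TC) (m : N.M) : hCell N c m ∈ Finsupp.supported N.M k (level c) := by
  rcases c with ⟨v | ⟨v, _ | g⟩ | l, w⟩
  · fin_cases v
    · show hLast N w.reverse m ∈ _
      rcases List.eq_nil_or_concat w with rfl | ⟨u, x, rfl⟩
      · simp [hLast]
      · rcases x with g | i <;> simp only [List.concat_eq_append, List.reverse_append,
          List.reverse_singleton, List.singleton_append, hLast, List.reverse_reverse]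
        · refine zsmul_mem (insT_mem N ?_ m) _
          simp [level, wtT, rankT, epsT, stageT, koff, weight_append, weight, ecount_append, ecount]
        · refine neg_mem (zsmul_mem (insT_mem N ?_ m) _)
          simp [level, wtT, rankT, epsT, stageT, koff, weight_append, weight, ecount_append, ecount]
    all_goals refine neg_mem (zsmul_mem (insT_mem N ?_ m) _)
    all_goals simp [level, wtT, rankT, epsT, stageT, koff]
  · fin_cases v <;> simp [hCell]
  · fin_cases v
    · simp [hCell]
    · refine neg_mem (zsmul_mem (insT_mem N ?_ m) _)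
      simp [level, wtT, rankT, epsT, stageT, koff]
  · simp [hCell]

theorem dTM_supported (c : TC) (m : N.M) :
    dTM N (insT N c m) ∈ Finsupp.supported N.M k {c' | wtT c' ≤ wtT c} := by
  rw [← sub_add_cancel (dTM N (insT N c m)) (leadT N c m)]
  exact add_mem (Finsupp.supported_mono (fun _ h => h.1) (dTM_below N c m))
    (Finsupp.supported_mono (fun _ h => le_of_eq h.1) (leadT_level N c m))

theorem hTM_supported (c : TC) (m : N.M) :
    hTM N (insT N c m) ∈ Finsupp.supported N.M k {c' | wtT c' = wtT c} := by
  rw [hTM_insT]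
  exact Finsupp.supported_mono (fun _ h => h.1) (hCell_level N c m)

/-- A linear map is determined on a supported submodule by the cells. -/
theorem map_mem_of_cells (f : PhiT N →ₗ[k] PhiT N) {A : Set TC} {B : Submodule k (PhiT N)}
    (h : ∀ c ∈ A, ∀ m, f (insT N c m) ∈ B) {x : PhiT N} (hx : x ∈ Finsupp.supported N.M k A) :
    f x ∈ B := by
  classical
  rw [← Finsupp.sum_single x, Finsupp.sum, map_sum]
  exact sum_mem fun c hc => h c (hx hc) (x c)

theorem sgnW_sq (w : List Letter) : sgnW w * sgnW w = 1 := by
  rcases neg_one_pow_eq_or ℤ (ecount w) with h | h <;> simp [sgnW, h]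

/-- On leading terms the homotopy is exact off the empty cell. -/
theorem pairing (c : TC) (hc : c ≠ (.inl 0, [])) (m : N.M) :
    LT N (hTM N (insT N c m)) + hTM N (leadT N c m) = insT N c m := by
  rw [hTM_insT]
  rcases c with ⟨v | ⟨v, _ | g⟩ | g | r, w⟩
  · fin_cases v
    · rcases List.eq_nil_or_concat w with rfl | ⟨u, x, rfl⟩
      · exact absurd rfl hc
      · rcases x with g | i <;>
          simp [hCell, hLast, leadT, LT_insT, smul_smul, sgnW_sq, List.concat_eq_append]
    all_goals simp [hCell, leadT, LT_insT, smul_smul, sgnW_sq]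
  · fin_cases v <;> simp [hCell, leadT, hTM_insT, smul_smul, sgnW_sq]
  · fin_cases v <;> simp [hCell, hLast, leadT, hTM_insT, LT_insT, smul_smul, sgnW_sq]
  · simp [hCell, leadT, hTM_insT, smul_smul, sgnW_sq]
  · simp [hCell, hLast, leadT, hTM_insT, smul_smul, sgnW_sq]

/-- The homotopy inverts `d` up to lower rank. -/
theorem homotopy_lower (c : TC) (m : N.M) :
    dTM N (hTM N (insT N c m)) + hTM N (dTM N (insT N c m)) + secT N (augT N (insT N c m)) -
      insT N c m ∈ Finsupp.supported N.M k {c' | rankT c' < rankT c} := by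
  set B := Finsupp.supported N.M k {c' | rankT c' < rankT c} with hB
  by_cases hc : c = (.inl 0, [])
  · subst hc
    simp [dTM_insT, hTM_insT, augT_insT, hCell, hLast, deltaCell, augCell, secT, dWord, sW_nil]
  · have h1 : (dTM N - LT N) (hTM N (insT N c m)) ∈ B := by
      rw [hTM_insT]
      refine map_mem_of_cells N _ (fun c' hc' m' => ?_) (hCell_level N c m)
      rw [LinearMap.sub_apply, LT_insT]
      exact Finsupp.supported_mono (fun _ h => h.2.trans_eq hc'.2) (dTM_below N c' m')
    have h2 : hTM N (dTM N (insT N c m) - leadT N c m) ∈ B := by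
      refine map_mem_of_cells N _ (fun c' hc' m' => ?_) (dTM_below N c m)
      rw [hTM_insT]
      exact Finsupp.supported_mono (fun _ h => h.2.trans_lt hc'.2) (hCell_level N c' m')
    have h3 : secT N (augT N (insT N c m)) ∈ B := by
      rcases c with ⟨v | e, w⟩
      · refine insT_mem N (rankT_lt (Or.inl ?_)) _
        simp only [wtT, koff, weight]
        rcases Nat.eq_zero_or_pos (weight w + v) with h | h
        · refine absurd ?_ hc
          have hw : w = [] := List.eq_nil_of_length_eq_zero
            (by have := length_le_weight w; omega)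
          have hv : v = 0 := Fin.ext (by simp; omega)
          rw [hw, hv]
        · simpa using h
      · simp [augT_insT, augCell]
    have key := pairing N c hc m
    rw [LinearMap.sub_apply] at h1
    rw [map_sub] at h2
    convert add_mem (add_mem h1 h2) h3 using 1
    linear_combination (norm := abel) key

end Vale.Agent.P176
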