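import Vale.Agent.P176.Mats
import Vale.Agent.P176.TComplex

/-!
P176: evaluation of the bimodule complex on `hat M`.
-/

namespace Vale.Agent.P176

open MulOpposite

universe u

variable {k : Type u} [Field k] (D : Lifts k) (N : RMod k)

attribute [local irreducible] WinRep.toLin RMod.winRep

/-- Families on unbounded cells with values in `M`. -/
abbrev Phi : Type u := Cell0 →₀ N.M

/-- Insertion at a cell. -/
noncomputable def insC (c : Cell0) : N.M →ₗ[k] Phi N := Finsupp.lsingle c

/-- Embedding of `T` as a block. -/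
noncomputable def embB (β : Blk) : PhiT N →ₗ[k] Phi N :=
  Finsupp.lmapDomain N.M k fun c : TC => ((β, c) : Cell0)

theorem embB_insT (β : Blk) (κ : Kind) (w : List Letter) (m : N.M) :
    embB N β (insT N (κ, w) m) = insC N (β, κ, w) m := by
  simp [embB, insT, insC]

/-- A component of the action of `Win k` on `hat M`. -/
noncomputable def comp (w v : Fin 3) : Win k →ₗ[k] (N.M →ₗ[k] N.M) where
  toFun c := (LinearMap.proj w) ∘ₗ (N.winRep.toLin c) ∘ₗ (LinearMap.single k (fun _ => N.M) v)
  map_add' a b := by
    rw [map_add]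
    refine LinearMap.ext fun m => ?_
    rfl
  map_smul' r a := by
    rw [map_smul]
    refine LinearMap.ext fun m => ?_
    rfl

theorem comp_apply (w v : Fin 3) (c : Win k) (m : N.M) :
    comp N w v c m = N.winRep.toLin c (Pi.single v m) w := rfl

theorem comp_vert (w v : Fin 3) (i : Fin 3) :
    comp N w v (Win.vert k i) = if i = v ∧ w = v then LinearMap.id else 0 := by
  refine LinearMap.ext fun m => ?_
  rw [comp_apply, WinRep.toLin_vert, RMod.winRep_e]
  by_cases h : i = v
  · subst h
    by_cases hw : w = i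
    · subst hw; simp
    · simp [hw]
  · simp [h]

theorem comp_arr (w v : Fin 3) (i : Fin 2) (g : V) :
    comp N w v (Win.arr k i g) =
      if v = i.castSucc ∧ w = i.succ then N.arrow g else 0 := by
  refine LinearMap.ext fun m => ?_
  rw [comp_apply, WinRep.toLin_arr, RMod.winRep_α]
  by_cases h : v = i.castSucc
  · subst h
    by_cases hw : w = i.succ
    · subst hw; simp
    · simp [hw]
  · simp [h, Ne.symm h]

theorem comp_one (v : Fin 3) : comp N v v 1 = LinearMap.id := by
  rw [← Win.sum_vert, map_sum]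
  refine LinearMap.ext fun m => ?_
  rw [LinearMap.sum_apply, Finset.sum_eq_single v]
  · simp [comp_vert]
  · intro i _ hi; simp [comp_vert, hi]
  · simp

/-- Evaluation of one entry. -/
noncomputable def evalE (v : Fin 3) (β : Blk) (κ : Kind) : SB k →ₗ[k] (N.M →ₗ[k] Phi N) :=
  (Finsupp.lsum k fun m : Word =>
    { toFun := fun c : (Win k)ᵐᵒᵖ => insC N (β, κ, m.toList) ∘ₗ comp N (ksrc κ) v c.unop
      map_add' := fun a b => by rw [unop_add, map_add, LinearMap.comp_add]
      map_smul' := fun r a => by rw [unop_smul, map_smul, LinearMap.comp_smul]; rfl }) ∘ₗ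
    (MonoidAlgebra.coeffLinearEquiv k).toLinearMap

theorem evalE_el (v : Fin 3) (β : Blk) (κ : Kind) (w : List Letter) (c : Win k) :
    evalE N v β κ (el k w c) = insC N (β, κ, w) ∘ₗ comp N (ksrc κ) v c := by
  simp [evalE, el]

/-- An entry, as a linear map. -/
noncomputable def entryL (β : Blk) (κ : Kind) : XSp k →ₗ[k] SB k where
  toFun x := x β κ
  map_add' _ _ := rfl
  map_smul' _ _ := rfl

theorem entryL_apply (β : Blk) (κ : Kind) (x : XSp k) : entryL β κ x = x β κ := rfl

/-- Evaluation of a family. -/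
noncomputable irreducible_def evalX (v : Fin 3) : XSp k →ₗ[k] (N.M →ₗ[k] Phi N) :=
  ∑ β : Blk, ∑ κ : Kind, evalE N v β κ ∘ₗ entryL β κ

theorem evalX_single (v : Fin 3) (β : Blk) (κ : Kind) (a : SB k) :
    evalX N v (Matrix.single β κ a) = evalE N v β κ a := by
  rw [evalX_def, LinearMap.sum_apply, Finset.sum_eq_single β]
  · rw [LinearMap.sum_apply, Finset.sum_eq_single κ]
    · rw [LinearMap.comp_apply, entryL_apply, Matrix.single_apply_same]
    · intro j _ hj; simp [entryL_apply, Ne.symm hj]
    · intro h; exact absurd (Finset.mem_univ _) h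
  · intro i _ hi
    rw [LinearMap.sum_apply]
    exact Finset.sum_eq_zero fun j _ => by simp [entryL_apply, Ne.symm hi]
  · intro h; exact absurd (Finset.mem_univ _) h

theorem evalX_bas (v : Fin 3) (c : Cell0) (b : Win k) :
    evalX N v (bas k c b) = insC N c ∘ₗ comp N (ksrc c.2.1) v b := by
  rw [bas, evalX_single, evalE_el]

/-- An operator evaluated on `hat M`. -/
noncomputable def phiOp (f : XSp k →ₗ[k] XSp k) : Phi N →ₗ[k] Phi N :=
  Finsupp.lsum k fun c : Cell0 => evalX N (ksrc c.2.1) (f (bas k c 1))

theorem phiOp_ins (f : XSp k →ₗ[k] XSp k) (c : Cell0) (m : N.M) :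
    phiOp N f (insC N c m) = evalX N (ksrc c.2.1) (f (bas k c 1)) m := by
  simp [phiOp, insC]

theorem phiOp_bdd {n : ℤ} {f : XSp k →ₗ[k] XSp k} (hf : Moves D n f) {z : Phi N}
    (hz : z ∈ Finsupp.supported N.M k {c | InB D c}) :
    phiOp N f z ∈ Finsupp.supported N.M k {c | InB D c} := by
  rw [← z.sum_single, Finsupp.sum, map_sum]
  refine Submodule.sum_mem _ fun c hc => ?_
  have hc' : InB D c := (Finsupp.mem_supported k z).1 hz hc
  show phiOp N f (insC N c (z c)) ∈ _
  rw [phiOp_ins]
  generalize ksrc c.2.1 = v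
  refine Submodule.span_induction
    (p := fun Y _ => evalX N v Y (z c) ∈ Finsupp.supported N.M k {c | InB D c}) ?_ (by simp)
    (fun a b _ _ ha hb => by simpa using add_mem ha hb)
    (fun r a _ ha => by simpa using Submodule.smul_mem _ r ha) (hf c hc')
  rintro _ ⟨c', hc'', b, rfl⟩
  rw [evalX_bas, LinearMap.comp_apply]
  exact Finsupp.single_mem_supported k _ hc''.1

/-- The `Setting` module. -/
abbrev FT : Type u := (theSetting D).F N.Hat

theorem FT_mem (x : FT D N) (i : CellB D) :
    x.1 i = (Pi.single (ksrc i.1.2.1) (x.1 i (ksrc i.1.2.1)) : Fin 3 → N.M) :=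
  (x.2 i).symm.trans (N.vert_smul _ _)

/-- An element of `hat M` concentrated at a vertex. -/
def singleH (v : Fin 3) (m : N.M) : N.Hat := (Pi.single v m : Fin 3 → N.M)

theorem singleH_apply (v : Fin 3) (m : N.M) : singleH N v m v = m := Pi.single_eq_same _ _

theorem vert_singleH (v : Fin 3) (m : N.M) :
    Win.vert k v • singleH N v m = singleH N v m := by
  refine (N.vert_smul v _).trans ?_
  exact congrArg (fun y => (Pi.single v y : Fin 3 → N.M)) (singleH_apply N v m)

theorem smul_comp (i v : Fin 3) (c : Win k) (y : N.Hat) (hy : Win.vert k v • y = y) :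
    ((Win.vert k i * c * Win.vert k v) • y) i = comp N i v c (y v) := by
  rw [mul_smul, hy, mul_smul]
  have h1 : y = singleH N v (y v) := hy.symm.trans (N.vert_smul v y)
  refine (congrFun (N.vert_smul i (c • y)) i).trans ?_
  rw [Pi.single_eq_same, comp_apply, N.smul_def]
  exact congrArg (fun z => N.winRep.toLin c z i) h1

/-- Evaluation at a vertex. -/
def evH (i : Fin 3) : N.Hat →+ N.M := Pi.evalAddMonoidHom (fun _ : Fin 3 => N.M) i

theorem theSetting_D : (theSetting D).D = mat D (opD D) := rfl

theorem theSetting_ρ (b : Win k) :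
    (theSetting D).ρ b = mat D (opM ((blockRep D).toLin b)) := rfl

/-- Passing to cells. -/
noncomputable def toPhi (x : FT D N) : Phi N :=
  ∑ i : CellB D, insC N i.1 (x.1 i (ksrc i.1.2.1))

theorem toPhi_apply (x : FT D N) (i : CellB D) : toPhi D N x i.1 = x.1 i (ksrc i.1.2.1) := by
  rw [toPhi, Finsupp.finset_sum_apply, Finset.sum_eq_single i]
  · simp [insC]
  · intro j _ hj
    simp only [insC, Finsupp.lsingle_apply]
    exact Finsupp.single_eq_of_ne fun h => hj (Subtype.ext h.symm)
  · simp

theorem toPhi_mem (x : FT D N) : toPhi D N x ∈ Finsupp.supported N.M k {c | InB D c} :=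
  Submodule.sum_mem _ fun i _ => Finsupp.single_mem_supported k _ i.2

/-- From cells. -/
noncomputable def ofPhi (z : Phi N) : FT D N :=
  ⟨fun i : CellB D => singleH N (ksrc i.1.2.1) (z i.1), fun i => vert_singleH N _ _⟩

theorem toPhi_ofPhi {z : Phi N} (hz : z ∈ Finsupp.supported N.M k {c | InB D c}) :
    toPhi D N (ofPhi D N z) = z := by
  refine Finsupp.ext fun c => ?_
  by_cases hc : InB D c
  · rw [toPhi_apply D N _ ⟨c, hc⟩]
    show (Pi.single (ksrc c.2.1) (z c) : Fin 3 → N.M) (ksrc c.2.1) = _
    simp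
  · have h1 := (Finsupp.mem_supported' k _).1 hz c hc
    have h2 := (Finsupp.mem_supported' k _).1 (toPhi_mem D N (ofPhi D N z)) c hc
    rw [h1, h2]

theorem toPhi_injective : Function.Injective (toPhi D N) := by
  intro x y h
  refine Subtype.ext (funext fun (i : CellB D) => ?_)
  have h1 := toPhi_apply D N x i
  have h2 := toPhi_apply D N y i
  rw [h] at h1
  exact (FT_mem D N x i).trans (((congrArg _ (h1.symm.trans h2))).trans (FT_mem D N y i).symm)

theorem toPhi_add (x y : FT D N) : toPhi D N (x + y) = toPhi D N x + toPhi D N y := by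
  simp only [toPhi, ← Finset.sum_add_distrib, ← map_add]
  rfl

theorem toPhi_zero : toPhi D N 0 = 0 := by
  refine Finset.sum_eq_zero fun i _ => ?_
  show insC N i.1 0 = 0
  exact map_zero _

theorem eval_cf (v : Fin 3) (c : Cell0) {Y : XSp k} {P : Set Cell0} (hY : Y ∈ XB k P) (m : N.M) :
    (evalX N v Y m) c = comp N (ksrc c.2.1) v (cfL k c Y) m := by
  refine Submodule.span_induction (p := fun Y _ => (evalX N v Y m) c =
      comp N (ksrc c.2.1) v (cfL k c Y) m) ?_ (by simp)
    (fun a b _ _ ha hb => by simp [ha, hb]) (fun r a _ ha => by simp [ha]) hY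
  rintro _ ⟨c', -, b, rfl⟩
  rw [evalX_bas, cfL_bas, LinearMap.comp_apply]
  simp only [insC, Finsupp.lsingle_apply]
  split_ifs with hcc
  · subst hcc; simp
  · simp [Finsupp.single_eq_of_ne (Ne.symm hcc)]

/-- A matrix of an operator acts as the operator. -/
theorem toPhi_mv {n : ℤ} {f : XSp k →ₗ[k] XSp k} (hf : Moves D n f) (x y : FT D N)
    (h : ∀ i : CellB D, y.1 i = ∑ j : CellB D, mat D f i j • x.1 j) :
    toPhi D N y = phiOp N f (toPhi D N x) := by
  refine Finsupp.ext fun c => ?_
  have hR := (Finsupp.mem_supported' k _).1 (phiOp_bdd D N hf (toPhi_mem D N x)) c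
  by_cases hc : InB D c
  · refine (toPhi_apply D N y ⟨c, hc⟩).trans ?_
    refine (congrArg (evH N (ksrc c.2.1)) (h ⟨c, hc⟩)).trans ?_
    rw [map_sum, toPhi, map_sum, Finsupp.finsetSum_apply]
    refine Finset.sum_congr rfl fun j _ => ?_
    rw [phiOp_ins, eval_cf N _ _ (hf j.1 j.2), mat]
    exact smul_comp N _ _ _ _ (x.2 j)
  · rw [hR hc]
    exact (Finsupp.mem_supported' k _).1 (toPhi_mem D N y) c hc

/-- The differential on cells. -/
noncomputable def DPhi : Phi N →ₗ[k] Phi N := phiOp N (opD D)

theorem toPhi_d (x : FT D N) :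
    toPhi D N ((theSetting D).d N.Hat x) = DPhi D N (toPhi D N x) := by
  refine toPhi_mv D N (moves_opD D) x _ fun i => ?_
  refine ((theSetting D).d_apply N.Hat x i).trans ?_
  rw [theSetting_D]
  rfl

theorem toPhi_smul (b : Win k) (x : FT D N) :
    toPhi D N (b • x) = phiOp N (opM ((blockRep D).toLin b)) (toPhi D N x) := by
  refine toPhi_mv D N (moves_opM D (blockRep_good D b)) x _ fun i => ?_
  refine ((theSetting D).smul_apply b x i).trans ?_
  rw [theSetting_ρ]
  rfl

/-- Image of a column of a block matrix. -/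
theorem phiOp_opM_ins (M : MatS k) (β : Blk) (κ : Kind) (w : List Letter) (m : N.M) :
    phiOp N (opM M) (insC N (β, κ, w) m) =
      ∑ β' : Blk, embB N β' (wordsTo N κ (M β'.1 β.1 β'.2 β.2 * sW k w) m) := by
  rw [phiOp_ins, opM_apply]
  have e : Ψ k M * bas k (β, κ, w) 1 =
      ∑ β' : Blk, Matrix.single β' κ (ι k (M β'.1 β.1 β'.2 β.2) * el k w 1) := by
    refine Matrix.ext fun i j => ?_
    rw [Matrix.sum_apply, Finset.sum_eq_single i]
    · by_cases hj : j = κ
      · subst hj; simp [bas, Ψ_apply]
      · simp [bas, hj, Ne.symm hj]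
    · intro b _ hb; simp [hb]
    · simp
  rw [e, map_sum, LinearMap.sum_apply]
  refine Finset.sum_congr rfl fun β' _ => ?_
  rw [evalX_single]
  refine sW_induction k (M β'.1 β.1 β'.2 β.2) (by simp)
    (fun a b ha hb => by simp [add_mul, ha, hb]) (fun r a ha => by simp [ha]) (fun u => ?_)
  rw [ι_sW, el_mul, sW_mul, one_mul, evalE_el, comp_one, LinearMap.comp_apply, wordsTo, linOn_sW,
    embB_insT, LinearMap.id_apply]

/-- The differential at a cell. -/
theorem DPhi_ins (β : Blk) (κ : Kind) (w : List Letter) (m : N.M) :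
    DPhi D N (insC N (β, κ, w) m) =
      ((-1 : ℤ) ^ shiftB β) • embB N β (dTM N (insT N (κ, w) m)) +
        ∑ β' : Blk, embB N β' (wordsTo N κ (Θ D β'.1 β.1 β'.2 β.2 * sW k w) m) := by
  rw [← phiOp_opM_ins, DPhi, phiOp_ins, phiOp_ins, opD_apply, opM_apply, map_add,
    LinearMap.add_apply]
  congr 1
  have e1 : (bas k (β, κ, w) 1).map (δB k) = Matrix.single β κ (ι k (dWord k w) * el k [] 1) := by
    refine Matrix.ext fun i j => ?_
    rw [Matrix.map_apply, bas, Matrix.single_apply, Matrix.single_apply]
    split_ifs <;> simp [δB, extB_el, δ_sW]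
  have e2 : (bas k (β, κ, w) 1).map (τB k) = Matrix.single β κ (sgnW w • el k w 1) := by
    refine Matrix.ext fun i j => ?_
    rw [Matrix.map_apply, bas, Matrix.single_apply, Matrix.single_apply]
    split_ifs <;> simp [τB, extB_el, τ_sW, el_one, ι_sW]
  have hsum : Matrix.single β κ (sgnW w • el k w 1) * Δ k =
      ∑ l, Matrix.single β l ((sgnW w • el k w 1) * Δrow k κ l) := by
    refine Matrix.ext fun i j => ?_
    rw [Matrix.sum_apply]
    by_cases hi : i = β
    · subst hi
      rw [Finset.sum_eq_single j]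
      · simp [Δ]
      · intro l _ hl; simp [hl]
      · simp
    · rw [Finset.sum_eq_zero]
      · simp [hi]
      · intro l _; simp [Ne.symm hi]
  have hJ : Ψ k (Js k) * dT (bas k (β, κ, w) 1) = ((-1 : ℤ) ^ shiftB β) • dT (bas k (β, κ, w) 1) := by
    refine Matrix.ext fun i j => ?_
    rw [Matrix.smul_apply, Matrix.mul_apply, Finset.sum_eq_single i]
    · rw [Ψ_apply]
      simp only [Js, Matrix.diagonal_apply_eq, Jb, map_intCast]
      by_cases hi : i = β
      · subst hi; rw [zsmul_eq_mul]
      · have hz : dT (bas k (β, κ, w) 1) i j = 0 := by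
          rw [dT, e1, e2, hsum, Matrix.add_apply, Matrix.sum_apply]
          simp [Ne.symm hi]
        simp [hz]
    · intro b _ hb
      have : Ψ k (Js k) i b = 0 := by
        rw [Ψ_apply]
        simp only [Js, Matrix.diagonal_apply]
        split_ifs with h
        · rw [Matrix.diagonal_apply_ne _ (fun h' => hb (Prod.ext h.symm h'.symm)), map_zero]
        · simp
      simp [this]
    · simp
  rw [hJ, map_zsmul, LinearMap.smul_apply]
  congr 1
  rw [dT, e1, e2, hsum, map_add, map_sum, evalX_single, dTM]
  simp only [insT, Finsupp.lsingle_apply, Finsupp.lsum_single, LinearMap.add_apply, map_add,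
    LinearMap.sum_apply, LinearMap.smul_apply, map_zsmul]
  congr 1
  · refine sW_induction k (dWord k w) (by simp) (fun a b ha hb => by simp [add_mul, ha, hb])
      (fun r a ha => by simp [ha]) (fun u => ?_)
    rw [← el_tensor, evalE_el, comp_one, LinearMap.comp_apply, wordsTo, linOn_sW, embB_insT,
      LinearMap.id_apply]
  · let G : (Kind → SB k) →+ Phi N := AddMonoidHom.mk'
      (fun r => ∑ l, evalX N (ksrc κ) (Matrix.single β l ((sgnW w • el k w 1) * r l)) m)
      fun r r' => by simp [mul_add, Matrix.single_add, Finset.sum_add_distrib]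
    show G (Δrow k κ) = _
    have hG : ∀ l u b, G (Pi.single l (el k u b)) =
        sgnW w • insC N (β, l, w ++ u) (comp N (ksrc l) (ksrc κ) b m) := by
      intro l u b
      simp only [G, AddMonoidHom.mk'_apply]
      rw [Finset.sum_eq_single l]
      · rw [Pi.single_eq_same, smul_mul_assoc, el_mul, mul_one, evalX_single, map_zsmul, evalE_el]
        simp
      · intro j _ hj; simp [hj]
      · simp
    rcases κ with v | ⟨v, g⟩ | l
    · simp [Δrow, deltaCell]
    · rw [Δrow, map_sub, hG, hG, deltaCell]
      simp only [LinearMap.sub_apply, LinearMap.comp_apply, map_sub, embB_insT, smul_sub,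
        List.append_nil, comp_vert, comp_arr, ksrc]
      simp
    · simp only [Δrow, deltaCell, map_sub, map_list_sum, List.map_map, LinearMap.sub_apply,
        smul_sub]
      congr 1
      · let F : (N.M →ₗ[k] PhiT N) →+ Phi N :=
          AddMonoidHom.mk' (fun f => sgnW w • embB N β (f m)) fun a b => by simp [smul_add]
        show _ = F _
        rw [map_list_sum, List.map_map]
        congr 1
        refine List.map_congr_left fun x _ => ?_
        simp only [Function.comp_apply, map_zsmul, map_add, hG]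
        simp [F, embB_insT, comp_vert, comp_arr, ksrc, smul_add, smul_comm x.1 (sgnW w)]
      · cases l with
        | inl g => simp
        | inr r =>
          show G (Pi.single (Sum.inl 0) (el k [Sum.inr r] (Win.vert k 0))) =
            sgnW w • embB N β (insT N (Sum.inl 0, w ++ [Sum.inr r]) m)
          rw [hG, embB_insT, comp_vert]
          simp [ksrc]

end Vale.Agent.P176
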