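import Vale.Agent.P176.Syntax

/-!
P176: consequences of the rules; the central element and the shift.
-/

namespace Vale.Agent.P176

universe v

variable {M : Type v} [Monoid M]

def RuleOK (X : Gen → M) : (Gen × Gen) × Rhs → Prop
  | ((g, h), .one) => X g * X h = 1
  | ((g, h), .prod p) => X g * X h = X p
  | ((g, h), .swap) => X g * X h = X h * X g

/-- All rules hold. -/
def Sat (X : Gen → M) : Prop := ∀ r, RuleOK X (ruleTable r)

theorem Sat.map {N : Type*} [Monoid N] {X : Gen → M} (h : Sat X) (f : M →* N) :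
    Sat fun g => f (X g) := by
  intro r
  have := h r
  revert this
  generalize ruleTable r = t
  obtain ⟨⟨g, h⟩, _ | p | _⟩ := t <;> intro this <;> simp only [RuleOK] at this ⊢ <;>
    rw [← map_mul, this]
  · exact map_one f
  · exact map_mul f _ _

/-- `u'^j w u'^-j`. -/
def wj (X : Gen → M) (j : ℕ) : M := X .gv ^ j * X .gw * X .gV ^ j

/-- The elements `zeta_j`. -/
def zeta (X : Gen → M) (j : ℕ) : M := wj X j * X .gb * wj X j * X .gb

theorem map_zeta {N : Type*} [Monoid N] (f : M →* N) (X : Gen → M) (j : ℕ) :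
    f (zeta X j) = zeta (fun g => f (X g)) j := by
  simp [zeta, wj]

/-- The shifted generators. -/
def shift (X : Gen → M) : Gen → M
  | .ga => X .gu * X .ga * X .gU
  | .aq => X .gu * X .ga * X .gU * X .gq
  | .gw => X .gv * X .gw * X .gV
  | g => X g

theorem shift_map {N : Type*} [Monoid N] (f : M →* N) (X : Gen → M) (g : Gen) :
    f (shift X g) = shift (fun g => f (X g)) g := by
  cases g <;> simp [shift]

theorem zeta_shift (X : Gen → M) (j : ℕ) : zeta (shift X) j = zeta X (j + 1) := by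
  have h : wj (shift X) j = wj X (j + 1) := by
    show X .gv ^ j * (X .gv * X .gw * X .gV) * X .gV ^ j = _
    rw [wj, pow_succ (X .gv), pow_succ' (X .gV)]
    simp only [mul_assoc]
  show wj (shift X) j * X .gb * wj (shift X) j * X .gb = _
  rw [h]; rfl

section rules

variable {X : Gen → M} (h : Sat X)
include h

theorem Sat.uU : X .gu * X .gU = 1 := h 0
theorem Sat.Uu : X .gU * X .gu = 1 := h 1
theorem Sat.vV : X .gv * X .gV = 1 := h 2
theorem Sat.Vv : X .gV * X .gv = 1 := h 3
theorem Sat.aa : X .ga * X .ga = 1 := h 4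
theorem Sat.bb : X .gb * X .gb = 1 := h 5
theorem Sat.qq : X .gq * X .gq = 1 := h 6
theorem Sat.ww : X .gw * X .gw = 1 := h 7
theorem Sat.aq_eq : X .ga * X .gq = X .aq := h 8
theorem Sat.qb_eq : X .gq * X .gb = X .qb := h 9
theorem Sat.w_eq : X .aq * X .aq = X .gw := h 10
theorem Sat.x_eq : X .qb * X .qb = X .gx := h 11
theorem Sat.uv : X .gu * X .gv = X .cc := h 12
theorem Sat.vu : X .gv * X .gu = X .cc := h 13
theorem Sat.va : Commute (X .gv) (X .ga) := h 14
theorem Sat.ub : Commute (X .gu) (X .gb) := h 15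
theorem Sat.cq : Commute (X .cc) (X .gq) := h 16
theorem Sat.ab : Commute (X .ga) (X .gb) := h 17
theorem Sat.uw : Commute (X .gu) (X .gw) := h 18
theorem Sat.vx : Commute (X .gv) (X .gx) := h 19
theorem Sat.aw : Commute (X .ga) (X .gw) := h 20
theorem Sat.bx : Commute (X .gb) (X .gx) := h 21
theorem Sat.qx : Commute (X .gq) (X .gx) := h 22
theorem Sat.qw : Commute (X .gq) (X .gw) := h 23
theorem Sat.wx : Commute (X .gw) (X .gx) := h 24
theorem Sat.uv' : Commute (X .gu) (X .gv) := h.uv.trans h.vu.symm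

omit h in
theorem commute_of_inv {a A b : M} (h1 : a * A = 1) (h2 : A * a = 1) (hc : Commute a b) :
    Commute A b := by
  show A * b = b * A
  calc A * b = A * (b * (a * A)) := by rw [h1, mul_one]
    _ = A * (a * b) * A := by rw [hc.eq]; simp [mul_assoc]
    _ = b * A := by rw [← mul_assoc A a b, h2, one_mul]

theorem Sat.w_word : X .gw = X .ga * X .gq * X .ga * X .gq := by
  rw [← h.w_eq, ← h.aq_eq]; simp [mul_assoc]

theorem Sat.x_word : X .gx = X .gq * X .gb * X .gq * X .gb := by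
  rw [← h.x_eq, ← h.qb_eq]; simp [mul_assoc]

theorem Sat.aqa : X .ga * X .gq * X .ga = X .gw * X .gq := by
  rw [h.w_word, mul_assoc _ (X .gq) (X .gq), h.qq, mul_one]

theorem Sat.qbq : X .gq * X .gb * X .gq = X .gx * X .gb := by
  rw [h.x_word, mul_assoc _ (X .gb) (X .gb), h.bb, mul_one]

theorem Sat.zeta_zero : zeta X 0 = X .gw * X .gb * X .gw * X .gb := by simp [zeta, wj]

theorem Sat.axa : X .ga * X .gx * X .ga = X .gx * zeta X 0 := by
  calc X .ga * X .gx * X .ga
      = X .ga * X .gq * (X .gb * X .gq) * (X .gb * X .ga) := by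
        rw [h.x_word]; simp [mul_assoc]
    _ = X .ga * X .gq * (X .gb * (X .ga * X .ga) * X .gq) * (X .ga * X .gb) := by
        rw [h.aa, h.ab.eq]; simp
    _ = X .ga * X .gq * X .ga * X .gb * (X .ga * X .gq * X .ga) * X .gb := by
        rw [← mul_assoc (X .gb) (X .ga) (X .ga), ← h.ab.eq]; simp [mul_assoc]
    _ = X .gw * X .gq * X .gb * (X .gw * X .gq) * X .gb := by rw [h.aqa]
    _ = X .gw * (X .gq * X .gb * X .gq) * X .gw * X .gb := by
        have e : X .gw * X .gq = X .gq * X .gw := h.qw.eq.symm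
        nth_rewrite 2 [e]; simp [mul_assoc]
    _ = (X .gw * X .gx) * X .gb * X .gw * X .gb := by rw [h.qbq]; simp [mul_assoc]
    _ = X .gx * zeta X 0 := by rw [h.wx.eq, h.zeta_zero]; simp [mul_assoc]

theorem Sat.xx : X .gx * X .gx = 1 := by
  have h1 : X .gx = X .qb * X .qb := h.x_eq.symm
  have h2 : (X .gb * X .gq) * (X .gq * X .gb) = 1 := by
    rw [← mul_assoc, mul_assoc (X .gb), h.qq, mul_one, h.bb]
  have h3 : X .gb * X .gx * X .gb = X .gx := by rw [h.bx.eq, mul_assoc, h.bb, mul_one]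
  have h4 : X .gb * X .gx * X .gb = (X .gb * X .gq) * (X .gb * X .gq) := by
    rw [h.x_word]; simp [mul_assoc, h.bb]
  calc X .gx * X .gx = X .gx * ((X .gb * X .gq) * (X .gb * X .gq)) := by rw [← h4, h3]
    _ = X .gq * X .gb * X .gq * X .gb * (X .gb * X .gq) * (X .gb * X .gq) := by
        rw [h.x_word]; simp [mul_assoc]
    _ = 1 := by
        simp only [mul_assoc]
        simp [← mul_assoc (X .gb) (X .gb), ← mul_assoc (X .gq) (X .gq), h.bb, h.qq]

theorem Sat.zeta_comm_x : Commute (X .gx) (zeta X 0) := by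
  rw [h.zeta_zero]
  exact ((h.wx.symm.mul_right h.bx.symm).mul_right h.wx.symm).mul_right h.bx.symm

theorem Sat.zeta_axax : zeta X 0 = X .ga * X .gx * X .ga * X .gx := by
  rw [h.axa, h.zeta_comm_x.eq, mul_assoc, h.xx, mul_one]

theorem Sat.zeta_b : Commute (X .gb) (zeta X 0) := by
  rw [h.zeta_axax]
  exact ((h.ab.symm.mul_right h.bx).mul_right h.ab.symm).mul_right h.bx

theorem Sat.zeta_u : Commute (X .gu) (zeta X 0) := by
  rw [h.zeta_zero]
  exact ((h.uw.mul_right h.ub).mul_right h.uw).mul_right h.ub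

theorem Sat.zeta_v : Commute (X .gv) (zeta X 0) := by
  rw [h.zeta_axax]
  exact ((h.va.mul_right h.vx).mul_right h.va).mul_right h.vx

theorem Sat.zeta_a : Commute (X .ga) (zeta X 0) := by
  rw [h.zeta_zero]
  exact ((h.aw.mul_right h.ab).mul_right h.aw).mul_right h.ab

theorem Sat.qb_swap : X .gq * X .gb = X .gx * X .gb * X .gq := by
  calc X .gq * X .gb = X .gq * X .gb * (X .gq * X .gq) := by rw [h.qq, mul_one]
    _ = X .gq * X .gb * X .gq * X .gq := by simp [mul_assoc]
    _ = _ := by rw [h.qbq]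

theorem Sat.zeta_q : Commute (X .gq) (zeta X 0) := by
  show X .gq * zeta X 0 = zeta X 0 * X .gq
  have hz := h.zeta_comm_x
  rw [h.zeta_zero] at hz ⊢
  calc X .gq * (X .gw * X .gb * X .gw * X .gb)
      = (X .gq * X .gw) * (X .gb * X .gw * X .gb) := by simp [mul_assoc]
    _ = X .gw * (X .gq * X .gb) * (X .gw * X .gb) := by rw [h.qw.eq]; simp [mul_assoc]
    _ = (X .gw * X .gx) * X .gb * (X .gq * X .gw) * X .gb := by
        rw [h.qb_swap]; simp [mul_assoc]
    _ = X .gx * X .gw * X .gb * X .gw * (X .gq * X .gb) := by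
        rw [h.qw.eq, h.wx.eq]; simp [mul_assoc]
    _ = X .gx * X .gw * X .gb * X .gw * (X .gb * X .gx) * X .gq := by
        rw [h.qb_swap, h.bx.eq]; simp [mul_assoc]
    _ = X .gx * (X .gw * X .gb * X .gw * X .gb) * X .gx * X .gq := by simp [mul_assoc]
    _ = X .gw * X .gb * X .gw * X .gb * X .gq := by
        rw [hz.eq, mul_assoc _ (X .gx) (X .gx), h.xx, mul_one]

/-- `zeta_0` commutes with every generator. -/
theorem Sat.zeta_central (g : Gen) : Commute (X g) (zeta X 0) := by
  cases g with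
  | gu => exact h.zeta_u
  | gU => exact commute_of_inv h.uU h.Uu h.zeta_u
  | gv => exact h.zeta_v
  | gV => exact commute_of_inv h.vV h.Vv h.zeta_v
  | ga => exact h.zeta_a
  | gb => exact h.zeta_b
  | gq => exact h.zeta_q
  | cc => rw [← h.uv]; exact h.zeta_u.mul_left h.zeta_v
  | aq => rw [← h.aq_eq]; exact h.zeta_a.mul_left h.zeta_q
  | qb => rw [← h.qb_eq]; exact h.zeta_q.mul_left h.zeta_b
  | gw => rw [h.w_word]; exact ((h.zeta_a.mul_left h.zeta_q).mul_left h.zeta_a).mul_left h.zeta_q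
  | gx => exact h.zeta_comm_x

theorem Sat.zeta_sq : zeta X 0 * zeta X 0 = 1 := by
  have h1 : zeta X 0 = X .gb * X .gw * X .gb * X .gw := by
    calc zeta X 0 = zeta X 0 * (X .gb * X .gb) := by rw [h.bb, mul_one]
      _ = X .gb * zeta X 0 * X .gb := by rw [← mul_assoc, ← h.zeta_b.eq]
      _ = X .gb * X .gw * X .gb * X .gw * (X .gb * X .gb) := by
          rw [h.zeta_zero]; simp [mul_assoc]
      _ = _ := by rw [h.bb, mul_one]
  nth_rewrite 1 [h.zeta_zero]
  rw [h1]
  simp only [mul_assoc]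
  simp [← mul_assoc (X .gb) (X .gb), ← mul_assoc (X .gw) (X .gw), h.bb, h.ww]

theorem Sat.cc_inv_left : X .gU * X .gV * X .cc = 1 := by
  rw [← h.vu, ← mul_assoc, mul_assoc (X .gU), h.Vv, mul_one, h.Uu]

theorem Sat.cc_inv_right : X .cc * (X .gU * X .gV) = 1 := by
  rw [← h.vu, ← mul_assoc, mul_assoc (X .gv), h.uU, mul_one, h.vV]

theorem Sat.cq_inv : Commute (X .gU * X .gV) (X .gq) :=
  commute_of_inv h.cc_inv_right h.cc_inv_left h.cq

theorem Sat.shift_a_eq : X .gu * X .ga * X .gU = X .cc * X .ga * (X .gU * X .gV) := by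
  have : Commute (X .gU) (X .gv) := commute_of_inv h.uU h.Uu h.uv'
  calc X .gu * X .ga * X .gU = X .gu * X .ga * X .gU * (X .gv * X .gV) := by rw [h.vV, mul_one]
    _ = X .gu * (X .ga * X .gv) * (X .gU * X .gV) := by
        rw [← mul_assoc, mul_assoc _ (X .gU) (X .gv), this.eq]; simp [mul_assoc]
    _ = _ := by rw [← h.va.eq, ← h.uv]; simp [mul_assoc]

theorem Sat.shift_w_eq : X .gv * X .gw * X .gV = X .cc * X .gw * (X .gU * X .gV) := by
  calc X .gv * X .gw * X .gV = X .gv * (X .gu * X .gU) * X .gw * X .gV := by rw [h.uU, mul_one]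
    _ = X .gv * X .gu * (X .gU * X .gw) * X .gV := by simp [mul_assoc]
    _ = _ := by rw [(commute_of_inv h.uU h.Uu h.uw).eq, h.vu]; simp [mul_assoc]

theorem Sat.conj_mul (p q : M) :
    (X .cc * p * (X .gU * X .gV)) * (X .cc * q * (X .gU * X .gV)) =
      X .cc * (p * q) * (X .gU * X .gV) := by
  calc _ = X .cc * p * ((X .gU * X .gV) * X .cc) * q * (X .gU * X .gV) := by simp [mul_assoc]
    _ = _ := by rw [h.cc_inv_left, mul_one]; simp [mul_assoc]

theorem Sat.shift : Sat (shift X) := by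
  have hc : Commute (X .cc) (X .gq) := h.cq
  have hq : X .gq = X .cc * X .gq * (X .gU * X .gV) := by
    rw [hc.eq, mul_assoc, h.cc_inv_right, mul_one]
  intro r
  fin_cases r <;> simp only [ruleTable, RuleOK, Vale.Agent.P176.shift] <;>
    dsimp
  · exact h.uU
  · exact h.Uu
  · exact h.vV
  · exact h.Vv
  · rw [h.shift_a_eq, h.conj_mul, h.aa, mul_one, h.cc_inv_right]
  · exact h.bb
  · exact h.qq
  · rw [h.shift_w_eq, h.conj_mul, h.ww, mul_one, h.cc_inv_right]
  · exact h.qb_eq
  · rw [h.shift_a_eq, h.shift_w_eq]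
    nth_rewrite 1 [hq]
    nth_rewrite 2 [hq]
    rw [h.conj_mul, h.conj_mul, h.w_word]; simp [mul_assoc]
  · exact h.x_eq
  · exact h.uv
  · exact h.vu
  · exact ((h.uv'.symm.mul_right h.va).mul_right
      (commute_of_inv h.uU h.Uu h.uv').symm).eq
  · exact h.ub
  · exact h.cq
  · exact ((h.ub.mul_left h.ab).mul_left (commute_of_inv h.uU h.Uu h.ub)).eq
  · exact ((h.uv'.mul_right h.uw).mul_right (commute_of_inv h.vV h.Vv h.uv'.symm).symm).eq
  · exact h.vx
  · rw [h.shift_a_eq, h.shift_w_eq, h.conj_mul, h.conj_mul, h.aw.eq]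
  · exact h.bx
  · exact h.qx
  · rw [h.shift_w_eq]
    calc X .gq * (X .cc * X .gw * (X .gU * X .gV))
        = (X .cc * X .gq * (X .gU * X .gV)) * (X .cc * X .gw * (X .gU * X .gV)) := by rw [← hq]
      _ = (X .cc * X .gw * (X .gU * X .gV)) * (X .cc * X .gq * (X .gU * X .gV)) := by
          rw [h.conj_mul, h.conj_mul, h.qw.eq]
      _ = _ := by rw [← hq]
  · exact ((h.vx.mul_left h.wx).mul_left (commute_of_inv h.vV h.Vv h.vx)).eq

end rules

end Vale.Agent.P176
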