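import Vale.Agent.P176.Window
import Vale.Agent.P176.Lifts

/-!
P176: the window module `hat M = (M, M, M)` of operators satisfying the rules.
-/

namespace Vale.Agent.P176

universe u

/-- A vector space with operators satisfying the rules. -/
structure RMod (k : Type u) [Field k] where
  M : Type u
  [acg : AddCommGroup M]
  [mod : Module k M]
  op : Gen → Module.End k M
  sat : Sat op

attribute [instance] RMod.acg RMod.mod

namespace RMod

variable {k : Type u} [Field k] (N : RMod k)

/-- The arrow values: `t ↦ 1`, `g ↦ op g - 1`. -/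
def arrow : V → Module.End k N.M
  | none => 1
  | some g => N.op g - 1

theorem arrow_rel (l : Rel) :
    ((relTerms l).map fun x => (x.1 : ℤ) • (N.arrow x.2.1 * N.arrow x.2.2)).sum = 0 := by
  rw [← relOf_sat N.sat l, relOf]
  congr 1
  refine List.map_congr_left fun x _ => ?_
  rcases x with ⟨c, _ | g, _ | h⟩ <;> rfl

/-- `v ↦ w` component operator on `Fin 3 → M`. -/
def slot (w v : Fin 3) (f : Module.End k N.M) : Module.End k (Fin 3 → N.M) :=
  (LinearMap.single k (fun _ => N.M) w) ∘ₗ f ∘ₗ (LinearMap.proj v)

theorem slot_apply (w v : Fin 3) (f : Module.End k N.M) (x : Fin 3 → N.M) :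
    N.slot w v f x = Pi.single w (f (x v)) := rfl

theorem slot_mul (a b c d : Fin 3) (f g : Module.End k N.M) :
    N.slot a b f * N.slot c d g = if b = c then N.slot a d (f * g) else 0 := by
  refine LinearMap.ext fun x => ?_
  split_ifs with h
  · subst h; simp [Module.End.mul_apply, slot_apply]
  · simp [Module.End.mul_apply, slot_apply, h]

def winRep : WinRep k (Module.End k (Fin 3 → N.M)) where
  e v := N.slot v v 1
  α v g := N.slot v.succ v.castSucc (N.arrow g)
  e_mul i j := by
    rw [slot_mul, one_mul]
    split_ifs with h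
    · subst h; rfl
    · rfl
  e_α v g := by rw [slot_mul, if_pos rfl, one_mul]
  α_e v g := by rw [slot_mul, if_pos rfl, mul_one]
  rel l := by
    let f : Module.End k N.M →+ Module.End k (Fin 3 → N.M) :=
      AddMonoidHom.mk' (N.slot 2 0) fun a b => by
        simp [slot, LinearMap.add_comp, LinearMap.comp_add]
    have h := congrArg f (N.arrow_rel l)
    rw [map_list_sum, map_zero, List.map_map] at h
    rw [← h]
    congr 1
    refine List.map_congr_left fun x _ => ?_
    rw [slot_mul, if_pos (by rfl), Function.comp_apply, map_zsmul]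
    rfl

theorem winRep_unital : N.winRep.e 0 + N.winRep.e 1 + N.winRep.e 2 = 1 := by
  refine LinearMap.ext fun x => funext fun i => ?_
  fin_cases i <;> simp [winRep, slot_apply]

theorem winRep_e (v : Fin 3) (x : Fin 3 → N.M) : N.winRep.e v x = Pi.single v (x v) := rfl

theorem winRep_α (v : Fin 2) (g : V) (x : Fin 3 → N.M) :
    N.winRep.α v g x = Pi.single v.succ (N.arrow g (x v.castSucc)) := rfl

attribute [local irreducible] WinRep.toLin winRep

/-- `hat M`. -/
def Hat : Type u := Fin 3 → N.M

instance : AddCommGroup N.Hat := inferInstanceAs (AddCommGroup (Fin 3 → N.M))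

/-- The action. -/
def act (b : Win k) (x : N.Hat) : N.Hat := N.winRep.toLin b x

theorem act_one (x : N.Hat) : N.act 1 x = x := by
  have h := N.winRep.toLin_one.trans N.winRep_unital
  unfold act
  rw [h]
  rfl

theorem act_mul (b c : Win k) (x : N.Hat) : N.act (b * c) x = N.act b (N.act c x) := by
  have h := N.winRep.toLin_mul b c
  unfold act
  rw [h]
  rfl

theorem act_zero (b : Win k) : N.act b 0 = 0 := by
  unfold act
  exact (N.winRep.toLin b : Module.End k (Fin 3 → N.M)).map_zero

theorem act_add (b : Win k) (x y : N.Hat) : N.act b (x + y) = N.act b x + N.act b y := by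
  unfold act
  exact (N.winRep.toLin b : Module.End k (Fin 3 → N.M)).map_add x y

theorem add_act (b c : Win k) (x : N.Hat) : N.act (b + c) x = N.act b x + N.act c x := by
  have h := map_add N.winRep.toLin b c
  unfold act
  rw [h]
  rfl

theorem zero_act (x : N.Hat) : N.act 0 x = 0 := by
  have h := map_zero N.winRep.toLin
  unfold act
  rw [h]
  rfl

instance instModuleHat : Module (Win k) N.Hat where
  smul := N.act
  one_smul := N.act_one
  mul_smul := N.act_mul
  smul_zero := N.act_zero
  smul_add := N.act_add
  add_smul := N.add_act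
  zero_smul := N.zero_act

theorem smul_def (b : Win k) (x : N.Hat) : b • x = N.winRep.toLin b x := rfl

/-- Vertices act as projections. -/
theorem vert_smul (v : Fin 3) (x : N.Hat) : Win.vert k v • x = (Pi.single v (x v) : Fin 3 → N.M) := by
  rw [smul_def, WinRep.toLin_vert]; exact N.winRep_e v x

/-- Arrows act by `arrow`. -/
theorem arr_smul (v : Fin 2) (g : V) (x : N.Hat) :
    Win.arr k v g • x = (Pi.single v.succ (N.arrow g (x v.castSucc)) : Fin 3 → N.M) := by
  rw [smul_def, WinRep.toLin_arr]; exact N.winRep_α v g x

/-- The bundled module. -/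
abbrev hat : ModuleCat.{u} (Win k) := ModuleCat.of (Win k) N.Hat

end RMod

end Vale.Agent.P176
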