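import Vale.Agent.P176.AlgMods

set_option linter.unusedSectionVars false
set_option linter.unusedVariables false

/-! Projective dimension and Ext of the modules over the algebra of the machine. -/

namespace Vale.Agent.P176

open CategoryTheory Abelian

universe u v

/-- A short exact sequence of modules from its linear maps. -/
theorem shortExact_of {A : Type u} [Ring A] {X Y Z : Type u} [AddCommGroup X] [Module A X]
    [AddCommGroup Y] [Module A Y] [AddCommGroup Z] [Module A Z] (f : X →ₗ[A] Y) (g : Y →ₗ[A] Z)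
    (hinj : Function.Injective f) (hex : Function.Exact f g) (hsur : Function.Surjective g) :
    (ShortComplex.mk (ModuleCat.ofHom f) (ModuleCat.ofHom g)
      (ModuleCat.hom_ext hex.linearMap_comp_eq_zero)).ShortExact :=
  ModuleCat.shortComplex_shortExact _ hex hinj hsur

/-- The zero module has all Ext groups zero. -/
theorem ext_eq_zero_of_subsingleton {A : Type u} [Ring A] (M N : ModuleCat.{u} A) [Subsingleton M]
    {m : ℕ} (e : Ext M N m) : e = 0 :=
  have := (ModuleCat.isZero_of_subsingleton M).hasProjectiveDimensionLT_zero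
  e.eq_zero_of_hasProjectiveDimensionLT 0 (Nat.zero_le m)

namespace Setting

variable {k B : Type u} [Field k] [Ring B] [Algebra k B] (S : Setting k B)

/-- The cover of a module, as an object. -/
noncomputable abbrev mW (U : ModuleCat.{u} B) : ModuleCat.{u} S.Alg := ModuleCat.of S.Alg (S.Wt U)

/-- A disc, as an object. -/
noncomputable abbrev mD (j : Fin S.l) (U : ModuleCat.{u} B) : ModuleCat.{u} S.Alg :=
  ModuleCat.of S.Alg (S.Disc j U)

/-- A module at a position, as an object. -/
noncomputable abbrev mI (i : Fin (S.l + 1)) (U : ModuleCat.{u} B) : ModuleCat.{u} S.Alg :=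
  ModuleCat.of S.Alg (S.Pt i U)

/-- The complex of a module, as an object. -/
noncomputable abbrev mF (U : ModuleCat.{u} B) : ModuleCat.{u} S.Alg := ModuleCat.of S.Alg (S.F U)

/-- The standard sequence of a module, in concrete form. -/
theorem presentation (U : ModuleCat.{u} B) : ∃ (K P : ModuleCat.{u} B) (f : K →ₗ[B] P)
    (g : P →ₗ[B] U), Module.Projective B P ∧ Function.Injective f ∧ Function.Exact f g ∧
      Function.Surjective g := by
  have h := ModuleCat.shortExact_projectiveShortComplex U
  exact ⟨_, _, U.projectiveShortComplex.f.hom, U.projectiveShortComplex.g.hom, inferInstance,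
    h.moduleCat_injective_f, (ShortComplex.ShortExact.moduleCat_exact_iff_function_exact _).1
      h.exact, h.moduleCat_surjective_g⟩

theorem pd_le_two (hgl : ∀ U : ModuleCat.{u} B, HasProjectiveDimensionLT U 3)
    (Fo : ModuleCat.{u} B → ModuleCat.{u} S.Alg)
    (hses : ∀ (K P U : ModuleCat.{u} B) (f : K →ₗ[B] P) (g : P →ₗ[B] U), Function.Injective f →
      Function.Exact f g → Function.Surjective g → ∃ T : ShortComplex (ModuleCat.{u} S.Alg),
        T.ShortExact ∧ T.X₁ = Fo K ∧ T.X₂ = Fo P ∧ T.X₃ = Fo U)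
    (hproj : ∀ P : ModuleCat.{u} B, Module.Projective B P → Projective (Fo P))
    (U : ModuleCat.{u} B) : HasProjectiveDimensionLT (Fo U) 3 := by
  suffices h : ∀ (n : ℕ) (U : ModuleCat.{u} B), HasProjectiveDimensionLT U (n + 1) →
      HasProjectiveDimensionLT (Fo U) (n + 1) from h 2 U (hgl U)
  intro n
  induction n with
  | zero =>
    intro U hU
    have : Projective U := projective_iff_hasProjectiveDimensionLT_one.2 hU
    exact projective_iff_hasProjectiveDimensionLT_one.1
      (hproj U ((IsProjective.iff_projective _).2 this))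
  | succ n ih =>
    intro U hU
    obtain ⟨K, P, f, g, hP, hf, hex, hg⟩ := presentation U
    have hS := shortExact_of f g hf hex hg
    have hK : HasProjectiveDimensionLT K (n + 1) :=
      (hS.hasProjectiveDimensionLT_X₃_iff n ((IsProjective.iff_projective _).1 hP)).1 hU
    obtain ⟨T, hT, h1, h2, h3⟩ := hses K P U f g hf hex hg
    have hp : Projective T.X₂ := h2 ▸ hproj P hP
    exact h3 ▸ (hT.hasProjectiveDimensionLT_X₃_iff n hp).2 (h1 ▸ ih K hK)

theorem projective_mW (P : ModuleCat.{u} B) (hP : Module.Projective B P) :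
    Projective (S.mW P) :=
  have := S.projective_Wt P
  (IsProjective.iff_projective _).1 this

theorem projective_mD (j : Fin S.l) (P : ModuleCat.{u} B) (hP : Module.Projective B P) :
    Projective (S.mD j P) :=
  have := S.projective_Disc j P
  (IsProjective.iff_projective _).1 this

theorem pd_mW (hgl : ∀ U : ModuleCat.{u} B, HasProjectiveDimensionLT U 3) (U : ModuleCat.{u} B) :
    HasProjectiveDimensionLT (S.mW U) 3 :=
  S.pd_le_two hgl S.mW (fun K P U f g hf hex hg =>
    ⟨_, shortExact_of (S.mapWt f) (S.mapWt g) (S.mapWt_inj hf) (S.mapWt_exact hex)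
      (S.mapWt_surj hg), rfl, rfl, rfl⟩) S.projective_mW U

theorem pd_mD (hgl : ∀ U : ModuleCat.{u} B, HasProjectiveDimensionLT U 3) (j : Fin S.l)
    (U : ModuleCat.{u} B) : HasProjectiveDimensionLT (S.mD j U) 3 :=
  S.pd_le_two hgl (S.mD j) (fun K P U f g hf hex hg =>
    ⟨_, shortExact_of (S.mapDisc j f) (S.mapDisc j g) (S.mapDisc_inj j hf) (S.mapDisc_exact j hex)
      (S.mapDisc_surj j hg), rfl, rfl, rfl⟩) (S.projective_mD j) U

theorem pt_smul_eq_zero (i : Fin (S.l + 1)) {U : Type u} [AddCommGroup U] [Module B U] (x : S.Alg)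
    (h : S.pos i x = 0) (u : S.Pt i U) : x • u = 0 := by
  show (S.pos i x • u.out : U) = 0
  rw [h, zero_smul]

/-- The arrow from a position, as an element of the algebra. -/
noncomputable def dlt (j : Fin S.l) : S.Alg :=
  TrivSqZeroExt.inl (TrivSqZeroExt.inr (Pi.single j 1 : Fin S.l → B))

/-- The idempotent of a position. -/
noncomputable def idem (i : Fin (S.l + 1)) : S.Alg :=
  TrivSqZeroExt.inl (TrivSqZeroExt.inl (Pi.single i 1))

theorem pos_dlt (i : Fin (S.l + 1)) (j : Fin S.l) : S.pos i (S.dlt j) = 0 := rfl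

theorem ext_mD_zero (j : Fin S.l) (K : ModuleCat.{u} B) : ∀ (m : ℕ) (U : ModuleCat.{u} B)
    (e : Ext (S.mD j U) (S.mI 0 K) m), e = 0 := by
  intro m
  induction m with
  | zero =>
    intro U e
    obtain ⟨φ, rfl⟩ := Ext.homEquiv₀.symm.surjective e
    suffices h : φ = 0 by simp [h]
    have h1 : ∀ u : U, φ.hom (Disc.mk u 0 : S.Disc j U) = 0 := fun u => by
      have e1 : S.idem j.succ • (Disc.mk u 0 : S.Disc j U) = Disc.mk u 0 :=
        Disc.ext S j (by simp [Disc.smul_hi, idem, pos_apply])
          (by simp [Disc.smul_lo, idem, pos_apply])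
      rw [← e1]
      refine (φ.hom.map_smul _ _).trans ?_
      exact S.pt_smul_eq_zero (U := K) 0 _ (by simp [idem, pos_apply, Ne.symm (Fin.succ_ne_zero j)]) _
    have h2 : ∀ u : U, φ.hom (Disc.mk 0 u : S.Disc j U) = 0 := fun u => by
      have e1 : S.dlt j • (Disc.mk u 0 : S.Disc j U) = Disc.mk 0 u :=
        Disc.ext S j (by simp [Disc.smul_hi, pos_dlt]) (by
          show S.pos j.castSucc (S.dlt j) • _ + (Pi.single j (1 : B) : Fin S.l → B) j • u = u
          simp [pos_dlt])
      rw [← e1]
      refine (φ.hom.map_smul _ _).trans ?_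
      exact S.pt_smul_eq_zero (U := K) 0 _ (S.pos_dlt 0 j) _
    refine ModuleCat.hom_ext (LinearMap.ext fun (w : S.Disc j U) => ?_)
    have e2 : w = (Disc.mk w.hi 0 : S.Disc j U) + Disc.mk 0 w.lo :=
      Disc.ext S j (add_zero _).symm (zero_add _).symm
    show φ.hom w = 0
    rw [e2]
    refine (φ.hom.map_add _ _).trans ?_
    rw [h1, h2, add_zero]
  | succ m ih =>
    intro U e
    obtain ⟨K', P, f, g, hP, hf, hex, hg⟩ := presentation U
    have hS := shortExact_of (S.mapDisc j f) (S.mapDisc j g) (S.mapDisc_inj j hf)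
      (S.mapDisc_exact j hex) (S.mapDisc_surj j hg)
    have := S.projective_mD j P hP
    obtain ⟨x, hx⟩ := Ext.contravariant_sequence_exact₃ hS _ e (Ext.eq_zero_of_projective _)
      (add_comm 1 m)
    rw [← hx, ih K' x, Ext.comp_zero]

/-- The sequence moving a module down one position. -/
theorem ses_disc (j : Fin S.l) (U : ModuleCat.{u} B) :
    ∃ T : ShortComplex (ModuleCat.{u} S.Alg), T.ShortExact ∧ T.X₁ = S.mI j.castSucc U ∧
      T.X₂ = S.mD j U ∧ T.X₃ = S.mI j.succ U := by
  let f : S.Pt j.castSucc U →ₗ[S.Alg] S.Disc j U :=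
    { toFun := fun u => Disc.mk 0 u.out
      map_add' := fun u v => Disc.ext S j (by simp) (by simp; rfl)
      map_smul' := fun x u => Disc.ext S j (by simp [Disc.smul_hi])
        (by simp [Disc.smul_lo, Pt.smul_out]) }
  let g : S.Disc j U →ₗ[S.Alg] S.Pt j.succ U :=
    { toFun := fun w => Pt.mk w.hi
      map_add' := fun w w' => rfl
      map_smul' := fun x w => rfl }
  refine ⟨_, shortExact_of f g (fun u v h => congrArg Disc.lo h) ?_
    (fun u => ⟨Disc.mk u.out 0, rfl⟩), rfl, rfl, rfl⟩
  intro w
  constructor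
  · intro h
    exact ⟨Pt.mk w.lo, Disc.ext S j (Eq.symm h) rfl⟩
  · rintro ⟨u, rfl⟩
    rfl

/-- The sequence of the cover. -/
theorem ses_cover (U : ModuleCat.{u} B) :
    ∃ T : ShortComplex (ModuleCat.{u} S.Alg), T.ShortExact ∧ T.X₁ = S.mF U ∧
      T.X₂ = S.mW U ∧ T.X₃ = S.mI 0 U := by
  let f : S.F U →ₗ[S.Alg] S.Wt U :=
    { toFun := fun z => Wt.mk 0 z
      map_add' := fun z z' => Wt.ext S (by simp) fun c => rfl
      map_smul' := fun x z => Wt.ext S (by simp [Wt.smul_hd]) fun c => by
        rw [RingHom.id_apply, Wt.smul_tl]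
        simp
        rfl }
  let g : S.Wt U →ₗ[S.Alg] S.Pt 0 U :=
    { toFun := fun w => Pt.mk w.hd
      map_add' := fun w w' => rfl
      map_smul' := fun x w => rfl }
  refine ⟨_, shortExact_of f g (fun u v h => congrArg Wt.tl h) ?_
    (fun u => ⟨Wt.mk u.out 0, rfl⟩), rfl, rfl, rfl⟩
  intro w
  constructor
  · intro h
    exact ⟨w.tl, Wt.ext S (Eq.symm h) fun c => rfl⟩
  · rintro ⟨u, rfl⟩
    rfl

end Setting

end Vale.Agent.P176
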