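import Vale.Agent.P176.Cells

/-!
P176: finite matrices over the window algebra and the `Setting`.
-/

namespace Vale.Agent.P176

open MulOpposite

universe u

/-- An unbounded cell. -/
abbrev Cell0 : Type := Blk × Kind × List Letter

def cdeg (c : Cell0) : ℕ := 1 + shiftB c.1 + ecount c.2.2 + kdg c.2.1

variable {k : Type u} [Field k] (D : Lifts k)

noncomputable instance : DecidableEq Cell0 := Classical.decEq _

def InB (c : Cell0) : Prop := weight c.2.2 + koff c.2.1 ≤ lev D c.1

abbrev CellB : Type := {c : Cell0 // InB D c}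

instance : Finite (CellB D) := by
  have hl : {l : List Letter | l.length ≤ 2 + 7 * D.P}.Finite := List.finite_length_le Letter _
  have := hl.to_subtype
  refine Finite.of_injective (fun c : CellB D => (c.1.1, c.1.2.1,
    (⟨c.1.2.2, ?_⟩ : {l : List Letter | l.length ≤ 2 + 7 * D.P}))) ?_
  · have h1 := c.2; have h2 := lev_le D c.1.1; have h3 := length_le_weight c.1.2.2
    unfold InB at h1
    show c.1.2.2.length ≤ _
    omega
  · intro c c' h
    simp only [Prod.mk.injEq, Subtype.mk.injEq] at h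
    exact Subtype.ext (Prod.ext h.1 (Prod.ext h.2.1 h.2.2))

noncomputable instance : Fintype (CellB D) := Fintype.ofFinite _

theorem cdeg_le (c : CellB D) : cdeg c.1 < 7 * D.P + 8 + 1 := by
  obtain ⟨⟨⟨s, y⟩, κ, w⟩, hc⟩ := c
  have h2 := lev_le D (s, y)
  have h3 := ecount_le_weight w
  have h4 : shiftB (s, y) ≤ 2 := by
    rcases s with v | ⟨h, up⟩ <;> cases y <;> simp [shiftB]
    all_goals split_ifs <;> simp
  have h5 : kdg κ ≤ 2 := by rcases κ with v | ⟨v, g⟩ | l <;> simp [kdg]
  unfold InB at hc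
  simp only [cdeg] at hc ⊢
  omega

variable (k) in
/-- A monomial family. -/
noncomputable def bas (c : Cell0) (b : Win k) : XSp k :=
  Matrix.single c.1 c.2.1 (el k c.2.2 b)

variable (k) in
/-- Coefficient of a cell. -/
noncomputable def cfL (c : Cell0) : XSp k →ₗ[k] Win k where
  toFun x := ((x c.1 c.2.1).coeff (FreeMonoid.ofList c.2.2)).unop
  map_add' x y := by simp
  map_smul' r x := by simp

theorem cfL_apply (c : Cell0) (x : XSp k) :
    cfL k c x = ((x c.1 c.2.1).coeff (FreeMonoid.ofList c.2.2)).unop := rfl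

theorem cfL_bas (c c' : Cell0) (b : Win k) : cfL k c (bas k c' b) = if c' = c then b else 0 := by
  obtain ⟨β, κ, w⟩ := c
  obtain ⟨β', κ', w'⟩ := c'
  simp only [cfL_apply, bas, Matrix.single_apply]
  by_cases h : β' = β ∧ κ' = κ
  · obtain ⟨rfl, rfl⟩ := h
    simp only [and_self, if_true, el, MonoidAlgebra.coeff_single, Finsupp.single_apply,
      Prod.mk.injEq, true_and]
    by_cases hw : w' = w <;> simp [hw]
  · rw [if_neg h, if_neg]
    · simp
    · simp only [Prod.mk.injEq]; exact fun e => h ⟨e.1, e.2.1⟩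

theorem bas_add (c : Cell0) (a b : Win k) : bas k c (a + b) = bas k c a + bas k c b := by
  simp [bas, el_add, Matrix.single_add]

theorem bas_smul (c : Cell0) (r : k) (a : Win k) : bas k c (r • a) = r • bas k c a := by
  simp [bas, el_smul, Matrix.smul_single]

theorem bas_zero (c : Cell0) : bas k c 0 = 0 := by simp [bas, el_zero]

variable (k) in
/-- The span of the monomials on cells in a set. -/
noncomputable def XB (P : Set Cell0) : Submodule k (XSp k) :=
  Submodule.span k {y | ∃ c ∈ P, ∃ b, y = bas k c b}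

theorem bas_mem {P : Set Cell0} {c : Cell0} (h : c ∈ P) (b : Win k) : bas k c b ∈ XB k P :=
  Submodule.subset_span ⟨c, h, b, rfl⟩

theorem cfL_mem {P : Set Cell0} {x : XSp k} (hx : x ∈ XB k P) {c : Cell0} (hc : c ∉ P) :
    cfL k c x = 0 := by
  refine Submodule.span_induction (p := fun x _ => cfL k c x = 0) ?_ (map_zero _)
    (fun a b _ _ ha hb => by simp [ha, hb]) (fun r a _ ha => by simp [ha]) hx
  rintro _ ⟨c', hc', b, rfl⟩
  rw [cfL_bas, if_neg]
  rintro rfl; exact hc hc'

variable (k) in
/-- Scalars from the right. -/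
noncomputable def Rb (b : Win k) (x : XSp k) : XSp k :=
  Matrix.diagonal (fun _ : Blk => el k [] b) * x

variable (k) in
/-- Multiplication by the vertex of each kind. -/
noncomputable def Ek : Matrix Kind Kind (SB k) :=
  Matrix.diagonal fun κ => el k [] (Win.vert k (ksrc κ))

theorem Rb_bas (a b : Win k) (c : Cell0) : Rb k a (bas k c b) = bas k c (b * a) := by
  rw [Rb, bas, bas]
  refine Matrix.ext fun i j => ?_
  rw [Matrix.diagonal_mul, Matrix.single_apply, Matrix.single_apply]
  split_ifs <;> simp [el_mul]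

theorem bas_Ek (c : Cell0) (b : Win k) :
    bas k c b * Ek k = bas k c (Win.vert k (ksrc c.2.1) * b) := by
  rw [bas, bas, Ek]
  refine Matrix.ext fun i j => ?_
  rw [Matrix.mul_diagonal, Matrix.single_apply, Matrix.single_apply]
  split_ifs with h
  · rw [el_mul, List.append_nil, h.2]
  · simp

/-- Operators compatible with scalars and vertices. -/
def IsNat (f : XSp k →ₗ[k] XSp k) : Prop :=
  (∀ b x, f (Rb k b x) = Rb k b (f x)) ∧ ∀ x, f (x * Ek k) = f x * Ek k

theorem Ψ_comm_diag (M : MatS k) (b : Win k) :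
    Ψ k M * Matrix.diagonal (fun _ : Blk => el k [] b) =
      Matrix.diagonal (fun _ : Blk => el k [] b) * Ψ k M := by
  refine Matrix.ext fun i j => ?_
  rw [Matrix.mul_diagonal, Matrix.diagonal_mul, Ψ_apply, ι_comm]

theorem opM_nat (M : MatS k) : IsNat (opM M) := by
  refine ⟨fun b x => ?_, fun x => ?_⟩
  · rw [opM_apply, opM_apply, Rb, Rb, ← Matrix.mul_assoc, Ψ_comm_diag, Matrix.mul_assoc]
  · rw [opM_apply, opM_apply, Matrix.mul_assoc]

theorem δB_diag (b : Win k) :
    (Matrix.diagonal (fun _ : Blk => el k [] b)).map (δB k) = 0 := by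
  refine Matrix.ext fun i j => ?_
  rw [Matrix.map_apply, Matrix.diagonal_apply]
  split_ifs <;> simp [δB_el_nil]

theorem τB_diag {ι : Type} [DecidableEq ι] (f : ι → Win k) :
    (Matrix.diagonal (fun i => el k [] (f i))).map (τB k) =
      Matrix.diagonal (fun i => el k [] (f i)) := by
  refine Matrix.ext fun i j => ?_
  rw [Matrix.map_apply, Matrix.diagonal_apply]
  split_ifs <;> simp [τB_el_nil]

theorem Ek_Δ : Ek k * Δ k = Δ k * Ek k := by
  let L : Kind → (Kind → SB k) →+ (Kind → SB k) := fun κ =>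
    AddMonoidHom.mk' (fun r l => el k [] (Win.vert k (ksrc κ)) * r l -
      r l * el k [] (Win.vert k (ksrc l))) fun r r' => by funext l; simp [mul_add, add_mul]; abel
  have hL : ∀ κ j w c, c * Win.vert k (ksrc κ) = c → Win.vert k (ksrc j) * c = c →
      L κ (Pi.single j (el k w c)) = 0 := by
    intro κ j w c h1 h2
    funext l
    simp only [L, AddMonoidHom.mk'_apply, Pi.single_apply, Pi.zero_apply]
    split_ifs with h
    · subst h; simp [el_mul, h1, h2]
    · simp
  have key : ∀ κ, L κ (Δrow k κ) = 0 := by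
    intro κ
    rcases κ with v | ⟨v, g⟩ | l
    · exact map_zero _
    · rw [Δrow, map_sub, hL, hL, sub_zero]
      all_goals simp [ksrc, Win.vert_mul_vert, Win.arr_mul_vert, Win.vert_mul_arr]
    · simp only [Δrow, map_sub, map_list_sum, List.map_map]
      have h1 : ∀ x : ℤ × (V × V), L (Sum.inr (Sum.inr l)) ((x.1 : ℤ) •
          (Pi.single (Sum.inr (Sum.inl (0, x.2.2))) (el k (gWord x.2.1) (Win.vert k 0)) +
            Pi.single (Sum.inr (Sum.inl (1, x.2.1))) (el k [] (Win.arr k 0 x.2.2)))) = 0 := by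
        intro x
        have a1 : Win.arr k 0 x.2.2 * Win.vert k 0 = Win.arr k 0 x.2.2 := Win.arr_mul_vert k 0 _
        have a2 : Win.vert k 1 * Win.arr k 0 x.2.2 = Win.arr k 0 x.2.2 := Win.vert_mul_arr k 0 _
        rw [map_zsmul, map_add, hL, hL, add_zero, smul_zero]
        all_goals simp [ksrc, Win.vert_mul_vert, a1, a2]
      rw [List.sum_eq_zero, zero_sub, neg_eq_zero]
      · cases l with
        | inl g => exact map_zero _
        | inr r =>
          show L _ (Pi.single (Sum.inl 0) (el k [Sum.inr r] (Win.vert k 0))) = 0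
          exact hL _ _ _ _ (by simp [ksrc, Win.vert_mul_vert]) (by simp [ksrc, Win.vert_mul_vert])
      · intro y hy
        obtain ⟨x, -, rfl⟩ := List.mem_map.1 hy
        exact h1 x
  refine Matrix.ext fun i j => ?_
  rw [Ek, Matrix.diagonal_mul, Matrix.mul_diagonal]
  exact sub_eq_zero.1 (congrFun (key i) j)

theorem dT_Rb (b : Win k) (x : XSp k) : dT (Rb k b x) = Rb k b (dT x) := by
  rw [Rb, Rb, dT_mul, δB_diag, Matrix.zero_mul, zero_add, τB_diag]

theorem dT_Ek (x : XSp k) : dT (x * Ek k) = dT x * Ek k := by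
  have h1 : (Ek k).map (δB k) = 0 := by
    refine Matrix.ext fun i j => ?_
    rw [Matrix.map_apply, Ek, Matrix.diagonal_apply]
    split_ifs <;> simp [δB_el_nil]
  have h2 : (Ek k).map (τB k) = Ek k := τB_diag _
  rw [dT, dT, map_δ_mul, map_τ_mul, h1, h2, Matrix.mul_zero, add_zero, Matrix.mul_assoc, Ek_Δ,
    Matrix.add_mul, Matrix.mul_assoc]

theorem opD_nat : IsNat (opD D) := by
  refine ⟨fun b x => ?_, fun x => ?_⟩
  · rw [opD_apply, opD_apply, dT_Rb]
    simp only [Rb, Matrix.mul_add, ← Matrix.mul_assoc, Ψ_comm_diag]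
  · rw [opD_apply, opD_apply, dT_Ek, Matrix.add_mul, Matrix.mul_assoc, Matrix.mul_assoc]

/-- The matrix of an operator on bounded cells. -/
noncomputable def mat (f : XSp k →ₗ[k] XSp k) : Matrix (CellB D) (CellB D) (Win k) :=
  fun i j => Win.vert k (ksrc i.1.2.1) * cfL k i.1 (f (bas k j.1 1)) * Win.vert k (ksrc j.1.2.1)

/-- Operators mapping bounded cells to bounded cells, with degree shift `m`. -/
def Moves (m : ℤ) (f : XSp k →ₗ[k] XSp k) : Prop :=
  ∀ c, InB D c → f (bas k c 1) ∈ XB k {c' | InB D c' ∧ (cdeg c' : ℤ) = cdeg c + m}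

theorem mat_deg {m : ℤ} {f : XSp k →ₗ[k] XSp k} (hf : Moves D m f) (i j : CellB D)
    (h : (cdeg i.1 : ℤ) ≠ cdeg j.1 + m) : mat D f i j = 0 := by
  rw [mat, cfL_mem (hf j.1 j.2) (fun hh => h hh.2), mul_zero, zero_mul]

theorem cfL_comp {f : XSp k →ₗ[k] XSp k} (hf : IsNat f) {x : XSp k}
    (hx : x ∈ XB k {c | InB D c}) (c : Cell0) :
    cfL k c (f x) = ∑ j : CellB D, cfL k c (f (bas k j.1 1)) * cfL k j.1 x := by
  refine Submodule.span_induction
    (p := fun x _ => cfL k c (f x) = ∑ j : CellB D, cfL k c (f (bas k j.1 1)) * cfL k j.1 x)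
    ?_ (by simp) (fun a b _ _ ha hb => by simp [ha, hb, mul_add, Finset.sum_add_distrib])
    (fun r a _ ha => by simp [ha, Finset.smul_sum]) hx
  rintro _ ⟨c', hc', b, rfl⟩
  have hR : ∀ y : XSp k, cfL k c (Rb k b y) = cfL k c y * b := by
    intro y
    simp only [cfL_apply, Rb]
    rw [Matrix.diagonal_mul, el]
    show (((MonoidAlgebra.single (1 : Word) (op b)) * y c.1 c.2.1).coeff _).unop = _
    rw [MonoidAlgebra.coeff_single_one_mul, unop_mul, unop_op]
  have e : bas k c' b = Rb k b (bas k c' 1) := by rw [Rb_bas, one_mul]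
  rw [e, hf.1, hR, Finset.sum_eq_single (⟨c', hc'⟩ : CellB D)]
  · rw [← e, cfL_bas, if_pos rfl]
  · intro j _ hj
    rw [← e, cfL_bas, if_neg, mul_zero]
    exact fun hh => hj (Subtype.ext hh.symm)
  · exact fun h => absurd (Finset.mem_univ _) h

theorem cfL_vert {f : XSp k →ₗ[k] XSp k} (hf : IsNat f) (i j : Cell0) :
    cfL k i (f (bas k j 1)) * Win.vert k (ksrc j.2.1) =
      Win.vert k (ksrc i.2.1) * cfL k i (f (bas k j 1)) := by
  have e1 : bas k j 1 * Ek k = Rb k (Win.vert k (ksrc j.2.1)) (bas k j 1) := by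
    rw [bas_Ek, Rb_bas, mul_one, one_mul]
  have h := congrArg (cfL k i) (hf.2 (bas k j 1))
  rw [e1, hf.1] at h
  refine Eq.trans ?_ (h.trans ?_)
  · simp only [cfL_apply, Rb]
    rw [Matrix.diagonal_mul, el]
    show _ = (((MonoidAlgebra.single (1 : Word) (op _)) * _).coeff _).unop
    rw [MonoidAlgebra.coeff_single_one_mul, unop_mul, unop_op]
  · simp only [cfL_apply, Ek]
    rw [Matrix.mul_diagonal, el]
    show ((_ * (MonoidAlgebra.single (1 : Word) (op _))).coeff _).unop = _
    rw [MonoidAlgebra.coeff_mul_single_one, unop_mul, unop_op]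

theorem Moves.bdd {m : ℤ} {f : XSp k →ₗ[k] XSp k} (hf : Moves D m f) (c : CellB D) :
    f (bas k c.1 1) ∈ XB k {c | InB D c} := by
  refine Submodule.span_mono ?_ (hf c.1 c.2)
  rintro _ ⟨c', h, b, rfl⟩
  exact ⟨c', h.1, b, rfl⟩

theorem mat_comp {m : ℤ} {f g : XSp k →ₗ[k] XSp k} (hf : IsNat f) (hg : IsNat g)
    (hgm : Moves D m g) : mat D (f ∘ₗ g) = mat D f * mat D g := by
  refine Matrix.ext fun i l => ?_
  have h := cfL_comp D hf (Moves.bdd D hgm l) i.1
  rw [Matrix.mul_apply]
  simp only [mat, LinearMap.comp_apply]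
  rw [h, Finset.mul_sum, Finset.sum_mul]
  refine Finset.sum_congr rfl fun j _ => ?_
  have e1 := cfL_vert hf i.1 j.1
  have e2 := cfL_vert hg j.1 l.1
  have e3 : Win.vert k (ksrc i.1.2.1) * Win.vert k (ksrc i.1.2.1) = Win.vert k (ksrc i.1.2.1) := by
    rw [Win.vert_mul_vert, if_pos rfl]
  have e4 : Win.vert k (ksrc j.1.2.1) * Win.vert k (ksrc j.1.2.1) = Win.vert k (ksrc j.1.2.1) := by
    rw [Win.vert_mul_vert, if_pos rfl]
  generalize cfL k i.1 (f (bas k j.1 1)) = a at e1 ⊢
  generalize cfL k j.1 (g (bas k l.1 1)) = b at e2 ⊢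
  generalize Win.vert k (ksrc i.1.2.1) = ei at e1 e3 ⊢
  generalize Win.vert k (ksrc j.1.2.1) = ej at e1 e2 e4 ⊢
  generalize Win.vert k (ksrc l.1.2.1) = el' at e2 ⊢
  have hh : ei * a * ej = ei * a := by rw [mul_assoc, e1, ← mul_assoc, e3]
  calc ei * (a * b) * el' = (ei * a) * ej * (b * el') := by
        rw [hh]; simp [mul_assoc]
    _ = (ei * a) * ej * (ej * b) * el' := by
        rw [← mul_assoc (ei * a * ej) ej b, mul_assoc (ei * a) ej ej, e4]; simp [mul_assoc]
    _ = _ := by simp [mul_assoc]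

theorem XB_mul_bas {m : ℤ} {M : MatS k} (hM : M ∈ GoodM D m) {c : Cell0} (hc : InB D c)
    (x : Win k) :
    Ψ k M * Matrix.single c.1 c.2.1 (el k c.2.2 x) ∈
      XB k {c' | InB D c' ∧ (cdeg c' : ℤ) = cdeg c + m} := by
  obtain ⟨β, κ, w⟩ := c
  have e : Ψ k M * Matrix.single β κ (el k w x) =
      ∑ β' : Blk, Matrix.single β' κ (ι k (M β'.1 β.1 β'.2 β.2) * el k w x) := by
    refine Matrix.ext fun i j => ?_
    rw [Matrix.sum_apply, Finset.sum_eq_single i]
    · by_cases hj : j = κ
      · subst hj; simp [Ψ_apply]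
      · simp [hj, Ne.symm hj]
    · intro b _ hb; simp [hb]
    · simp
  simp only at e ⊢
  rw [e]
  refine Submodule.sum_mem _ fun β' _ => ?_
  refine Submodule.span_induction
    (p := fun s _ => Matrix.single β' κ (ι k s * el k w x) ∈
      XB k {c' | InB D c' ∧ (cdeg c' : ℤ) = cdeg (β, κ, w) + m}) ?_ (by simp)
    (fun a b _ _ ha hb => by rw [map_add, add_mul, Matrix.single_add]; exact add_mem ha hb)
    (fun r a _ ha => by
      rw [map_smul, smul_mul_assoc, ← Matrix.smul_single]; exact Submodule.smul_mem _ r ha)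
    (hM β' β)
  rintro _ ⟨v, ⟨hv1, hv2⟩, rfl⟩
  rw [ι_sW, el_mul, mul_one]
  refine bas_mem (c := (β', κ, v ++ w)) ?_ x
  refine ⟨?_, ?_⟩
  · simp only [InB, weight_append] at hc ⊢; omega
  · simp only [cdeg, ecount_append]; push_cast; omega

theorem moves_opM {m : ℤ} {M : MatS k} (hM : M ∈ GoodM D m) : Moves D m (opM M) :=
  fun c hc => XB_mul_bas D hM hc 1

theorem Js_good : Js k ∈ GoodM D 0 := by
  intro b' b
  simp only [Js, Matrix.diagonal_apply]
  split_ifs with h1
  · rw [Matrix.diagonal_apply]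
    split_ifs with h2
    · have hb : b' = b := Prod.ext h1 h2
      subst hb
      rw [Jb, ← zsmul_one]
      exact zsmul_mem (mem_GS D (one_mem_Deg k) (one_mem_Wt k 0) (by simp) (by simp)) _
    · exact zero_mem _
  · exact zero_mem _

theorem dT_bas_mem {c : Cell0} (hc : InB D c) :
    dT (bas k c 1) ∈ XB k {c' | InB D c' ∧ (cdeg c' : ℤ) = cdeg c + (-1)} := by
  obtain ⟨β, κ, w⟩ := c
  have e1 : (bas k (β, κ, w) 1).map (δB k) = Matrix.single β κ (ι k (dWord k w) * el k [] 1) := by
    refine Matrix.ext fun i j => ?_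
    rw [Matrix.map_apply, bas, Matrix.single_apply, Matrix.single_apply]
    split_ifs <;> simp [δB, extB_el, δ_sW]
  have e2 : (bas k (β, κ, w) 1).map (τB k) = Matrix.single β κ (sgnW w • el k w 1) := by
    refine Matrix.ext fun i j => ?_
    rw [Matrix.map_apply, bas, Matrix.single_apply, Matrix.single_apply]
    split_ifs <;> simp [τB, extB_el, τ_sW, el_one, ι_sW]
  let G : (Kind → SB k) →+ XSp k := AddMonoidHom.mk'
    (fun r => ∑ l, Matrix.single β l ((sgnW w • el k w 1) * r l)) fun r r' => by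
      simp [mul_add, Matrix.single_add, Finset.sum_add_distrib]
  have e3 : Matrix.single β κ (sgnW w • el k w 1) * Δ k = G (Δrow k κ) := by
    refine Matrix.ext fun i j => ?_
    simp only [G, AddMonoidHom.mk'_apply]
    rw [Matrix.sum_apply]
    by_cases hi : i = β
    · subst hi
      rw [Finset.sum_eq_single j]
      · simp [Δ]
      · intro l _ hl; simp [hl]
      · simp
    · rw [Finset.sum_eq_zero]
      · simp [hi]
      · intro l _; simp [Ne.symm hi]
  have hG : ∀ l u b, weight (w ++ u) + koff l ≤ weight w + koff κ →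
      ecount u + kdg l + 1 = kdg κ →
      G (Pi.single l (el k u b)) ∈ XB k {c' | InB D c' ∧ (cdeg c' : ℤ) = cdeg (β, κ, w) + (-1)} := by
    intro l u b hw hd
    simp only [G, AddMonoidHom.mk'_apply]
    rw [Finset.sum_eq_single l]
    · rw [Pi.single_eq_same, smul_mul_assoc, el_mul, mul_one]
      show Matrix.singleAddMonoidHom β l _ ∈ _
      rw [map_zsmul]
      refine zsmul_mem ?_ _
      refine bas_mem (c := (β, l, w ++ u)) ?_ b
      refine ⟨?_, ?_⟩
      · simp only [InB] at hc ⊢; omega
      · simp only [cdeg, ecount_append]; push_cast; omega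
    · intro j _ hj; simp [hj]
    · simp
  rw [dT, e1, e2, e3]
  refine add_mem ?_ ?_
  · cases hn : ecount w with
    | zero =>
      rw [← δ_sW, δ_Deg_zero k (sW_mem_Deg k hn)]
      simp
    | succ n =>
      have hd : dWord k w ∈ Deg k n := dWord_mem_Deg k w n hn
      have hw : dWord k w ∈ Wt k (weight w) := dWord_mem_Wt k w
      let pr : S k →ₗ[k] S k := linOn k fun v => if ecount v = n then sW k v else 0
      have h1 : pr (dWord k w) = dWord k w := by
        refine Submodule.span_induction (p := fun x _ => pr x = x) ?_ (map_zero _)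
          (fun a b _ _ ha hb => by simp [ha, hb]) (fun c a _ ha => by simp [ha]) hd
        rintro _ ⟨v, hv, rfl⟩
        have : ecount v = n := hv
        simp [pr, linOn_sW, this]
      rw [← h1]
      refine Submodule.span_induction (p := fun s _ => Matrix.single β κ (ι k (pr s) * el k [] 1) ∈
        XB k {c' | InB D c' ∧ (cdeg c' : ℤ) = cdeg (β, κ, w) + (-1)}) ?_ (by simp)
        (fun a b _ _ ha hb => by
          rw [map_add, map_add, add_mul, Matrix.single_add]; exact add_mem ha hb)
        (fun r a _ ha => by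
          rw [map_smul, map_smul, smul_mul_assoc, ← Matrix.smul_single]
          exact Submodule.smul_mem _ r ha) hw
      rintro _ ⟨v, hv, rfl⟩
      have hv' : weight v ≤ weight w := hv
      simp only [pr, linOn_sW]
      split_ifs with h
      · rw [← el_tensor]
        refine bas_mem (c := (β, κ, v)) ?_ 1
        refine ⟨?_, ?_⟩
        · simp only [InB] at hc ⊢; omega
        · simp only [cdeg]; push_cast; omega
      · simp
  · rcases κ with v | ⟨v, g⟩ | l
    · rw [Δrow, map_zero]; exact zero_mem _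
    · rw [Δrow, map_sub]
      refine sub_mem (hG _ _ _ ?_ ?_) (hG _ _ _ ?_ ?_)
      · rcases g with _ | g <;> simp [gWord, weight_append, weight, koff] <;> omega
      · rcases g with _ | g <;> simp [gWord, ecount, kdg]
      · simp [koff]
      · simp [ecount, kdg]
    · simp only [Δrow, map_sub, map_list_sum, List.map_map]
      refine sub_mem (list_sum_mem fun y hy => ?_) ?_
      · obtain ⟨⟨c, g, h⟩, -, rfl⟩ := List.mem_map.1 hy
        rw [Function.comp_apply, map_zsmul, map_add]
        refine zsmul_mem (add_mem (hG _ _ _ ?_ ?_) (hG _ _ _ ?_ ?_)) _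
        · rcases g with _ | g <;> simp [gWord, weight_append, weight, koff]
        · rcases g with _ | g <;> simp [gWord, ecount, kdg]
        · simp [koff]
        · simp [ecount, kdg]
      · cases l with
        | inl g => rw [map_zero]; exact zero_mem _
        | inr r => exact hG _ _ _ (by simp [weight_append, weight, koff]) (by simp [ecount, kdg])

theorem moves_opD : Moves D (-1) (opD D) := by
  intro c hc
  rw [opD_apply]
  refine add_mem ?_ (XB_mul_bas D (Θ_good D) hc 1)
  refine Submodule.span_induction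
    (p := fun y _ => Ψ k (Js k) * y ∈ XB k {c' | InB D c' ∧ (cdeg c' : ℤ) = cdeg c + (-1)})
    ?_ (by simp) (fun a b _ _ ha hb => by rw [Matrix.mul_add]; exact add_mem ha hb)
    (fun r a _ ha => by rw [Matrix.mul_smul]; exact Submodule.smul_mem _ r ha) (dT_bas_mem D hc)
  rintro _ ⟨c', ⟨hc', hd⟩, b, rfl⟩
  have := XB_mul_bas D (Js_good D) hc' b
  rw [add_zero, hd] at this
  exact this

theorem mat_add (f g : XSp k →ₗ[k] XSp k) : mat D (f + g) = mat D f + mat D g := by
  refine Matrix.ext fun i j => ?_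
  simp [mat, mul_add, add_mul]

theorem mat_smul (r : k) (f : XSp k →ₗ[k] XSp k) : mat D (r • f) = r • mat D f := by
  refine Matrix.ext fun i j => ?_
  simp [mat]

theorem opM_add (M N : MatS k) : opM (M + N) = opM M + opM N := by
  refine LinearMap.ext fun x => ?_
  rw [LinearMap.add_apply, opM_apply, opM_apply, opM_apply, map_add, Matrix.add_mul]

theorem opM_smul (r : k) (M : MatS k) : opM (r • M) = r • opM M := by
  refine LinearMap.ext fun x => ?_
  rw [LinearMap.smul_apply, opM_apply, opM_apply, map_smul, Matrix.smul_mul]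

/-- The left action. -/
noncomputable def rhoL : Win k →ₗ[k] Matrix (CellB D) (CellB D) (Win k) where
  toFun b := mat D (opM ((blockRep D).toLin b))
  map_add' b c := by rw [map_add, opM_add, mat_add]
  map_smul' r b := by rw [map_smul, opM_smul, mat_smul, RingHom.id_apply]

theorem rhoL_apply (b : Win k) : rhoL D b = mat D (opM ((blockRep D).toLin b)) := rfl

theorem opM_mul (M N : MatS k) : opM (M * N) = opM M ∘ₗ opM N := by
  refine LinearMap.ext fun x => ?_
  rw [LinearMap.comp_apply, opM_apply, opM_apply, opM_apply, Ψ_mul_assoc]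

theorem rhoL_mul (b c : Win k) : rhoL D (b * c) = rhoL D b * rhoL D c := by
  rw [rhoL_apply, rhoL_apply, rhoL_apply,
    ← mat_comp D (opM_nat _) (opM_nat _) (moves_opM D (blockRep_good D c)), WinRep.toLin_mul,
    opM_mul]

theorem rhoL_one :
    rhoL D 1 = Matrix.diagonal fun c : CellB D => Win.vert k (ksrc c.1.2.1) := by
  refine Matrix.ext fun i j => ?_
  rw [rhoL_apply, mat, opM_apply, WinRep.toLin_one, sum_e, map_one, Matrix.one_mul, cfL_bas,
    Matrix.diagonal_apply]
  by_cases h : i = j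
  · subst h; simp [Win.vert_mul_vert]
  · rw [if_neg h, if_neg fun e => h (Subtype.ext e.symm), mul_zero, zero_mul]

theorem matD_sq : mat D (opD D) * mat D (opD D) = 0 := by
  rw [← mat_comp D (opD_nat D) (opD_nat D) (moves_opD D)]
  refine Matrix.ext fun i j => ?_
  rw [mat, LinearMap.comp_apply, opD_opD, map_zero, mul_zero, zero_mul]
  rfl

theorem opD_comp_opM {M : MatS k} (hM : M ∈ GoodM D 0) (hc : dM D M = 0) :
    opD D ∘ₗ opM M = opM M ∘ₗ opD D :=
  LinearMap.ext fun x => opD_opM D hM hc x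

theorem matD_rhoL (b : Win k) : mat D (opD D) * rhoL D b = rhoL D b * mat D (opD D) := by
  have h1 := mat_comp D (opD_nat D) (opM_nat ((blockRep D).toLin b))
    (moves_opM D (blockRep_good D b))
  have h2 := mat_comp D (opM_nat ((blockRep D).toLin b)) (opD_nat D) (moves_opD D)
  have h3 := opD_comp_opM D (blockRep_good D b) (dM_blockRep D b)
  rw [rhoL_apply, ← h1, ← h2, h3]

/-- Degree of a bounded cell. -/
def degB (c : CellB D) : Fin (7 * D.P + 8 + 1) := ⟨cdeg c.1, cdeg_le D c⟩

theorem degB_ne_zero (c : CellB D) : degB D c ≠ 0 := by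
  intro h
  have := congrArg Fin.val h
  simp [degB, cdeg] at this

theorem rhoL_deg (b : Win k) (i j : CellB D) (h : degB D i ≠ degB D j) : rhoL D b i j = 0 := by
  rw [rhoL_apply]
  refine mat_deg D (moves_opM D (blockRep_good D b)) i j fun e => h ?_
  exact Fin.ext (by rw [add_zero] at e; exact_mod_cast e)

theorem matD_deg (i j : CellB D) (h : (degB D i : ℕ) + 1 ≠ degB D j) :
    mat D (opD D) i j = 0 := by
  refine mat_deg D (moves_opD D) i j fun e => h ?_
  show cdeg i.1 + 1 = cdeg j.1
  omega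

/-- The bimodule complex. -/
noncomputable def theSetting : Setting k (Win k) where
  l := 7 * D.P + 8
  Cell := CellB D
  cellFintype := inferInstance
  cellDecEq := inferInstance
  deg := degB D
  deg_ne_zero := degB_ne_zero D
  ev c := Win.vert k (ksrc c.1.2.1)
  ρ := rhoL D
  ρ_mul := rhoL_mul D
  ρ_one := rhoL_one D
  ρ_deg := rhoL_deg D
  D := mat D (opD D)
  D_deg := matD_deg D
  D_sq := matD_sq D
  D_ρ := matD_rhoL D

end Vale.Agent.P176
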