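import Vale.Agent.P176.Homology

set_option linter.unusedSectionVars false
set_option linter.unusedVariables false

/-! An exact complex is built from discs. -/

namespace Vale.Agent.P176

open CategoryTheory Abelian

universe u v

namespace Setting

variable {k B : Type u} [Field k] [Ring B] [Algebra k B] (S : Setting k B)

/-- A function as an arrow vector. -/
def mkArr (f : Fin S.l → B) : S.Arr := f

@[simp] theorem mkArr_val (f : Fin S.l → B) (i : Fin S.l) : (S.mkArr f).val i = f i := rfl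

/-- The total differential, as an element of the algebra. -/
noncomputable def Δ : S.Alg := TrivSqZeroExt.inl (TrivSqZeroExt.inr (S.mkArr fun _ => 1))

theorem vtx_eq (b : B) : S.vtx b = TrivSqZeroExt.inl (TrivSqZeroExt.inl fun _ => b) := rfl

theorem Δ_val (i : Fin S.l) :
    ((TrivSqZeroExt.inr (S.mkArr fun _ => 1) : S.A0).snd).val i = 1 := rfl

theorem a0_eq {a b : S.A0} (h1 : ∀ i, a.fst i = b.fst i) (h2 : ∀ i, a.snd.val i = b.snd.val i) :
    a = b :=
  TrivSqZeroExt.ext (funext h1) (Arr.ext h2)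

theorem alg_eq {x y : S.Alg} (h : x.fst = y.fst) (h' : ∀ c, x.snd.1 c = y.snd.1 c) : x = y :=
  TrivSqZeroExt.ext h (Subtype.ext (funext h'))

theorem inl_mul_inl (a b : S.A0) :
    (TrivSqZeroExt.inl a : S.Alg) * TrivSqZeroExt.inl b = TrivSqZeroExt.inl (a * b) :=
  (TrivSqZeroExt.inl_mul _ _ _).symm

theorem Δ_idem_zero : S.Δ * S.idem 0 = 0 := by
  rw [Δ, idem, inl_mul_inl]
  have h : (TrivSqZeroExt.inr (S.mkArr fun _ => 1) : S.A0)
      * TrivSqZeroExt.inl (Pi.single 0 1) = 0 := by
    refine S.a0_eq (fun i => by simp) fun i => ?_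
    simp [TrivSqZeroExt.snd_mul, Fin.succ_ne_zero]
  rw [h]
  rfl

theorem idem_Δ (j : Fin S.l) :
    S.idem j.castSucc * S.Δ = S.Δ * S.idem j.succ := by
  rw [Δ, idem, idem, inl_mul_inl, inl_mul_inl]
  congr 1
  refine S.a0_eq (fun i => by simp) fun i => ?_
  simp only [TrivSqZeroExt.snd_mul, TrivSqZeroExt.fst_inl, TrivSqZeroExt.snd_inl,
    TrivSqZeroExt.fst_inr, TrivSqZeroExt.snd_inr]
  simp only [Arr.val_add, smul_arr, op_smul_arr, Arr.val_zero, MulOpposite.unop_op, mul_zero,
    zero_mul, add_zero, zero_add]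
  show (Pi.single j.castSucc (1 : B) : Fin (S.l + 1) → B) i.castSucc * 1
    = 1 * (Pi.single j.succ (1 : B) : Fin (S.l + 1) → B) i.succ
  by_cases h : i = j
  · subst h; simp
  · simp [h, Fin.succ_inj]

theorem idem_last_Δ : S.idem (Fin.last S.l) * S.Δ = 0 := by
  rw [Δ, idem, inl_mul_inl]
  have h : (TrivSqZeroExt.inl (Pi.single (Fin.last S.l) 1) : S.A0)
      * TrivSqZeroExt.inr (S.mkArr fun _ => 1) = 0 := by
    refine S.a0_eq (fun i => by simp) fun i => ?_
    simp [TrivSqZeroExt.snd_mul, Fin.castSucc_ne_last]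
  rw [h]
  rfl

theorem sum_idem : ∑ i, S.idem i = 1 := by
  let φ : S.Vtx →+* S.Alg :=
    (TrivSqZeroExt.inlHom S.A0 (S.F B)).comp (TrivSqZeroExt.inlHom S.Vtx S.Arr)
  show ∑ i, φ (Pi.single i 1) = 1
  rw [← map_sum, Finset.univ_sum_single (fun _ : Fin (S.l + 1) => (1 : B))]
  exact φ.map_one

theorem idem_mul_self (i : Fin (S.l + 1)) : S.idem i * S.idem i = S.idem i := by
  rw [idem, inl_mul_inl]
  congr 1
  refine S.a0_eq (fun m => ?_) fun m => by simp [TrivSqZeroExt.snd_mul]
  by_cases h : m = i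
  · subst h; simp
  · simp [h]

variable (j : Fin S.l) (M : ModuleCat.{u} S.Alg)

/-- The part of a module at the position `j + 1`. -/
noncomputable def top : AddSubgroup M where
  carrier := {m | S.idem j.succ • m = m}
  add_mem' := fun {a b} ha hb => by
    show S.idem j.succ • (a + b) = a + b
    rw [smul_add, ha, hb]
  zero_mem' := smul_zero (S.idem j.succ)
  neg_mem' := fun {a} ha => by
    show S.idem j.succ • (-a) = -a
    rw [smul_neg, ha]

theorem idem_vtx (i : Fin (S.l + 1)) (b : B) : S.idem i * S.vtx b = S.vtx b * S.idem i := by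
  rw [vtx_eq, idem, inl_mul_inl, inl_mul_inl]
  congr 1
  refine S.a0_eq (fun m => ?_) fun m => by simp [TrivSqZeroExt.snd_mul]
  by_cases h : m = i
  · subst h; simp
  · simp [h]

noncomputable instance instSMulTop : SMul B (S.top j M) :=
  ⟨fun b u => ⟨S.vtx b • u.1, by
    show S.idem j.succ • _ = _
    rw [← mul_smul, idem_vtx, mul_smul, u.2]⟩⟩

theorem top_smul_val (b : B) (u : S.top j M) : (b • u).1 = S.vtx b • u.1 := rfl

noncomputable instance instModuleTop : Module B (S.top j M) where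
  one_smul u := Subtype.ext (by rw [top_smul_val, map_one, one_smul])
  mul_smul a b u := Subtype.ext (by rw [top_smul_val, map_mul, mul_smul]; rfl)
  smul_zero a := Subtype.ext (smul_zero (S.vtx a))
  smul_add a u v := Subtype.ext (smul_add (S.vtx a) u.1 v.1)
  add_smul a b u := Subtype.ext (by rw [top_smul_val, map_add, add_smul]; rfl)
  zero_smul u := Subtype.ext (by rw [top_smul_val, map_zero, zero_smul]; rfl)

theorem alg_top (x : S.Alg) :
    (TrivSqZeroExt.inl x.fst : S.Alg) * S.idem j.succ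
      = (S.vtx (S.pos j.succ x) + S.Δ * S.vtx (x.fst.snd.val j)) * S.idem j.succ := by
  rw [add_mul, mul_assoc, vtx_eq, vtx_eq, Δ, idem, inl_mul_inl, inl_mul_inl, inl_mul_inl,
    inl_mul_inl, ← TrivSqZeroExt.inl_add]
  congr 1
  refine S.a0_eq (fun m => ?_) fun m => ?_
  · by_cases h : m = j.succ
    · subst h; simp [pos_apply]
    · simp [h]
  · simp only [TrivSqZeroExt.snd_mul, TrivSqZeroExt.snd_add, TrivSqZeroExt.fst_inl,
      TrivSqZeroExt.snd_inl, TrivSqZeroExt.fst_inr, TrivSqZeroExt.snd_inr,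
      TrivSqZeroExt.fst_mul, Arr.val_add, smul_arr, op_smul_arr, Arr.val_zero,
      MulOpposite.unop_op, mkArr_val, mul_zero, zero_mul, add_zero, zero_add]
    by_cases h : m = j
    · subst h; simp
    · simp [h, Fin.succ_inj]

theorem alg_Δ_top (x : S.Alg) :
    (TrivSqZeroExt.inl x.fst : S.Alg) * (S.Δ * S.idem j.succ)
      = S.Δ * (S.vtx (S.pos j.castSucc x) * S.idem j.succ) := by
  rw [vtx_eq, Δ, idem, inl_mul_inl, inl_mul_inl, inl_mul_inl, inl_mul_inl]
  congr 1
  refine S.a0_eq (fun m => by simp) fun m => ?_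
  simp only [TrivSqZeroExt.snd_mul, TrivSqZeroExt.fst_inl, TrivSqZeroExt.snd_inl,
    TrivSqZeroExt.fst_inr, TrivSqZeroExt.snd_inr, TrivSqZeroExt.fst_mul, Arr.val_add,
    smul_arr, op_smul_arr, Arr.val_zero, MulOpposite.unop_op, mkArr_val, mul_zero, zero_mul,
    add_zero, zero_add]
  by_cases h : m = j
  · subst h; simp [pos_apply]
  · simp [h, Fin.succ_inj]

theorem smul_inl (hX : ∀ (z : S.F B) (m : M), (TrivSqZeroExt.inr z : S.Alg) • m = 0)
    (x : S.Alg) (m : M) : x • m = (TrivSqZeroExt.inl x.fst : S.Alg) • m := by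
  conv_lhs => rw [← TrivSqZeroExt.inl_fst_add_inr_snd_eq x]
  rw [add_smul, hX, add_zero]

/-- The disc on the top position. -/
noncomputable def discMap (hX : ∀ (z : S.F B) (m : M), (TrivSqZeroExt.inr z : S.Alg) • m = 0) :
    S.Disc j (S.top j M) →ₗ[S.Alg] M where
  toFun w := w.hi.1 + S.Δ • w.lo.1
  map_add' w w' := by
    simp only [Disc.hi_add, Disc.lo_add, AddSubgroup.coe_add, smul_add]
    abel
  map_smul' x w := by
    have hu : x • w.hi.1 = S.vtx (S.pos j.succ x) • w.hi.1
        + S.Δ • (S.vtx (x.fst.snd.val j) • w.hi.1) := by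
      have h0 : S.idem j.succ • w.hi.1 = w.hi.1 := w.hi.2
      rw [S.smul_inl M hX, ← mul_smul, ← add_smul]
      conv_lhs => rw [← h0, ← mul_smul, alg_top]
      rw [mul_smul, h0]
    have hv : x • S.Δ • w.lo.1 = S.Δ • (S.vtx (S.pos j.castSucc x) • w.lo.1) := by
      have h0 : S.idem j.succ • w.lo.1 = w.lo.1 := w.lo.2
      rw [S.smul_inl M hX]
      conv_lhs => rw [← h0, ← mul_smul, ← mul_smul, mul_assoc, alg_Δ_top]
      rw [mul_smul, mul_smul, h0]
    rw [RingHom.id_apply, smul_add, hu, hv, Disc.smul_hi, Disc.smul_lo, AddSubgroup.coe_add,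
      top_smul_val, top_smul_val, top_smul_val, smul_add]
    abel

/-- Peeling: a complex supported below `n`, killed by `X`, and exact, has projective dimension
at most two and no Ext to modules at position zero. -/
theorem exact_acyclic (hgl : ∀ U : ModuleCat.{u} B, HasProjectiveDimensionLT U 3) :
    ∀ (n : ℕ) (M : ModuleCat.{u} S.Alg),
    (∀ (z : S.F B) (m : M), (TrivSqZeroExt.inr z : S.Alg) • m = 0) →
    (∀ i : Fin (S.l + 1), n ≤ (i : ℕ) → ∀ m : M, S.idem i • m = 0) →
    (∀ m : M, S.Δ • m = 0 → ∃ y : M, S.Δ • y = m) →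
    HasProjectiveDimensionLT M 3 ∧
      ∀ (K : ModuleCat.{u} B) (m : ℕ) (e : Ext M (S.mI 0 K) m), e = 0 := by
  have hzero : ∀ M : ModuleCat.{u} S.Alg, (∀ m : M, m = 0) → HasProjectiveDimensionLT M 3 ∧
      ∀ (K : ModuleCat.{u} B) (m : ℕ) (e : Ext M (S.mI 0 K) m), e = 0 := fun M hM => by
    have : Subsingleton M := ⟨fun a b => by rw [hM a, hM b]⟩
    have := (ModuleCat.isZero_of_subsingleton M).hasProjectiveDimensionLT_zero
    exact ⟨hasProjectiveDimensionLT_of_ge M 0 3 (by norm_num),
      fun K m e => ext_eq_zero_of_subsingleton _ _ e⟩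
  have hdec : ∀ (M : ModuleCat.{u} S.Alg) (m : M), m = ∑ i, S.idem i • m := fun M m => by
    rw [← Finset.sum_smul, sum_idem, one_smul]
  intro n
  induction n with
  | zero =>
    intro M _ htop _
    exact hzero M fun m => (hdec M m).trans
      (Finset.sum_eq_zero fun i _ => htop i (Nat.zero_le _) m)
  | succ n ih =>
    intro M hX htop hex
    rcases Nat.eq_zero_or_pos n with rfl | hn
    · refine hzero M fun m => ?_
      have hΔ : ∀ m : M, S.Δ • m = 0 := fun m => by
        rw [hdec M m, Finset.smul_sum]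
        refine Finset.sum_eq_zero fun i _ => ?_
        rcases Nat.eq_zero_or_pos (i : ℕ) with h | h
        · obtain rfl : i = 0 := Fin.ext h
          rw [← mul_smul, Δ_idem_zero, zero_smul]
        · rw [htop i h m, smul_zero]
      obtain ⟨y, rfl⟩ := hex m (hΔ m)
      exact hΔ y
    by_cases hnl : S.l < n
    · exact ih M hX (fun i hi => absurd i.isLt (by omega)) hex
    obtain ⟨j, hj⟩ : ∃ j : Fin S.l, (j : ℕ) + 1 = n := ⟨⟨n - 1, by omega⟩, by simp; omega⟩
    set p := S.idem j.succ with hp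
    have htopΔ : ∀ m : M, p • S.Δ • m = 0 := fun m => by
      rw [← mul_smul]
      by_cases hjl : (j : ℕ) + 1 < S.l
      · have e : j.succ = (⟨j + 1, hjl⟩ : Fin S.l).castSucc := Fin.ext (by simp)
        rw [hp, e, idem_Δ, mul_smul, htop _ (by simp; omega) m, smul_zero]
      · have e : j.succ = Fin.last S.l := Fin.ext (by simp; omega)
        rw [hp, e, idem_last_Δ, zero_smul]
    let φ := S.discMap j M hX
    have hφinj : Function.Injective φ := by
      rw [injective_iff_map_eq_zero]
      intro w hw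
      have hw' : w.hi.1 + S.Δ • w.lo.1 = 0 := hw
      have h0 : w.hi.1 = 0 := by
        have := congrArg (p • ·) hw'
        simpa [w.hi.2, htopΔ, show p • w.hi.1 = w.hi.1 from w.hi.2] using this
      rw [h0, zero_add] at hw'
      obtain ⟨y, hy⟩ := hex _ hw'
      have h1 : w.lo.1 = 0 := by rw [← show p • w.lo.1 = w.lo.1 from w.lo.2, ← hy, htopΔ]
      exact Disc.ext S j (Subtype.ext h0) (Subtype.ext h1)
    let Q : ModuleCat.{u} S.Alg := ModuleCat.of S.Alg (M ⧸ LinearMap.range φ)
    have hS := shortExact_of φ (LinearMap.range φ).mkQ hφinj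
      (fun m => by
        show (LinearMap.range φ).mkQ m = 0 ↔ m ∈ Set.range φ
        rw [Submodule.mkQ_apply, Submodule.Quotient.mk_eq_zero]
        exact Iff.rfl)
      (Submodule.mkQ_surjective _)
    obtain ⟨hQ1, hQ2⟩ : HasProjectiveDimensionLT Q 3 ∧
        ∀ (K : ModuleCat.{u} B) (m : ℕ) (e : Ext Q (S.mI 0 K) m), e = 0 := by
      refine ih Q (fun z => ?_) (fun i hi => ?_) ?_
      · rintro ⟨m⟩
        show Submodule.Quotient.mk ((TrivSqZeroExt.inr z : S.Alg) • m) = 0
        rw [hX]; rfl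
      · rintro ⟨m⟩
        show Submodule.Quotient.mk (S.idem i • m) = 0
        rw [Submodule.Quotient.mk_eq_zero]
        by_cases h : i = j.succ
        · subst h
          refine ⟨Disc.mk ⟨p • m, show p • p • m = p • m by rw [← mul_smul, hp, idem_mul_self]⟩ 0,
            ?_⟩
          show (p • m) + S.Δ • (0 : M) = p • m
          simp
        · have hle : n + 1 ≤ (i : ℕ) := by
            have : (i : ℕ) ≠ j + 1 := fun e => h (Fin.ext (by simpa using e))
            omega
          rw [htop i hle m]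
          exact zero_mem _
      · rintro ⟨m⟩ hm
        have hm' : S.Δ • m ∈ LinearMap.range φ := (Submodule.Quotient.mk_eq_zero _).1 hm
        obtain ⟨w, hw⟩ := hm'
        have hw' : w.hi.1 + S.Δ • w.lo.1 = S.Δ • m := hw
        have h0 : w.hi.1 = 0 := by
          have := congrArg (p • ·) hw'
          simpa [htopΔ, show p • w.hi.1 = w.hi.1 from w.hi.2] using this
        rw [h0, zero_add] at hw'
        obtain ⟨y, hy⟩ := hex (m - w.lo.1) (by rw [smul_sub, hw', sub_self])
        refine ⟨Submodule.Quotient.mk y, ?_⟩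
        show Submodule.Quotient.mk (S.Δ • y) = Submodule.Quotient.mk m
        rw [Submodule.Quotient.eq, hy]
        refine ⟨Disc.mk (-w.lo) 0, ?_⟩
        show (-w.lo.1) + S.Δ • (0 : M) = m - w.lo.1 - m
        simp
    refine ⟨hS.hasProjectiveDimensionLT_X₂ 3 (S.pd_mD hgl j (ModuleCat.of B (S.top j M))) hQ1,
      fun K m e => ?_⟩
    obtain ⟨x, rfl⟩ := Ext.contravariant_sequence_exact₂ hS _ e
      (S.ext_mD_zero j K m (ModuleCat.of B (S.top j M)) _)
    have hx : x = 0 := hQ2 K m x
    rw [hx, Ext.comp_zero]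

theorem Δ_smul_F (U : Type u) [AddCommGroup U] [Module B U] (z : S.F U) :
    S.Δ • z = S.d U z := by
  refine Subtype.ext (funext fun c => ?_)
  show ∑ j, S.Φ S.Δ.fst c j • z.1 j = (S.d U z).1 c
  have e : ∀ i, S.Φ S.Δ.fst c i = S.ev c * S.D c i := by
    intro i
    have hup : S.up (S.mkArr fun _ => 1) (S.deg c) = if (S.deg c : ℕ) < S.l then 1 else 0 := by
      simp only [up, Arr.val]
      split_ifs <;> rfl
    show (S.R 0 + S.R (S.up (S.mkArr fun _ => 1)) * S.D) c i = _
    rw [R_zero, zero_add, Matrix.mul_apply]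
    simp only [R, hup]
    split_ifs with h
    · rw [S.ρ_one, ← Matrix.mul_apply, Matrix.diagonal_mul]
    · have hc : S.D c i = 0 := S.D_deg c i (by have := (S.deg i).isLt; omega)
      simp [hc]
  simp only [e, mul_smul, ← Finset.smul_sum]
  exact (S.d U z).2 c

theorem X_smul_F (U : Type u) [AddCommGroup U] [Module B U] (x : S.F B) (z : S.F U) :
    (TrivSqZeroExt.inr x : S.Alg) • z = 0 := by
  show (TrivSqZeroExt.inr x : S.Alg).fst • z = 0
  rw [TrivSqZeroExt.fst_inr, zero_smul]

/-- An acyclic complex has projective dimension at most two and no Ext to position zero. -/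
theorem acyclic_mF (hgl : ∀ U : ModuleCat.{u} B, HasProjectiveDimensionLT U 3)
    (U : ModuleCat.{u} B) (hU : S.Acyclic U) :
    HasProjectiveDimensionLT (S.mF U) 3 ∧
      ∀ (K : ModuleCat.{u} B) (m : ℕ) (e : Ext (S.mF U) (S.mI 0 K) m), e = 0 := by
  refine S.exact_acyclic hgl (S.l + 1) _ (fun x z => S.X_smul_F U x z)
    (fun i hi => absurd i.isLt (by omega)) fun z hz => ?_
  obtain ⟨y, hy⟩ := hU z ((S.Δ_smul_F U z).symm.trans hz)
  exact ⟨y, (S.Δ_smul_F U y).trans hy⟩

end Setting

end Vale.Agent.P176
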