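import Mathlib

/-!
P176: letters, rules and the free differential graded algebra `S`.
-/

namespace Vale.Agent.P176

universe u

/-- The finitely many letters; `cc` stands for the product of `gu` and `gu'`, `aq`, `qb` for those products. -/
inductive Gen : Type where
  | gu | gU | gv | gV | ga | gb | gq | cc | aq | qb | gw | gx
  deriving DecidableEq

instance : Fintype Gen :=
  ⟨{.gu, .gU, .gv, .gV, .ga, .gb, .gq, .cc, .aq, .qb, .gw, .gx}, fun x => by cases x <;> decide⟩

/-- Right hand side of a rule with left hand side `x * y`: `1`, a letter, or `y * x`. -/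
inductive Rhs : Type where
  | one | prod (p : Gen) | swap
  deriving DecidableEq

open Gen in
/-- The 25 rules. -/
def ruleTable : Fin 25 → (Gen × Gen) × Rhs :=
  ![((gu, gU), .one), ((gU, gu), .one), ((gv, gV), .one), ((gV, gv), .one),
    ((ga, ga), .one), ((gb, gb), .one), ((gq, gq), .one), ((gw, gw), .one),
    ((ga, gq), .prod aq), ((gq, gb), .prod qb), ((aq, aq), .prod gw), ((qb, qb), .prod gx),
    ((gu, gv), .prod cc), ((gv, gu), .prod cc),
    ((gv, ga), .swap), ((gu, gb), .swap), ((cc, gq), .swap), ((ga, gb), .swap),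
    ((gu, gw), .swap), ((gv, gx), .swap), ((ga, gw), .swap), ((gb, gx), .swap),
    ((gq, gx), .swap), ((gq, gw), .swap), ((gw, gx), .swap)]

/-- Arrow labels of the window algebra: a letter or `t = none`. -/
abbrev V : Type := Option Gen

/-- Homogenised relations: `comm g` is `t g - g t`; rules are the rules. -/
abbrev Rel : Type := Gen ⊕ Fin 25

def lead : Rel → V × V
  | .inl g => (none, some g)
  | .inr r => (some (ruleTable r).1.1, some (ruleTable r).1.2)

theorem lead_injective : Function.Injective lead := by
  unfold Function.Injective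
  decide

/-- The relation as a list of signed pairs; the head is the leading pair. -/
def tailTerms : Rel → List (ℤ × (V × V))
  | .inl g => [(-1, (some g, none))]
  | .inr r =>
    match ruleTable r with
    | ((g, h), .one) => [(1, (some g, none)), (1, (some h, none))]
    | ((g, h), .prod p) => [(1, (some g, none)), (1, (some h, none)), (-1, (some p, none))]
    | ((g, h), .swap) => [(-1, (some h, some g))]

def relTerms (l : Rel) : List (ℤ × (V × V)) := (1, lead l) :: tailTerms l

/-- A pair is normal when it is no leading pair. -/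
def IsNormal (p : V × V) : Prop := ∀ l, lead l ≠ p

instance : DecidablePred IsNormal := fun p => by unfold IsNormal; infer_instance

theorem tail_normal : ∀ l : Rel, ∀ x ∈ tailTerms l, IsNormal x.2 := by decide

/-- Letters of the free dg algebra: generators (degree 0) and one `eps` for each rule (degree 1). -/
abbrev Letter : Type := Gen ⊕ Fin 25

abbrev Word : Type := FreeMonoid Letter

def ecount : List Letter → ℕ
  | [] => 0
  | .inl _ :: w => ecount w
  | .inr _ :: w => ecount w + 1

def weight : List Letter → ℕ
  | [] => 0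
  | .inl _ :: w => weight w + 1
  | .inr _ :: w => weight w + 2

theorem ecount_append (v w : List Letter) : ecount (v ++ w) = ecount v + ecount w := by
  induction v with
  | nil => simp [ecount]
  | cons x v ih => cases x <;> simp [ecount, ih] <;> omega

theorem weight_append (v w : List Letter) : weight (v ++ w) = weight v + weight w := by
  induction v with
  | nil => simp [weight]
  | cons x v ih => cases x <;> simp [weight, ih] <;> omega

theorem length_le_weight (w : List Letter) : w.length ≤ weight w := by
  induction w with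
  | nil => simp
  | cons x v ih => cases x <;> simp [weight] <;> omega

theorem ecount_le_weight (w : List Letter) : ecount w ≤ weight w := by
  induction w with
  | nil => simp [ecount]
  | cons x v ih => cases x <;> simp [weight, ecount] <;> omega

variable (k : Type u) [Field k]

/-- The free dg algebra. -/
abbrev S : Type u := MonoidAlgebra k Word

noncomputable def sW (w : List Letter) : S k := MonoidAlgebra.single (FreeMonoid.ofList w) 1

theorem sW_mul (v w : List Letter) : sW k v * sW k w = sW k (v ++ w) := by
  simp [sW, MonoidAlgebra.single_mul_single]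

theorem sW_nil : sW k [] = 1 := rfl

/-- An arrow label inside `S`: `t ↦ 1`. -/
noncomputable def gV' : V → S k
  | none => 1
  | some g => sW k [.inl g]

/-- The value `d eps_l` of a relation in `S`. -/
noncomputable def relVal (l : Rel) : S k :=
  ((relTerms l).map fun x => (x.1 : ℤ) • (gV' k x.2.1 * gV' k x.2.2)).sum

theorem relVal_comm (g : Gen) : relVal k (.inl g) = 0 := by
  simp [relVal, relTerms, tailTerms, lead, gV']

/-- The derivation on letters. -/
noncomputable def dLetter : Letter → S k
  | .inl _ => 0
  | .inr r => relVal k (.inr r)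

/-- `(-1) ^ ecount`. -/
def sgnW (w : List Letter) : ℤ := (-1) ^ ecount w

noncomputable def dWord : List Letter → S k
  | [] => 0
  | x :: w => dLetter k x * sW k w + sgnW [x] • (sW k [x] * dWord w)

noncomputable def linOn {N : Type u} [AddCommGroup N] [Module k N] (f : List Letter → N) :
    S k →ₗ[k] N :=
  (Finsupp.linearCombination k fun w : Word => f w.toList) ∘ₗ
    (MonoidAlgebra.coeffLinearEquiv k).toLinearMap

theorem linOn_sW {N : Type u} [AddCommGroup N] [Module k N] (f : List Letter → N) (w : List Letter) :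
    linOn k f (sW k w) = f w := by
  simp [linOn, sW]

@[elab_as_elim]
theorem sW_induction {p : S k → Prop} (x : S k) (h0 : p 0)
    (hadd : ∀ a b, p a → p b → p (a + b)) (hsm : ∀ (c : k) (a : S k), p a → p (c • a))
    (hw : ∀ w, p (sW k w)) : p x := by
  induction x using MonoidAlgebra.induction_linear with
  | zero => exact h0
  | add a b ha hb => exact hadd a b ha hb
  | single m c =>
    have h := hsm c _ (hw m.toList)
    simpa [sW, MonoidAlgebra.smul_single] using h

theorem linear_ext {N : Type u} [AddCommGroup N] [Module k N] {f g : S k →ₗ[k] N}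
    (h : ∀ w, f (sW k w) = g (sW k w)) : f = g := by
  refine LinearMap.ext fun x => ?_
  refine sW_induction k x (by simp) (fun a b ha hb => by simp [ha, hb])
    (fun c a ha => by simp [ha]) h

/-- The differential. -/
noncomputable def δ : S k →ₗ[k] S k := linOn k (dWord k)

/-- The parity automorphism. -/
noncomputable def τ : S k →ₗ[k] S k := linOn k fun w => sgnW w • sW k w

theorem δ_sW (w : List Letter) : δ k (sW k w) = dWord k w := linOn_sW k _ w

theorem τ_sW (w : List Letter) : τ k (sW k w) = sgnW w • sW k w := linOn_sW k _ w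

theorem sgnW_append (v w : List Letter) : sgnW (v ++ w) = sgnW v * sgnW w := by
  simp [sgnW, ecount_append, pow_add]

theorem τ_mul (x y : S k) : τ k (x * y) = τ k x * τ k y := by
  refine sW_induction k x (by simp) (fun a b ha hb => by simp [add_mul, ha, hb])
    (fun c a ha => by simp [ha]) (fun v => ?_)
  refine sW_induction k y (by simp) (fun a b ha hb => by simp [mul_add, ha, hb])
    (fun c a ha => by simp [ha]) (fun w => ?_)
  rw [sW_mul, τ_sW, τ_sW, τ_sW, sgnW_append, ← sW_mul, smul_mul_smul_comm]

theorem τ_one : τ k 1 = 1 := by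
  rw [← sW_nil, τ_sW]; simp [sgnW, ecount, sW_nil]

theorem τ_τ (x : S k) : τ k (τ k x) = x := by
  refine sW_induction k x (by simp) (fun a b ha hb => by simp [ha, hb])
    (fun c a ha => by simp [ha]) (fun v => ?_)
  rw [τ_sW, map_zsmul, τ_sW, smul_smul]
  rcases neg_one_pow_eq_or ℤ (ecount v) with h | h <;> simp [sgnW, h]

theorem dWord_append (v w : List Letter) :
    dWord k (v ++ w) = dWord k v * sW k w + sgnW v • (sW k v * dWord k w) := by
  induction v with
  | nil => simp [dWord, sgnW, ecount, sW_nil]
  | cons x v ih =>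
    have h : sgnW (x :: v) = sgnW [x] * sgnW v := sgnW_append [x] v
    simp only [List.cons_append, dWord, ih, h]
    rw [show sW k (x :: v) = sW k [x] * sW k v from (sW_mul k [x] v).symm, ← sW_mul k v w]
    simp only [mul_add, add_mul, mul_smul_comm, smul_mul_assoc, smul_add, smul_smul, mul_assoc]
    abel

theorem δ_mul (x y : S k) : δ k (x * y) = δ k x * y + τ k x * δ k y := by
  refine sW_induction k x (by simp) (fun a b ha hb => by simp [add_mul, ha, hb]; abel)
    (fun c a ha => by simp [ha, smul_add]) (fun v => ?_)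
  refine sW_induction k y (by simp) (fun a b ha hb => by simp [mul_add, ha, hb]; abel)
    (fun c a ha => by simp [ha, smul_add]) (fun w => ?_)
  rw [sW_mul, δ_sW, δ_sW, δ_sW, τ_sW, dWord_append, smul_mul_assoc]

/-- Span of the words of degree `n`. -/
noncomputable def Deg (n : ℕ) : Submodule k (S k) :=
  Submodule.span k (sW k '' {w | ecount w = n})

/-- Span of the words of weight at most `L`. -/
noncomputable def Wt (L : ℕ) : Submodule k (S k) :=
  Submodule.span k (sW k '' {w | weight w ≤ L})

theorem sW_mem_Deg {w : List Letter} {n : ℕ} (h : ecount w = n) : sW k w ∈ Deg k n :=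
  Submodule.subset_span ⟨w, h, rfl⟩

theorem sW_mem_Wt {w : List Letter} {L : ℕ} (h : weight w ≤ L) : sW k w ∈ Wt k L :=
  Submodule.subset_span ⟨w, h, rfl⟩

theorem one_mem_Deg : (1 : S k) ∈ Deg k 0 := sW_nil k ▸ sW_mem_Deg k rfl

theorem one_mem_Wt (L : ℕ) : (1 : S k) ∈ Wt k L := sW_nil k ▸ sW_mem_Wt k (Nat.zero_le L)

theorem Wt_mono {L M : ℕ} (h : L ≤ M) : Wt k L ≤ Wt k M :=
  Submodule.span_mono <| Set.image_mono fun _ hw => le_trans hw h

theorem mul_mem_Deg {x y : S k} {m n : ℕ} (hx : x ∈ Deg k m) (hy : y ∈ Deg k n) :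
    x * y ∈ Deg k (m + n) := by
  have h : Deg k m * Deg k n ≤ Deg k (m + n) := by
    rw [Deg, Deg, Submodule.span_mul_span]
    refine Submodule.span_le.2 ?_
    rintro _ ⟨_, ⟨v, hv, rfl⟩, _, ⟨w, hw, rfl⟩, rfl⟩
    show sW k v * sW k w ∈ _
    rw [sW_mul]
    exact sW_mem_Deg k (by rw [ecount_append, hv, hw])
  exact h (Submodule.mul_mem_mul hx hy)

theorem mul_mem_Wt {x y : S k} {m n : ℕ} (hx : x ∈ Wt k m) (hy : y ∈ Wt k n) :
    x * y ∈ Wt k (m + n) := by
  have h : Wt k m * Wt k n ≤ Wt k (m + n) := by
    rw [Wt, Wt, Submodule.span_mul_span]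
    refine Submodule.span_le.2 ?_
    rintro _ ⟨_, ⟨v, hv, rfl⟩, _, ⟨w, hw, rfl⟩, rfl⟩
    show sW k v * sW k w ∈ _
    rw [sW_mul]
    exact sW_mem_Wt k (le_of_eq_of_le (weight_append v w) (Nat.add_le_add hv hw))
  exact h (Submodule.mul_mem_mul hx hy)

theorem gV'_mem_Deg (v : V) : gV' k v ∈ Deg k 0 := by
  cases v
  · exact one_mem_Deg k
  · exact sW_mem_Deg k rfl

theorem gV'_mem_Wt (v : V) : gV' k v ∈ Wt k 1 := by
  cases v
  · exact one_mem_Wt k 1
  · exact sW_mem_Wt k (le_refl _)

theorem relVal_mem_Deg (l : Rel) : relVal k l ∈ Deg k 0 := by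
  refine list_sum_mem fun x hx => ?_
  obtain ⟨y, -, rfl⟩ := List.mem_map.1 hx
  exact zsmul_mem (mul_mem_Deg k (gV'_mem_Deg k _) (gV'_mem_Deg k _)) _

theorem relVal_mem_Wt (l : Rel) : relVal k l ∈ Wt k 2 := by
  refine list_sum_mem fun x hx => ?_
  obtain ⟨y, -, rfl⟩ := List.mem_map.1 hx
  exact zsmul_mem (mul_mem_Wt k (gV'_mem_Wt k _) (gV'_mem_Wt k _)) _

theorem δ_Deg_zero {x : S k} (hx : x ∈ Deg k 0) : δ k x = 0 := by
  refine Submodule.span_induction (p := fun x _ => δ k x = 0) ?_ (map_zero _)
    (fun a b _ _ ha hb => by simp [ha, hb]) (fun c a _ ha => by simp [ha]) hx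
  rintro _ ⟨w, hw, rfl⟩
  rw [δ_sW]
  induction w with
  | nil => rfl
  | cons x w ih =>
    cases x with
    | inl g => simp [dWord, dLetter, ih (by simpa [ecount] using hw)]
    | inr r => simp [ecount] at hw

theorem τ_Deg {n : ℕ} {x : S k} (hx : x ∈ Deg k n) : τ k x = ((-1 : ℤ) ^ n) • x := by
  refine Submodule.span_induction (p := fun x _ => τ k x = ((-1 : ℤ) ^ n) • x) ?_ (by simp)
    (fun a b _ _ ha hb => by simp [ha, hb, smul_add])
    (fun c a _ ha => by rw [map_smul, ha, smul_comm]) hx
  rintro _ ⟨w, hw, rfl⟩
  have h : ecount w = n := hw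
  rw [τ_sW, sgnW, h]

theorem τ_dWord (w : List Letter) : τ k (dWord k w) = -(sgnW w • dWord k w) := by
  induction w with
  | nil => simp [dWord]
  | cons x w ih =>
    cases x with
    | inl g =>
      rcases neg_one_pow_eq_or ℤ (ecount w) with h' | h' <;>
        simp [dWord, dLetter, τ_mul, τ_sW, ih, sgnW, ecount, h']
    | inr r =>
      rcases neg_one_pow_eq_or ℤ (ecount w) with h' | h' <;>
        simp [dWord, dLetter, τ_mul, τ_sW, ih, sgnW, ecount, h', pow_succ,
          τ_Deg k (relVal_mem_Deg k _)] <;> abel

theorem τ_δ (x : S k) : τ k (δ k x) = -δ k (τ k x) := by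
  refine sW_induction k x (by simp) (fun a b ha hb => by simp [ha, hb, add_comm])
    (fun c a ha => by simp [ha]) (fun v => ?_)
  rw [δ_sW, τ_dWord, τ_sW, map_zsmul, δ_sW]

theorem δ_dWord (w : List Letter) : δ k (dWord k w) = 0 := by
  induction w with
  | nil => simp [dWord]
  | cons x w ih =>
    cases x with
    | inl g =>
      simp [dWord, dLetter, δ_mul, δ_sW, ih, sgnW, ecount]
    | inr r =>
      simp [dWord, dLetter, δ_mul, δ_sW, ih, sgnW, ecount, τ_Deg k (relVal_mem_Deg k _),
        δ_Deg_zero k (relVal_mem_Deg k _), sW_nil]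

theorem δ_δ (x : S k) : δ k (δ k x) = 0 := by
  refine sW_induction k x (by simp) (fun a b ha hb => by simp [ha, hb])
    (fun c a ha => by simp [ha]) (fun v => ?_)
  rw [δ_sW, δ_dWord]

theorem dWord_mem_Wt (w : List Letter) : dWord k w ∈ Wt k (weight w) := by
  induction w with
  | nil => exact zero_mem _
  | cons x w ih =>
    cases x with
    | inl g =>
      refine add_mem ?_ (zsmul_mem ?_ _)
      · simp [dLetter]
      · exact Wt_mono k (by simp [weight, add_comm])
          (mul_mem_Wt k (sW_mem_Wt k (le_refl _)) ih)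
    | inr r =>
      refine add_mem ?_ (zsmul_mem ?_ _)
      · exact Wt_mono k (by simp [weight, add_comm])
          (mul_mem_Wt k (relVal_mem_Wt k _) (sW_mem_Wt k (le_refl _)))
      · exact Wt_mono k (by simp [weight, add_comm])
          (mul_mem_Wt k (sW_mem_Wt k (le_refl _)) ih)

theorem δ_mem_Wt {L : ℕ} {x : S k} (hx : x ∈ Wt k L) : δ k x ∈ Wt k L := by
  refine Submodule.span_induction (p := fun x _ => δ k x ∈ Wt k L) ?_ (by simp)
    (fun a b _ _ ha hb => by simpa using add_mem ha hb)
    (fun c a _ ha => by simpa using Submodule.smul_mem _ c ha) hx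
  rintro _ ⟨w, hw, rfl⟩
  rw [δ_sW]
  exact Wt_mono k hw (dWord_mem_Wt k w)

theorem dWord_mem_Deg (w : List Letter) (n : ℕ) (h : ecount w = n + 1) :
    dWord k w ∈ Deg k n := by
  induction w generalizing n with
  | nil => simp [ecount] at h
  | cons x w ih =>
    cases x with
    | inl g =>
      simp only [dWord, dLetter, zero_mul, zero_add]
      refine zsmul_mem ?_ _
      have := mul_mem_Deg k (sW_mem_Deg k (w := [Sum.inl g]) rfl) (ih n (by simpa [ecount] using h))
      simpa [ecount] using this
    | inr r =>
      simp only [dWord, dLetter]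
      have hw : ecount w = n := by simpa [ecount] using h
      refine add_mem ?_ (zsmul_mem ?_ _)
      · simpa using mul_mem_Deg k (relVal_mem_Deg k (Sum.inr r)) (sW_mem_Deg k hw)
      · cases n with
        | zero => rw [← δ_sW, δ_Deg_zero k (sW_mem_Deg k hw)]; simp
        | succ m =>
          have := mul_mem_Deg k (sW_mem_Deg k (w := [Sum.inr r]) rfl) (ih m hw)
          simpa [ecount, add_comm] using this

end Vale.Agent.P176
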