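import Vale.Agent.P176.Hat

set_option linter.unusedSectionVars false

/-! Modules over the window algebra: projective dimension at most two, and the window modules
are finite and not projective. -/

namespace Vale.Agent.P176

open CategoryTheory

universe u

namespace Win

variable {k : Type u} [Field k]

theorem vert_mul_mul_vert (x : Win k) {j w : Fin 3} (h : j ≤ w) :
    vert k j * x * vert k w = if j = w then x.c j • vert k j else 0 := by
  have key : vert k j * x * vert k w
      = ⟨Pi.single j (if j = w then x.c j else 0), 0, 0⟩ := by
    refine Win.ext ?_ ?_ ?_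
    · funext l
      simp only [mul_c, vert, Pi.mul_apply]
      by_cases hl : l = j
      · subst hl
        by_cases hw : l = w
        · subst hw; simp
        · simp [hw]
      · simp [hl]
    · funext v g
      simp only [mul_a, vert, Pi.zero_apply, mul_zero, zero_mul, add_zero, zero_add]
      by_cases h1 : v.succ = j
      · have h2 : v.castSucc ≠ w := by
          intro e; subst h1 e
          exact absurd h (not_le.2 (Fin.castSucc_lt_succ))
        simp [h2]
      · simp [h1]
    · funext n
      simp only [mul_z, vert, Pi.zero_apply, mul_zero, zero_mul, add_zero, zero_add]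
      by_cases h1 : (2 : Fin 3) = j
      · have h2 : (0 : Fin 3) ≠ w := by intro e; subst h1 e; exact absurd h (by decide)
        simp [arrowMul, h2]
      · simp [arrowMul, h1]
  rw [key]
  split_ifs with hjw
  · refine Win.ext ?_ (by simp [vert]) (by simp [vert])
    funext l
    by_cases hl : l = j <;> simp [vert, hl]
  · refine Win.ext ?_ rfl rfl
    simp

/-- The submodule of a free module cut out by idempotents is projective. -/
theorem cut_projective {ι : Type u} (w : ι → Fin 3) :
    ∃ (P : ModuleCat.{u} (Win k)) (e : P →ₗ[Win k] (ι →₀ Win k)) (r : (ι →₀ Win k) →ₗ[Win k] P),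
      Module.Projective (Win k) P ∧ Function.Injective e ∧
      (∀ f a, (e (r f)) a = f a * vert k (w a)) ∧ (∀ p a, (e p) a * vert k (w a) = (e p) a) := by
  classical
  let cut : (ι →₀ Win k) →ₗ[Win k] (ι →₀ Win k) :=
    { toFun := fun f => Finsupp.onFinset f.support (fun a => f a * vert k (w a)) fun a ha =>
        Finsupp.mem_support_iff.2 fun h0 => ha (by rw [h0, zero_mul])
      map_add' := fun f g => Finsupp.ext fun a => by simp [add_mul]
      map_smul' := fun b f => Finsupp.ext fun a => by simp [mul_assoc] }
  have hcut : ∀ f a, cut f a = f a * vert k (w a) := fun f a => rfl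
  let r : (ι →₀ Win k) →ₗ[Win k] LinearMap.range cut := cut.rangeRestrict
  have hidem : ∀ p : LinearMap.range cut, r p.1 = p := by
    rintro ⟨p, f, rfl⟩
    refine Subtype.ext (Finsupp.ext fun a => ?_)
    show cut (cut f) a = cut f a
    rw [hcut, hcut, mul_assoc, vert_mul_vert, if_pos rfl]
  refine ⟨ModuleCat.of (Win k) (LinearMap.range cut), (LinearMap.range cut).subtype, r,
    Module.Projective.of_split (LinearMap.range cut).subtype r (LinearMap.ext hidem),
    Subtype.val_injective, fun f a => rfl, ?_⟩
  rintro ⟨p, f, rfl⟩ a
  show cut f a * _ = cut f a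
  rw [hcut, mul_assoc, vert_mul_vert, if_pos rfl]

/-- A cover whose kernel is killed by one more vertex. -/
theorem exists_cover (U : ModuleCat.{u} (Win k)) (i : Fin 3)
    (hU : ∀ j < i, ∀ x : U, vert k j • x = 0) :
    ∃ (P : ModuleCat.{u} (Win k)) (g : P →ₗ[Win k] U), Module.Projective (Win k) P ∧
      Function.Surjective g ∧ ∀ j ≤ i, ∀ x : P, g x = 0 → vert k j • x = 0 := by
  classical
  let _ : Module k U := Module.compHom U (algebraMap k (Win k))
  have hsmul : ∀ (c : k) (b : Win k) (x : U), (c • b) • x = c • b • x := fun c b x => by
    show (c • b) • x = algebraMap k (Win k) c • b • x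
    rw [Algebra.smul_def, mul_smul]
  have hcomm : ∀ (c : k) (b : Win k) (x : U), b • c • x = c • b • x := fun c b x => by
    show b • algebraMap k (Win k) c • x = algebraMap k (Win k) c • b • x
    rw [← mul_smul, ← mul_smul, Algebra.commutes]
  let Ei : U →ₗ[k] U :=
    { toFun := fun x => vert k i • x
      map_add' := smul_add _
      map_smul' := fun c x => hcomm c _ x }
  let β := Module.Free.chooseBasis k (LinearMap.range Ei)
  let ι := Module.Free.ChooseBasisIndex k (LinearMap.range Ei) ⊕ (Σ _ : {j : Fin 3 // i < j}, U)
  let w : ι → Fin 3 := Sum.elim (fun _ => i) fun z => z.1.1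
  let v : ι → U := Sum.elim (fun b => (β b : U)) fun z => z.2
  obtain ⟨P, e, r, hP, he, her, hev⟩ := cut_projective (k := k) w
  let G : (ι →₀ Win k) →ₗ[Win k] U :=
    Finsupp.linearCombination (Win k) fun a => vert k (w a) • v a
  have hEb : ∀ b, vert k i • (β b : U) = (β b : U) := fun b => by
    obtain ⟨y, hy⟩ := (β b).2
    rw [← hy]
    show vert k i • vert k i • y = vert k i • y
    rw [← mul_smul, vert_mul_vert, if_pos rfl]
  have hsingle : ∀ a, G (e (r (Finsupp.single a 1))) = vert k (w a) • v a := fun a => by
    have : e (r (Finsupp.single a 1)) = Finsupp.single a (vert k (w a)) := by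
      refine Finsupp.ext fun c => ?_
      rw [her]
      by_cases h : c = a
      · subst h; simp
      · simp [h]
    rw [this]
    simp only [G, Finsupp.linearCombination_single]
    rw [← mul_smul, vert_mul_vert, if_pos rfl]
  refine ⟨P, G.comp e, hP, ?_, ?_⟩
  · intro x
    have hmem : ∀ j, vert k j • x ∈ LinearMap.range (G.comp e) := by
      intro j
      rcases lt_trichotomy j i with h | h | h
      · rw [hU j h x]; exact zero_mem _
      · subst h
        have hx : (⟨vert k j • x, x, rfl⟩ : LinearMap.range Ei)
            ∈ Submodule.span k (Set.range β) := β.mem_span _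
        have key : ∀ y : LinearMap.range Ei, y ∈ Submodule.span k (Set.range β) →
            (y : U) ∈ LinearMap.range (G.comp e) := by
          intro y hy
          induction hy using Submodule.span_induction with
          | mem y hy =>
            obtain ⟨b, rfl⟩ := hy
            exact ⟨r (Finsupp.single (Sum.inl b) 1), (hsingle _).trans (hEb b)⟩
          | zero => exact zero_mem _
          | add a b _ _ ha hb => exact add_mem ha hb
          | smul c a _ ha => exact Submodule.smul_mem _ (algebraMap k (Win k) c) ha
        exact key _ hx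
      · exact ⟨r (Finsupp.single (Sum.inr ⟨⟨j, h⟩, x⟩) 1), hsingle _⟩
    have : x = ∑ j, vert k j • x := by rw [← Finset.sum_smul, sum_vert, one_smul]
    rw [← LinearMap.mem_range, this]
    exact sum_mem fun j _ => hmem j
  · intro j hj x hx
    refine he (Finsupp.ext fun a => ?_)
    rw [map_smul, map_zero, Finsupp.smul_apply, Finsupp.zero_apply, smul_eq_mul]
    have hval : ∀ a, vert k j * e x a = if j = w a then (e x a).c j • vert k j else 0 := fun a => by
      have hjw : j ≤ w a := by
        rcases a with b | z
        · exact hj
        · exact hj.trans z.1.2.le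
      rw [← hev x a, ← mul_assoc, vert_mul_mul_vert _ hjw, hev x a]
    by_cases hja : j = w a
    · have hji : j = i := by
        rcases a with b | z
        · exact hja
        · exact absurd (le_of_eq_of_le (show z.1.1 = j from hja.symm) hj) (not_le.2 z.1.2)
      subst hji
      rcases a with b | z
      swap
      · exact absurd (le_of_eq (show z.1.1 = j from hja.symm)) (not_le.2 z.1.2)
      have h0 : vert k j • G (e x) = 0 := by
        rw [show G (e x) = 0 from hx, smul_zero]
      rw [← map_smul] at h0
      have hG : G (vert k j • e x)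
          = ∑ a ∈ (e x).support, (vert k j * e x a) • vert k (w a) • v a := by
        show Finsupp.linearCombination _ _ _ = _
        rw [Finsupp.linearCombination_apply, Finsupp.sum_of_support_subset _ Finsupp.support_smul]
        · exact Finset.sum_congr rfl fun a _ => by rw [Finsupp.smul_apply, smul_eq_mul]
        · intro a _; exact zero_smul _ _
      rw [hG] at h0
      have hcf : ∑ b ∈ (e x).support.toLeft, (e x (Sum.inl b)).c j • (β b : U) = 0 := by
        rw [← h0, ← Finset.toLeft_disjSum_toRight (u := (e x).support), Finset.sum_disjSum,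
          Finset.toLeft_disjSum]
        rw [Finset.sum_eq_zero (s := (Finset.toRight _))]
        · rw [add_zero]
          refine Finset.sum_congr rfl fun b _ => ?_
          rw [hval, if_pos (show j = w (Sum.inl b) from rfl), hsmul]
          show _ = (e x (Sum.inl b)).c j • vert k j • vert k j • (β b : U)
          rw [hEb, hEb]
        · intro z _
          rw [hval, if_neg (show j ≠ w (Sum.inr z) from ne_of_lt z.1.2), zero_smul]
      have hlin := linearIndependent_iff'.1
        (β.linearIndependent.map' (LinearMap.range Ei).subtype (Submodule.ker_subtype _))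
        (e x).support.toLeft (fun b => (e x (Sum.inl b)).c j) hcf
      rw [hval, if_pos hja]
      by_cases hb : b ∈ (e x).support.toLeft
      · rw [hlin b hb, zero_smul]
      · rw [Finsupp.notMem_support_iff.1 fun h => hb (Finset.mem_toLeft.2 h)]
        simp
    · rw [hval, if_neg hja]

/-- Every module over the window algebra has projective dimension at most two. -/
theorem gldim (U : ModuleCat.{u} (Win k)) : HasProjectiveDimensionLT U 3 := by
  have step : ∀ (i : Fin 3) (d : ℕ) (U : ModuleCat.{u} (Win k)),
      (∀ j < i, ∀ x : U, vert k j • x = 0) →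
      (∀ K : ModuleCat.{u} (Win k), (∀ j ≤ i, ∀ x : K, vert k j • x = 0) →
        HasProjectiveDimensionLT K d) → HasProjectiveDimensionLT U (d + 1) := by
    intro i d U hU hK
    obtain ⟨P, g, hP, hg, hker⟩ := exists_cover U i hU
    have : Projective P := (IsProjective.iff_projective _).1 hP
    have hS := LinearMap.shortExact_shortComplexKer (f := g) hg
    refine hS.hasProjectiveDimensionLT_X₃ d (hK _ fun j hj x => Subtype.ext ?_) ?_
    · exact hker j hj x.1 (LinearMap.mem_ker.1 x.2)
    · exact hasProjectiveDimensionLT_of_ge P 1 (d + 1) (by omega)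
  refine step 0 2 U (fun j hj => absurd hj (Fin.not_lt_zero j)) fun K₁ h₁ => ?_
  refine step 1 1 K₁ (fun j hj => h₁ j (by omega)) fun K₂ h₂ => ?_
  refine step 2 0 K₂ (fun j hj => h₂ j (by omega)) fun K₃ h₃ => ?_
  have : Subsingleton K₃ := ⟨fun a b => by
    have z : ∀ x : K₃, x = 0 := fun x => by
      rw [← one_smul (Win k) x, ← sum_vert, Finset.sum_smul]
      exact Finset.sum_eq_zero fun j _ => h₃ j (by omega) x
    rw [z a, z b]⟩
  exact (ModuleCat.isZero_of_subsingleton K₃).hasProjectiveDimensionLT_zero

end Win

namespace RMod

variable {k : Type u} [Field k] (N : RMod k)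

/-- A window module is not projective. -/
theorem not_projective_hat [Nontrivial N.M] : ¬ Projective N.hat := by
  classical
  intro hP
  have := (IsProjective.iff_projective N.hat).2 hP
  obtain ⟨σ, hσ⟩ := Module.projective_def.1 this
  obtain ⟨m, hm⟩ := exists_ne (0 : N.M)
  let s : N.M → N.Hat := fun y => (Pi.single 0 y : Fin 3 → N.M)
  have hs : ∀ y, Win.vert k 0 • s y = s y := fun y =>
    (N.vert_smul 0 (s y)).trans (congrArg (Pi.single (0 : Fin 3))
      (Pi.single_eq_same (M := fun _ : Fin 3 => N.M) 0 y))
  have hs' : ∀ g y, Win.arr k 0 g • s y = (Pi.single 1 (N.arrow g y) : Fin 3 → N.M) := fun g y =>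
    (N.arr_smul 0 g (s y)).trans
      (congrArg (fun v => (Pi.single (1 : Fin 3) (N.arrow g v) : Fin 3 → N.M))
        (Pi.single_eq_same (M := fun _ : Fin 3 => N.M) 0 y))
  let x : V → N.Hat := fun g =>
    if g = some Gen.gu then s m
    else if g = none then s (-(N.arrow (some Gen.gu) m)) else 0
  have hx0 : ∀ g, Win.vert k 0 • x g = x g := fun g => by
    simp only [x]
    split_ifs
    · exact hs _
    · exact hs _
    · exact smul_zero _
  have hsum : ∑ g, Win.arr k 0 g • x g = 0 := by
    rw [Fintype.sum_eq_add (some Gen.gu) none (by simp) fun g hg => by simp [x, hg.1, hg.2]]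
    rw [show x (some Gen.gu) = s m from if_pos rfl,
      show x none = s (-(N.arrow (some Gen.gu) m)) from (if_neg (by simp)).trans (if_pos rfl)]
    rw [hs', hs']
    show (Pi.single 1 (N.arrow (some Gen.gu) m)
      + Pi.single 1 (-(N.arrow (some Gen.gu) m)) : Fin 3 → N.M) = 0
    rw [← Pi.single_add, add_neg_cancel, Pi.single_zero]
  have key : ∀ g, σ (x g) = 0 := fun g => by
    refine Finsupp.ext fun a => ?_
    have h1 : ∀ g, σ (x g) a = (σ (x g) a).c 0 • Win.vert k 0 := fun g => by
      have e : Win.vert k 0 * σ (x g) a = σ (x g) a := by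
        rw [← smul_eq_mul, ← Finsupp.smul_apply, ← map_smul, hx0]
      generalize σ (x g) a = b at e
      refine Win.ext ?_ ?_ ?_
      · funext l
        have := congrFun (congrArg Win.c e) l
        by_cases hl : l = 0
        · subst hl; simp [Win.vert]
        · simp [Win.vert, hl] at this ⊢; exact this.symm
      · funext v h
        have := congrFun (congrFun (congrArg Win.a e) v) h
        simp [Win.vert, Fin.succ_ne_zero] at this ⊢
        exact this.symm
      · funext n
        have := congrFun (congrArg Win.z e) n
        simp [Win.vert, Win.arrowMul_zero_left] at this ⊢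
        exact this.symm
    have h2 := congrArg (fun f => f a) (congrArg σ hsum)
    simp only [map_sum, map_smul, map_zero, Finsupp.finsetSum_apply, Finsupp.smul_apply,
      Finsupp.zero_apply, smul_eq_mul] at h2
    have h3 := congrArg (fun b : Win k => b.a 0 g) h2
    let A : Win k →+ k := AddMonoidHom.mk' (fun b => b.a 0 g) fun b c => rfl
    change A (∑ g', Win.arr k 0 g' * σ (x g') a) = 0 at h3
    rw [map_sum, Finset.sum_eq_single g] at h3
    · rw [h1 g] at h3
      rw [h1 g]
      have : (σ (x g) a).c 0 = 0 := by simpa [A, Win.arr, Win.vert] using h3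
      rw [this, zero_smul]; rfl
    · intro g' _ hg'
      rw [h1 g']
      simp [A, Win.arr, Win.vert, Ne.symm hg']
    · simp
  have h := key (some Gen.gu)
  have h' : x (some Gen.gu) = 0 := by
    rw [← hσ (x (some Gen.gu)), h, map_zero]
  refine hm ?_
  rw [show x (some Gen.gu) = s m from if_pos rfl] at h'
  have := congrFun (show (Pi.single 0 m : Fin 3 → N.M) = 0 from h') 0
  rwa [Pi.single_eq_same] at this

/-- A window module of a finite dimensional representation is finite. -/
theorem finite_hat [Module.Finite k N.M] : Module.Finite (Win k) N.Hat := by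
  let _ : Module k N.Hat := inferInstanceAs (Module k (Fin 3 → N.M))
  have : IsScalarTower k (Win k) N.Hat := ⟨fun c b x => by
    rw [smul_def, smul_def, map_smul]
    rfl⟩
  have : Module.Finite k N.Hat := inferInstanceAs (Module.Finite k (Fin 3 → N.M))
  exact Module.Finite.of_restrictScalars_finite k (Win k) N.Hat

end RMod

end Vale.Agent.P176
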