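import Vale.Agent.P176.Exact
import Vale.Agent.P176.WinModules

/-!
P176: the reduction of `X ⊗ hat M` to the twisted and the trivial hat.
-/

namespace Vale.Agent.P176

universe u

variable {k : Type u} [Field k] (D : Lifts k) (N : RMod k)

attribute [local irreducible] WinRep.toLin RMod.winRep

/-- Twisted operators on side `false`, trivial ones on side `true`. -/
def opY : Bool → Gen → Module.End k N.M
  | false => shift N.op
  | true => fun _ => 1

theorem sat_const {E : Type u} [Monoid E] : Sat (fun _ : Gen => (1 : E)) := by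
  intro r
  rcases ruleTable r with ⟨⟨g, h⟩, _ | p | _⟩ <;> simp [RuleOK]

theorem opY_sat : ∀ y, Sat (opY N y)
  | false => N.sat.shift
  | true => sat_const

/-- The two target representations, on the same space. -/
def Gy (y : Bool) : RMod k := { M := N.M, op := opY N y, sat := opY_sat N y }

/-- The arrows of the two targets. -/
def arrY (y : Bool) : V → Module.End k N.M := (Gy N y).arrow

theorem arrY_none (y : Bool) : arrY N y none = 1 := rfl

theorem arrY_false (g : Gen) : arrY N false (some g) = shift N.op g - 1 := rfl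

theorem arrY_true (g : Gen) : arrY N true (some g) = 0 := sub_self (1 : Module.End k N.M)

/-- The components of the two targets. -/
noncomputable def compY (y : Bool) (w v : Fin 3) : Win k →ₗ[k] Module.End k N.M :=
  comp (Gy N y) w v

theorem compY_vert (y : Bool) (w v i : Fin 3) :
    compY N y w v (Win.vert k i) = if i = v ∧ w = v then 1 else 0 :=
  comp_vert (Gy N y) w v i

theorem compY_arr (y : Bool) (w v : Fin 3) (i : Fin 2) (g : V) :
    compY N y w v (Win.arr k i g) =
      if v = i.castSucc ∧ w = i.succ then arrY N y g else 0 :=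
  comp_arr (Gy N y) w v i g

theorem evS_deg_pos {x : S k} {n : ℕ} (hx : x ∈ Deg k (n + 1)) : evS k N.op x = 0 := by
  refine Submodule.span_induction (p := fun x _ => evS k N.op x = 0) ?_ (map_zero _)
    (fun a b _ _ ha hb => by simp [ha, hb]) (fun c a _ ha => by simp [ha]) hx
  rintro _ ⟨w, hw, rfl⟩
  have h : ecount w = n + 1 := hw
  rw [← evS_P0 k, P0_sW, if_neg (by omega), map_zero]

/-- Evaluation of a two by two matrix. -/
noncomputable def ev2 (m : Mat2 k) (a b : Bool) : Module.End k N.M := evS k N.op (m a b)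

theorem ev2_mk2_zero {x : S k} (hx : evS k N.op x = 0) (a b : Bool) : ev2 N (mk2 D x) a b = 0 := by
  cases a <;> cases b <;> simp [ev2, mk2, hx]

theorem ev2_ψ (g h : Gen) (a b : Bool) : ev2 N (ψ D g h) a b = 0 := by
  rw [ev2, ψ, Matrix.sum_apply, map_sum]
  refine Finset.sum_eq_zero fun r _ => ?_
  split_ifs
  · exact ev2_mk2_zero D N (evS_deg_pos N (D.eps_deg r)) a b
  · simp

theorem ev2_φ (g h : Gen) (a b : Bool) : ev2 N (φ D g h) a b = 0 := by
  rw [ev2, φ, Matrix.sum_apply, map_sum]
  refine Finset.sum_eq_zero fun r _ => ?_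
  split_ifs
  · rw [Matrix.neg_apply, map_neg, neg_eq_zero]
    exact ev2_mk2_zero D N (evS_δ k N.sat _) a b
  · simp

section one

variable (hE : idem k N.op = 1)
include hE

theorem ev2_fV (g : V) (a b : Bool) :
    ev2 N (fV D g) a b = if a = b then arrY N a g else 0 := by
  cases g with
  | none => cases a <;> cases b <;> simp [ev2, fV, arrY_none]
  | some g =>
    have he : evS k N.op D.e = 1 := (D.ev_e N.op N.sat).trans hE
    have hs : evS k N.op (D.s g) = shift N.op g - 1 := by
      rw [D.ev_s N.op N.sat g, hE, one_mul]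
    have hh : evS k N.op D.h = 0 := evS_deg_pos N (n := 0) D.h_deg
    cases a <;> cases b <;> simp [ev2, fV, mk2, he, hs, hh, arrY_false, arrY_true]

theorem ev2_comp2 (g h : V) (a b : Bool) :
    ev2 N (comp2 D (g, h)) a b =
      if a = b then arrY N a g * arrY N a h else 0 := by
  have hff : ev2 N (fV D g * fV D h) a b =
      if a = b then arrY N a g * arrY N a h else 0 := by
    have e : ∀ c, evS k N.op (fV D g a c * fV D h c b) = ev2 N (fV D g) a c * ev2 N (fV D h) c b :=
      fun c => map_mul (evS k N.op) _ _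
    rw [ev2, Matrix.mul_apply, map_sum, Fintype.sum_bool, e, e, ev2_fV D N hE, ev2_fV D N hE,
      ev2_fV D N hE, ev2_fV D N hE]
    cases a <;> cases b <;> simp
  rcases g with _ | g <;> rcases h with _ | h
  · exact hff
  · exact hff
  · exact hff
  · rw [comp2, ev2, Matrix.add_apply, map_add]
    show ev2 N _ a b + ev2 N _ a b = _
    rw [hff, ev2_φ, add_zero]

end one

/-- Evaluation of a block matrix between cone slots. -/
noncomputable def evM (M : MatS k) (p q : Fin 3 × Bool) : Module.End k N.M :=
  ev2 N (M (.inl p.1) (.inl q.1)) p.2 q.2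

theorem piPhi_opM {M : MatS k}
    (hM : ∀ v t a b, ev2 N (M (Sum.inl v) (Sum.inr t)) a b = 0) (z : Phi N) (p : Fin 3 × Bool) :
    piPhi N (phiOp N (opM M) z) p = ∑ q, evM N M p q (piPhi N z q) := by
  induction z using Finsupp.induction_linear with
  | zero => simp
  | add a b ha hb => simp [ha, hb, Finset.sum_add_distrib]
  | single c m =>
    obtain ⟨⟨s, y⟩, κ, w⟩ := c
    show piPhi N (phiOp N (opM M) (insC N _ m)) p = ∑ q, evM N M p q (piPhi N (insC N _ m) q)
    rw [phiOp_opM_ins, map_sum, Finset.sum_apply, Blk_sum, Fintype.sum_sum_type]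
    simp only [piPhi_emb_inl, piPhi_emb_inr, augT_wordsTo_mul, Pi.zero_apply, add_zero,
      Finset.sum_const_zero]
    obtain ⟨v', y'⟩ := p
    rw [Finset.sum_eq_single v']
    · have e : ∀ a : N.M, (Pi.single ((v', true) : Fin 3 × Bool)
          (evS k N.op (M (Sum.inl v') s true y) a) : Fin 3 × Bool → N.M) (v', y') +
          (Pi.single ((v', false) : Fin 3 × Bool)
          (evS k N.op (M (Sum.inl v') s false y) a) : Fin 3 × Bool → N.M) (v', y') =
          ev2 N (M (Sum.inl v') s) y' y a := fun a => by cases y' <;> simp [ev2]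
      rw [e]
      rcases s with v | t
      · rw [← embB_insT, piPhi_emb_inl, Finset.sum_eq_single (v, y)]
        · simp [evM]
        · intro q _ hq; simp [hq]
        · simp
      · rw [← embB_insT, piPhi_emb_inr, hM]
        simp
    · intro v _ hv; simp [Ne.symm hv]
    · simp

theorem win_decomp (x : Win k) :
    x = x.c 0 • Win.vert k 0 + x.c 1 • Win.vert k 1 + x.c 2 • Win.vert k 2 +
      ((∑ g, x.a 0 g • Win.arr k 0 g) + ∑ g, x.a 1 g • Win.arr k 1 g) +
      ∑ n : NF, x.z n • (Win.arr k 1 n.1.1 * Win.arr k 0 n.1.2) := by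
  let Ac : Win k →+ (Fin 3 → k) := AddMonoidHom.mk' Win.c fun _ _ => rfl
  let Aa : Win k →+ (Fin 2 → V → k) := AddMonoidHom.mk' Win.a fun _ _ => rfl
  let Az : Win k →+ (NF → k) := AddMonoidHom.mk' Win.z fun _ _ => rfl
  have hc : ∀ b, Ac b = b.c := fun _ => rfl
  have ha : ∀ b, Aa b = b.a := fun _ => rfl
  have hz : ∀ b, Az b = b.z := fun _ => rfl
  refine Win.ext ?_ ?_ ?_
  · simp only [← hc, map_add, map_sum, Win.arr_mul_arr]
    funext i
    fin_cases i <;> simp [hc, Win.vert, Win.arr]
  · simp only [← ha, map_add, map_sum, Win.arr_mul_arr]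
    funext v g
    fin_cases v <;> rcases g with _ | g <;> simp [ha, Win.vert, Win.arr, Pi.single_apply]
  · simp only [← hz, map_add, map_sum, Win.arr_mul_arr]
    funext n
    have : ∀ m : NF, nfCoef k m.1 n = if m = n then 1 else 0 := fun m => by
      rw [nfCoef_normal m.2]; simp [Subtype.ext_iff]
    simp [hz, Win.vert, Win.arr, this]

theorem linear_ext_win {E : Type u} [AddCommGroup E] [Module k E] {f g : Win k →ₗ[k] E}
    (hv : ∀ i, f (Win.vert k i) = g (Win.vert k i))
    (ha : ∀ v x, f (Win.arr k v x) = g (Win.arr k v x))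
    (hz : ∀ x y, f (Win.arr k 1 x * Win.arr k 0 y) = g (Win.arr k 1 x * Win.arr k 0 y)) : f = g := by
  refine LinearMap.ext fun x => ?_
  rw [win_decomp x]
  simp only [map_add, map_sum, map_smul, hv, ha, hz]

theorem comp_arr_arr (w v : Fin 3) (g h : V) :
    comp N w v (Win.arr k 1 g * Win.arr k 0 h) =
      if w = 2 ∧ v = 0 then N.arrow g * N.arrow h else 0 := by
  refine LinearMap.ext fun m => ?_
  rw [comp_apply, WinRep.toLin_mul, WinRep.toLin_arr, WinRep.toLin_arr, Module.End.mul_apply,
    RMod.winRep_α, RMod.winRep_α]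
  by_cases hv : v = 0
  · subst hv
    by_cases hw : w = 2
    · subst hw
      simp only [Fin.castSucc_zero, Pi.single_eq_same, Fin.castSucc_one, and_self, if_true]
      show (Pi.single (Fin.succ 1) _ : Fin 3 → N.M) 2 = _
      rw [show ((Fin.succ 0 : Fin 3)) = 1 from rfl, Pi.single_eq_same]
      exact Pi.single_eq_same (M := fun _ : Fin 3 => N.M) (2 : Fin 3) _
    · simp [hw]
  · simp [hv, Ne.symm hv]

theorem compY_arr_arr (y : Bool) (w v : Fin 3) (g h : V) :
    compY N y w v (Win.arr k 1 g * Win.arr k 0 h) =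
      if w = 2 ∧ v = 0 then arrY N y g * arrY N y h else 0 :=
  comp_arr_arr (Gy N y) w v g h

/-- `evM` as a linear map in the algebra element. -/
noncomputable def evLin (p q : Fin 3 × Bool) : Win k →ₗ[k] Module.End k N.M where
  toFun b := evM N ((blockRep D).toLin b) p q
  map_add' a b := by simp [evM, ev2]
  map_smul' r b := by simp [evM, ev2]

/-- Evaluation of the entries from `Q` slots. -/
noncomputable def evQ (v : Fin 3) (t : Gen × Bool) (a b : Bool) :
    Win k →ₗ[k] Module.End k N.M where
  toFun x := ev2 N ((blockRep D).toLin x (Sum.inl v) (Sum.inr t)) a b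
  map_add' x y := by simp [ev2]
  map_smul' r x := by simp [ev2]

theorem toLin_vert' (i : Fin 3) : (blockRep D).toLin (Win.vert k i) = eSlot i :=
  (blockRep D).toLin_vert i

theorem toLin_arr0 (g : V) : (blockRep D).toLin (Win.arr k 0 g) = α0 D g :=
  (blockRep D).toLin_arr 0 g

theorem toLin_arr1 (g : V) : (blockRep D).toLin (Win.arr k 1 g) = α1 D g :=
  (blockRep D).toLin_arr 1 g

theorem toLin_arr_arr (g h : V) :
    (blockRep D).toLin (Win.arr k 1 g * Win.arr k 0 h) =
      Matrix.single (Sum.inl 2) (Sum.inl 0) (comp2 D (g, h)) := by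
  rw [WinRep.toLin_mul, toLin_arr0, toLin_arr1, α1_mul_α0]

theorem evQ_zero (v : Fin 3) (t : Gen × Bool) (a b : Bool) : evQ D N v t a b = 0 := by
  refine linear_ext_win (fun i => ?_) (fun i g => ?_) fun g h => ?_
  · simp [evQ, toLin_vert', eSlot, ev2]
  · fin_cases i
    · show ev2 N ((blockRep D).toLin (Win.arr k 0 g) _ _) a b = _
      rw [toLin_arr0]
      rcases g with _ | g <;> simp [α0, ev2]
    · show ev2 N ((blockRep D).toLin (Win.arr k 1 g) _ _) a b = _
      rw [toLin_arr1]
      rcases g with _ | g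
      · simp [α1, ev2]
      · obtain ⟨h, _ | _⟩ := t <;> by_cases hv : (2 : Fin 3) = v
        all_goals first
          | (subst hv; simp [α1, ev2, Matrix.sum_apply, Matrix.single_apply, Finset.sum_ite_eq'])
          | simp [α1, ev2, Matrix.sum_apply, Matrix.single_apply, hv, Finset.sum_ite_eq']
        all_goals
          have hφ : evS k N.op (φ D g h a b) = 0 := ev2_φ D N g h a b
          have hψ : evS k N.op (ψ D g h a b) = 0 := ev2_ψ D N g h a b
          first | simp only [hφ] | simp only [hψ]
  · show ev2 N ((blockRep D).toLin (Win.arr k 1 g * Win.arr k 0 h) _ _) a b = _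
    rw [toLin_arr_arr]
    simp [ev2]

theorem piPhi_blockRep (b : Win k) (z : Phi N) (p : Fin 3 × Bool) :
    piPhi N (phiOp N (opM ((blockRep D).toLin b)) z) p =
      ∑ q, evLin D N p q b (piPhi N z q) :=
  piPhi_opM N (fun v t a c => LinearMap.congr_fun (evQ_zero D N v t a c) b) z p

section one

variable (hE : idem k N.op = 1)
include hE

theorem evLin_eq (v' v : Fin 3) (y' y : Bool) :
    evLin D N (v', y') (v, y) = if y' = y then compY N y' v' v else 0 := by
  refine linear_ext_win (fun i => ?_) (fun i g => ?_) fun g h => ?_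
  · show ev2 N ((blockRep D).toLin (Win.vert k i) _ _) y' y = _
    rw [toLin_vert']
    by_cases hy : y' = y
    · subst hy
      rw [if_pos rfl, compY_vert]
      by_cases hv : v' = v
      · subst hv
        by_cases hi : i = v'
        · subst hi; simp [eSlot, ev2, vtx]
        · simp [eSlot, ev2, vtx, hi, Ne.symm hi]
      · simp [eSlot, ev2, hv]
    · rw [if_neg hy]
      by_cases hv : v' = v
      · subst hv
        by_cases hi : v' = i <;> simp [eSlot, ev2, vtx, hi, hy]
      · simp [eSlot, ev2, hv]
  · have key : ev2 N ((blockRep D).toLin (Win.arr k i g) (Sum.inl v') (Sum.inl v)) y' y =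
        if v = i.castSucc ∧ v' = i.succ then ev2 N (fV D g) y' y else 0 := by
      obtain rfl | rfl : i = 0 ∨ i = 1 := by fin_cases i <;> simp
      · show ev2 N ((blockRep D).toLin (Win.arr k 0 g) _ _) y' y = _
        rw [toLin_arr0]
        rcases g with _ | g
        · by_cases h : v = 0 ∧ v' = 1
          · obtain ⟨rfl, rfl⟩ := h; simp [α0, fV]
          · refine Eq.trans ?_ (if_neg h).symm
            have h' : ¬ ((Sum.inl 1 : Slot) = Sum.inl v' ∧ (Sum.inl 0 : Slot) = Sum.inl v) :=
              fun e => h ⟨(Sum.inl_injective e.2).symm, (Sum.inl_injective e.1).symm⟩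
            simp [α0, ev2, Matrix.single_apply_of_ne _ _ _ _ _ h']
        · by_cases h : v = 0 ∧ v' = 1
          · obtain ⟨rfl, rfl⟩ := h; simp [α0]
          · refine Eq.trans ?_ (if_neg h).symm
            have h' : ¬ ((Sum.inl 1 : Slot) = Sum.inl v' ∧ (Sum.inl 0 : Slot) = Sum.inl v) :=
              fun e => h ⟨(Sum.inl_injective e.2).symm, (Sum.inl_injective e.1).symm⟩
            simp [α0, ev2, Matrix.single_apply_of_ne _ _ _ _ _ h']
      · show ev2 N ((blockRep D).toLin (Win.arr k 1 g) _ _) y' y = _
        rw [toLin_arr1]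
        rcases g with _ | g
        · by_cases h : v = 1 ∧ v' = 2
          · obtain ⟨rfl, rfl⟩ := h; simp [α1, fV]
          · refine Eq.trans ?_ (if_neg h).symm
            have h' : ¬ ((Sum.inl 2 : Slot) = Sum.inl v' ∧ (Sum.inl 1 : Slot) = Sum.inl v) :=
              fun e => h ⟨(Sum.inl_injective e.2).symm, (Sum.inl_injective e.1).symm⟩
            simp [α1, ev2, Matrix.single_apply_of_ne _ _ _ _ _ h']
        · by_cases h : v = 1 ∧ v' = 2
          · obtain ⟨rfl, rfl⟩ := h
            simp [α1, Matrix.sum_apply]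
          · refine Eq.trans ?_ (if_neg h).symm
            have h' : ¬ ((Sum.inl 2 : Slot) = Sum.inl v' ∧ (Sum.inl 1 : Slot) = Sum.inl v) :=
              fun e => h ⟨(Sum.inl_injective e.2).symm, (Sum.inl_injective e.1).symm⟩
            simp [α1, ev2, Matrix.single_apply_of_ne _ _ _ _ _ h', Matrix.sum_apply]
    refine key.trans ?_
    rw [ev2_fV D N hE]
    by_cases hy : y' = y
    · subst hy
      rw [if_pos rfl, if_pos rfl, compY_arr]
    · rw [if_neg hy, if_neg hy]; simp
  · show ev2 N ((blockRep D).toLin (Win.arr k 1 g * Win.arr k 0 h) _ _) y' y = _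
    rw [toLin_arr_arr]
    by_cases hp : v' = 2 ∧ v = 0
    · obtain ⟨rfl, rfl⟩ := hp
      rw [Matrix.single_apply_same, ev2_comp2 D N hE]
      by_cases hy : y' = y
      · subst hy; rw [if_pos rfl, if_pos rfl, compY_arr_arr, if_pos ⟨rfl, rfl⟩]
      · rw [if_neg hy, if_neg hy]; rfl
    · have h' : ¬ ((Sum.inl 2 : Slot) = Sum.inl v' ∧ (Sum.inl 0 : Slot) = Sum.inl v) :=
        fun e => hp ⟨(Sum.inl_injective e.1).symm, (Sum.inl_injective e.2).symm⟩
      rw [Matrix.single_apply_of_ne _ _ _ _ _ h']
      by_cases hy : y' = y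
      · subst hy; rw [if_pos rfl, compY_arr_arr, if_neg hp]; simp [ev2]
      · rw [if_neg hy]; simp [ev2]

end one

/-- The action on `hat M` by components. -/
theorem hat_smul_apply (b : Win k) (t : N.Hat) (i : Fin 3) :
    (b • t) i = ∑ v, comp N i v b (t v) := by
  rw [N.smul_def]
  conv_lhs => rw [← Finset.univ_sum_single (t : Fin 3 → N.M)]
  rw [map_sum, Finset.sum_apply]
  rfl

/-- One side of the projection. -/
noncomputable def side (y : Bool) (x : FT D N) : (Gy N y).Hat :=
  fun v => piPhi N (toPhi D N x) (v, y)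

theorem side_smul (hE : idem k N.op = 1) (y : Bool) (b : Win k) (x : FT D N) :
    side D N y (b • x) = b • side D N y x := by
  funext v'
  refine Eq.trans ?_ (hat_smul_apply (Gy N y) b (side D N y x) v').symm
  show piPhi N (toPhi D N (b • x)) (v', y) = _
  rw [toPhi_smul, piPhi_blockRep, Fintype.sum_prod_type]
  refine Finset.sum_congr rfl fun v _ => ?_
  rw [Fintype.sum_bool, evLin_eq D N hE, evLin_eq D N hE]
  cases y <;> simp <;> rfl

theorem side_add (y : Bool) (a b : FT D N) :
    side D N y (a + b) = side D N y a + side D N y b := by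
  funext v
  show piPhi N (toPhi D N (a + b)) (v, y) = _
  rw [toPhi_add, map_add]
  rfl

theorem side_supp (y : Bool) (n : ℕ) (hn : n = if y then 1 else 2) (x : FT D N)
    (hx : ∀ i, ((theSetting D).deg i : ℕ) = n → x.1 i = 0) : side D N y x = 0 := by
  funext v
  show piPhi N (toPhi D N x) (v, y) = 0
  rw [toPhi, map_sum, Finset.sum_apply]
  refine Finset.sum_eq_zero fun i _ => ?_
  obtain ⟨⟨⟨s, y'⟩, κ, w⟩, hi⟩ := i
  rw [piPhi_ins]
  rcases s with v' | t
  · rcases κ with κ0 | κ0
    · by_cases hh : v' = v ∧ y' = y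
      · obtain ⟨rfl, rfl⟩ := hh
        by_cases hw : ecount w = 0
        · have h0 := hx ⟨((Sum.inl v', y'), Sum.inl κ0, w), hi⟩ (by
            show cdeg _ = n
            subst hn
            cases y' <;> simp [cdeg, shiftB, kdg, hw])
          rw [h0]
          show (piCell N _) (0 : N.M) (v', y') = 0
          rw [map_zero]; rfl
        · obtain ⟨j, hj⟩ := Nat.exists_eq_succ_of_ne_zero hw
          simp [piCell, augCell, evS_deg_pos N (sW_mem_Deg k hj)]
      · have : ¬ ((v', y') = ((v, y) : Fin 3 × Bool)) := fun e => hh (Prod.mk.injEq .. ▸ e)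
        simp [piCell, Pi.single_apply, Ne.symm this]
    · simp [piCell, augCell]
  · simp [piCell]

theorem side_surj (y : Bool) : Function.Surjective (side D N y) := by
  intro t
  refine ⟨ofPhi D N (secPhi N fun p => if p.2 = y then t p.1 else 0), ?_⟩
  funext v
  show piPhi N (toPhi D N _) (v, y) = _
  rw [toPhi_ofPhi D N (secPhi_bdd D N _), piPhi_secPhi]
  exact if_pos rfl

theorem exact_FT {x : FT D N} (hd : (theSetting D).d N.Hat x = 0)
    (hp : piPhi N (toPhi D N x) = 0) :
    ∃ w : FT D N, piPhi N (toPhi D N w) = 0 ∧ (theSetting D).d N.Hat w = x := by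
  obtain ⟨z, hz, hpz, hdz⟩ := exact_kernel D N (toPhi_mem D N x)
    (by rw [← toPhi_d, hd, toPhi_zero]) hp
  refine ⟨ofPhi D N z, by rw [toPhi_ofPhi D N hz, hpz], toPhi_injective D N ?_⟩
  rw [toPhi_d, toPhi_ofPhi D N hz, hdz]

/-- `e = 1`: the reduction. -/
theorem reduction (hE : idem k N.op = 1) :
    Nonempty ((theSetting D).Reduction N.Hat (Gy N false).Hat (Gy N true).Hat) := by
  have hE1 : evS k N.op (1 - D.e) = 0 := by
    rw [map_sub, map_one, D.ev_e N.op N.sat, hE, sub_self]
  have htwo : ∀ t, twoD D N t = 0 := fun t => by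
    funext p; simp only [twoD, hE1]; split_ifs <;> rfl
  have hpd : ∀ (y : Bool) (x : FT D N), side D N y ((theSetting D).d N.Hat x) = 0 := fun y x => by
    funext v
    show piPhi N (toPhi D N _) (v, y) = 0
    rw [toPhi_d, piPhi_DPhi, htwo]; rfl
  refine ⟨{
    pG := { toFun := side D N false, map_add' := side_add D N false,
            map_smul' := side_smul D N hE false }
    pT := { toFun := side D N true, map_add' := side_add D N true,
            map_smul' := side_smul D N hE true }
    pG_supp := side_supp D N false 2 rfl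
    pT_supp := side_supp D N true 1 rfl
    pG_surj := side_surj D N false
    pT_surj := side_surj D N true
    pG_d := hpd false
    pT_d := hpd true
    exact_ker := fun x hd hg ht => ?_ }⟩
  have hp : piPhi N (toPhi D N x) = 0 := by
    funext p
    obtain ⟨v, _ | _⟩ := p
    · exact congrFun hg v
    · exact congrFun ht v
  obtain ⟨w, hw, hdw⟩ := exact_FT D N hd hp
  exact ⟨w, funext fun v => congrFun hw (v, false), funext fun v => congrFun hw (v, true), hdw⟩

/-- `e = 0`: exactness. -/
theorem acyclic (hE : idem k N.op = 0) : (theSetting D).Acyclic N.Hat := by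
  intro x hd
  have hE1 : evS k N.op (1 - D.e) = 1 := by
    rw [map_sub, map_one, D.ev_e N.op N.sat, hE, sub_zero]
  have h0 : twoD D N (piPhi N (toPhi D N x)) = 0 := by
    rw [← piPhi_DPhi, ← toPhi_d, hd, toPhi_zero, map_zero]
  have hX : ∀ v, piPhi N (toPhi D N x) (v, false) = 0 := fun v => by
    have := congrFun h0 (v, true)
    simpa [twoD, hE1] using this
  let t : Fin 3 × Bool → N.M :=
    fun p => if p.2 then 0 else piPhi N (toPhi D N x) (p.1, true)
  let s : FT D N := ofPhi D N (secPhi N t)
  have hs : piPhi N (toPhi D N ((theSetting D).d N.Hat s)) = piPhi N (toPhi D N x) := by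
    rw [toPhi_d, piPhi_DPhi, toPhi_ofPhi D N (secPhi_bdd D N t), piPhi_secPhi]
    funext p
    obtain ⟨v, _ | _⟩ := p
    · simp [twoD, hX]
    · simp [twoD, hE1, t]
  have hdd : (theSetting D).d N.Hat ((theSetting D).d N.Hat s) = 0 := by
    refine Subtype.ext ?_
    show (theSetting D).mv (theSetting D).D ((theSetting D).mv (theSetting D).D _) = 0
    rw [Setting.mv_mv, Setting.D_sq]
    funext i
    simp [Setting.mv]
  have e : toPhi D N (x - (theSetting D).d N.Hat s) =
      toPhi D N x - toPhi D N ((theSetting D).d N.Hat s) := by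
    refine eq_sub_of_add_eq ?_
    rw [← toPhi_add, sub_add_cancel]
  obtain ⟨w, -, hw⟩ := exact_FT D N (x := x - (theSetting D).d N.Hat s)
    (by rw [map_sub, hd, hdd, sub_zero]) (by rw [e, map_sub, hs, sub_self])
  exact ⟨w + s, by rw [map_add, hw, sub_add_cancel]⟩

end Vale.Agent.P176
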