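import Vale.Agent.P176.Syntax

/-!
P176: the window algebra `Win k`: three vertices, arrows `V` between neighbours, the relations.
-/

namespace Vale.Agent.P176

universe u v

/-- Normal paths of length two. -/
abbrev NF : Type := {p : V × V // IsNormal p}

variable (k : Type u) [Field k]

/-- Coordinates of a path of length two in the normal basis. -/
def nfCoef (p : V × V) (n : NF) : k :=
  (if p = n.1 then 1 else 0) -
    ∑ l : Rel, if lead l = p then ((tailTerms l).map fun x => if x.2 = n.1 then (x.1 : k) else 0).sum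
      else 0

variable {k}

theorem nfCoef_normal {p : V × V} (hp : IsNormal p) (n : NF) :
    nfCoef k p n = if p = n.1 then 1 else 0 := by
  simp [nfCoef, hp _]

theorem nfCoef_rel (l : Rel) (n : NF) :
    ((relTerms l).map fun x => (x.1 : k) * nfCoef k x.2 n).sum = 0 := by
  have h1 : nfCoef k (lead l) n =
      -((tailTerms l).map fun x => if x.2 = n.1 then (x.1 : k) else 0).sum := by
    simp [nfCoef, n.2 l, lead_injective.eq_iff]
  have h2 : ((tailTerms l).map fun x => (x.1 : k) * nfCoef k x.2 n) =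
      (tailTerms l).map fun x => if x.2 = n.1 then (x.1 : k) else 0 := by
    refine List.map_congr_left fun x hx => ?_
    rw [nfCoef_normal (tail_normal l x hx)]
    split_ifs <;> simp
  simp [relTerms, h1, h2]

/-- The product of two arrows-vectors in the normal basis. -/
def arrowMul (x y : V → k) (n : NF) : k := ∑ g, ∑ h, x g * y h * nfCoef k (g, h) n

variable (k)

/-- The window algebra. -/
@[ext]
structure Win where
  c : Fin 3 → k
  a : Fin 2 → V → k
  z : NF → k

namespace Win

variable {k}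

instance : Zero (Win k) := ⟨⟨0, 0, 0⟩⟩
instance : Add (Win k) := ⟨fun x y => ⟨x.c + y.c, x.a + y.a, x.z + y.z⟩⟩
instance : Neg (Win k) := ⟨fun x => ⟨-x.c, -x.a, -x.z⟩⟩
instance : Sub (Win k) := ⟨fun x y => ⟨x.c - y.c, x.a - y.a, x.z - y.z⟩⟩
instance : SMul k (Win k) := ⟨fun r x => ⟨r • x.c, r • x.a, r • x.z⟩⟩
instance : One (Win k) := ⟨⟨1, 0, 0⟩⟩

instance : Mul (Win k) :=
  ⟨fun x y => ⟨x.c * y.c,
    fun v g => x.c v.succ * y.a v g + x.a v g * y.c v.castSucc,
    fun n => x.c 2 * y.z n + x.z n * y.c 0 + arrowMul (x.a 1) (y.a 0) n⟩⟩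

@[simp] theorem zero_c : (0 : Win k).c = 0 := rfl
@[simp] theorem zero_a : (0 : Win k).a = 0 := rfl
@[simp] theorem zero_z : (0 : Win k).z = 0 := rfl
@[simp] theorem one_c : (1 : Win k).c = 1 := rfl
@[simp] theorem one_a : (1 : Win k).a = 0 := rfl
@[simp] theorem one_z : (1 : Win k).z = 0 := rfl
@[simp] theorem add_c (x y : Win k) : (x + y).c = x.c + y.c := rfl
@[simp] theorem add_a (x y : Win k) : (x + y).a = x.a + y.a := rfl
@[simp] theorem add_z (x y : Win k) : (x + y).z = x.z + y.z := rfl
@[simp] theorem neg_c (x : Win k) : (-x).c = -x.c := rfl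
@[simp] theorem neg_a (x : Win k) : (-x).a = -x.a := rfl
@[simp] theorem neg_z (x : Win k) : (-x).z = -x.z := rfl
@[simp] theorem sub_c (x y : Win k) : (x - y).c = x.c - y.c := rfl
@[simp] theorem sub_a (x y : Win k) : (x - y).a = x.a - y.a := rfl
@[simp] theorem sub_z (x y : Win k) : (x - y).z = x.z - y.z := rfl
@[simp] theorem smul_c (r : k) (x : Win k) : (r • x).c = r • x.c := rfl
@[simp] theorem smul_a (r : k) (x : Win k) : (r • x).a = r • x.a := rfl
@[simp] theorem smul_z (r : k) (x : Win k) : (r • x).z = r • x.z := rfl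
@[simp] theorem mul_c (x y : Win k) : (x * y).c = x.c * y.c := rfl
@[simp] theorem mul_a (x y : Win k) (v : Fin 2) (g : V) :
    (x * y).a v g = x.c v.succ * y.a v g + x.a v g * y.c v.castSucc := rfl
@[simp] theorem mul_z (x y : Win k) (n : NF) :
    (x * y).z n = x.c 2 * y.z n + x.z n * y.c 0 + arrowMul (x.a 1) (y.a 0) n := rfl

def toTriple (x : Win k) : (Fin 3 → k) × (Fin 2 → V → k) × (NF → k) := (x.c, x.a, x.z)

omit [Field k] in
theorem toTriple_injective : Function.Injective (toTriple (k := k)) := fun x y h => by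
  simp only [toTriple, Prod.mk.injEq] at h
  exact Win.ext h.1 h.2.1 h.2.2

instance : SMul ℕ (Win k) := ⟨fun r x => ⟨r • x.c, r • x.a, r • x.z⟩⟩
instance : SMul ℤ (Win k) := ⟨fun r x => ⟨r • x.c, r • x.a, r • x.z⟩⟩

instance : AddCommGroup (Win k) :=
  toTriple_injective.addCommGroup toTriple rfl (fun _ _ => rfl) (fun _ => rfl) (fun _ _ => rfl)
    (fun _ _ => rfl) (fun _ _ => rfl)

instance : Module k (Win k) :=
  toTriple_injective.module k ⟨⟨toTriple, rfl⟩, fun _ _ => rfl⟩ fun _ _ => rfl

theorem arrowMul_add_left (x x' y : V → k) (n : NF) :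
    arrowMul (x + x') y n = arrowMul x y n + arrowMul x' y n := by
  simp [arrowMul, add_mul, Finset.sum_add_distrib]

theorem arrowMul_add_right (x y y' : V → k) (n : NF) :
    arrowMul x (y + y') n = arrowMul x y n + arrowMul x y' n := by
  simp [arrowMul, mul_add, add_mul, Finset.sum_add_distrib]

theorem arrowMul_smul_left (r : k) (x y : V → k) (n : NF) :
    arrowMul (fun g => r * x g) y n = r * arrowMul x y n := by
  simp only [arrowMul, Finset.mul_sum]
  exact Finset.sum_congr rfl fun g _ => Finset.sum_congr rfl fun h _ => by ring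

theorem arrowMul_smul_right (r : k) (x y : V → k) (n : NF) :
    arrowMul x (fun g => y g * r) n = arrowMul x y n * r := by
  simp only [arrowMul, Finset.sum_mul]
  exact Finset.sum_congr rfl fun g _ => Finset.sum_congr rfl fun h _ => by ring

theorem arrowMul_zero_left (y : V → k) (n : NF) : arrowMul 0 y n = 0 := by simp [arrowMul]

theorem arrowMul_zero_right (x : V → k) (n : NF) : arrowMul x 0 n = 0 := by simp [arrowMul]

protected theorem mul_assoc' (x y z : Win k) : x * y * z = x * (y * z) := by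
  refine Win.ext ?_ ?_ ?_
  · simp [mul_assoc]
  · funext v g; simp only [mul_a, mul_c, Pi.mul_apply]; ring
  · funext n
    simp only [mul_z, mul_c, Pi.mul_apply]
    have h1 : (x * y).a 1 = (fun g => x.c 2 * y.a 1 g) + fun g => x.a 1 g * y.c 1 := by
      funext g; rfl
    have h2 : (y * z).a 0 = (fun g => y.c 1 * z.a 0 g) + fun g => y.a 0 g * z.c 0 := by
      funext g; rfl
    have h3 : arrowMul (fun g => x.a 1 g * y.c 1) (z.a 0) n =
        arrowMul (x.a 1) (fun g => y.c 1 * z.a 0 g) n :=
      Finset.sum_congr rfl fun g _ => Finset.sum_congr rfl fun h _ => by ring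
    rw [h1, h2, arrowMul_add_left, arrowMul_add_right, arrowMul_smul_left, arrowMul_smul_right, h3]
    ring

instance : Ring (Win k) :=
  { (inferInstance : AddCommGroup (Win k)) with
    mul := (· * ·)
    one := 1
    mul_assoc := Win.mul_assoc'
    one_mul := fun x => by
      refine Win.ext (by simp) (by funext v g; simp) (by funext n; simp [arrowMul_zero_left])
    mul_one := fun x => by
      refine Win.ext (by simp) (by funext v g; simp) (by funext n; simp [arrowMul_zero_right])
    zero_mul := fun x => by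
      refine Win.ext (by simp) (by funext v g; simp) (by funext n; simp [arrowMul_zero_left])
    mul_zero := fun x => by
      refine Win.ext (by simp) (by funext v g; simp) (by funext n; simp [arrowMul_zero_right])
    left_distrib := fun x y z => by
      refine Win.ext ?_ ?_ ?_
      · simp [mul_add]
      · funext v g; simp; ring
      · funext n; simp [arrowMul_add_right]; ring
    right_distrib := fun x y z => by
      refine Win.ext ?_ ?_ ?_
      · simp [add_mul]
      · funext v g; simp; ring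
      · funext n; simp [arrowMul_add_left]; ring }

instance : Algebra k (Win k) :=
  Algebra.ofModule
    (fun r x y => by
      refine Win.ext ?_ ?_ ?_
      · simp
      · funext v g; simp; ring
      · funext n
        have h : (r • x).a 1 = fun g => r * x.a 1 g := rfl
        simp [h, arrowMul_smul_left]; ring)
    (fun r x y => by
      refine Win.ext ?_ ?_ ?_
      · simp
      · funext v g; simp; ring
      · funext n
        have h : (r • y).a 0 = fun g => y.a 0 g * r := funext fun g => mul_comm _ _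
        simp [h, arrowMul_smul_right]; ring)

def toTripleLin : Win k ≃ₗ[k] (Fin 3 → k) × (Fin 2 → V → k) × (NF → k) where
  toFun := toTriple
  invFun t := ⟨t.1, t.2.1, t.2.2⟩
  map_add' _ _ := rfl
  map_smul' _ _ := rfl

instance : Module.Finite k (Win k) := Module.Finite.equiv (toTripleLin (k := k)).symm

variable (k)

/-- The idempotent of a vertex. -/
def vert (i : Fin 3) : Win k := ⟨Pi.single i 1, 0, 0⟩

/-- The element of an arrow. -/
def arr (v : Fin 2) (g : V) : Win k := ⟨0, Pi.single v (Pi.single g 1), 0⟩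

theorem vert_mul_vert (i j : Fin 3) : vert k i * vert k j = if i = j then vert k i else 0 := by
  split_ifs with h
  · subst h
    refine Win.ext ?_ (by funext v g; simp [vert]) (by funext n; simp [vert, arrowMul])
    funext l; by_cases hl : l = i <;> simp [vert, hl]
  · refine Win.ext ?_ (by funext v g; simp [vert]) (by funext n; simp [vert, arrowMul])
    funext l; by_cases hl : l = i
    · subst hl; simp [vert, h]
    · simp [vert, hl]

theorem sum_vert : ∑ i, vert k i = 1 := by
  rw [Fin.sum_univ_three]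
  refine Win.ext ?_ (by simp [vert]) (by simp [vert])
  funext i; fin_cases i <;> simp [vert]

theorem arr_mul_vert (v : Fin 2) (g : V) : arr k v g * vert k v.castSucc = arr k v g := by
  refine Win.ext (by simp [arr, vert]) ?_ (by funext n; simp [arr, vert, arrowMul])
  funext w h
  by_cases hw : w = v
  · subst hw; simp [arr, vert]
  · simp [arr, vert, hw]

theorem vert_mul_arr (v : Fin 2) (g : V) : vert k v.succ * arr k v g = arr k v g := by
  refine Win.ext (by simp [arr, vert]) ?_ (by funext n; simp [arr, vert, arrowMul])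
  funext w h
  by_cases hw : w = v
  · subst hw; simp [arr, vert]
  · simp [arr, vert, hw]

theorem arr_mul_arr (g h : V) :
    arr k 1 g * arr k 0 h = ⟨0, 0, nfCoef k (g, h)⟩ := by
  refine Win.ext (by simp [arr]) (by funext w l; simp [arr]) ?_
  funext n
  simp [arr, arrowMul, Pi.single_apply, ite_mul]

theorem list_sum_z (l : List (Win k)) (n : NF) : l.sum.z n = (l.map fun x => x.z n).sum := by
  induction l with
  | nil => simp
  | cons x l ih => simp [ih]

theorem list_sum_ca (l : List (Win k)) (h : ∀ x ∈ l, x.c = 0 ∧ x.a = 0) :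
    l.sum.c = 0 ∧ l.sum.a = 0 := by
  induction l with
  | nil => simp
  | cons x l ih => simp [ih fun y hy => h y (List.mem_cons_of_mem _ hy), h x List.mem_cons_self]

/-- The relations hold in `Win k`. -/
theorem arr_rel (l : Rel) :
    ((relTerms l).map fun x => (x.1 : ℤ) • (arr k 1 x.2.1 * arr k 0 x.2.2)).sum = 0 := by
  have h := list_sum_ca k ((relTerms l).map fun x => (x.1 : ℤ) • (arr k 1 x.2.1 * arr k 0 x.2.2))
    (fun y hy => by
      obtain ⟨x, -, rfl⟩ := List.mem_map.1 hy
      rw [arr_mul_arr]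
      exact ⟨smul_zero _, smul_zero _⟩)
  refine Win.ext h.1 h.2 ?_
  funext n
  rw [list_sum_z, List.map_map, zero_z, Pi.zero_apply, ← nfCoef_rel l n (k := k)]
  congr 1
  refine List.map_congr_left fun x _ => ?_
  simp only [Function.comp_apply, arr_mul_arr]
  show ((x.1 : ℤ) • nfCoef k x.2) n = _
  simp

end Win

/-- A representation of the window algebra inside an algebra `E` (not nec. unital). -/
structure WinRep (k : Type u) [Field k] (E : Type v) [Ring E] [Algebra k E] where
  e : Fin 3 → E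
  α : Fin 2 → V → E
  e_mul : ∀ i j, e i * e j = if i = j then e i else 0
  e_α : ∀ v g, e v.succ * α v g = α v g
  α_e : ∀ v g, α v g * e v.castSucc = α v g
  rel : ∀ l, ((relTerms l).map fun x => (x.1 : ℤ) • (α 1 x.2.1 * α 0 x.2.2)).sum = 0

namespace WinRep

variable {k : Type u} [Field k] {E : Type v} [Ring E] [Algebra k E] (ρ : WinRep k E)

def A (v : Fin 2) : (V → k) →ₗ[k] E := Fintype.linearCombination k (ρ.α v)

def Z : (NF → k) →ₗ[k] E :=
  Fintype.linearCombination k fun n : NF => ρ.α 1 n.1.1 * ρ.α 0 n.1.2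

/-- The linear extension. -/
def toLin : Win k →ₗ[k] E where
  toFun x := x.c 0 • ρ.e 0 + x.c 1 • ρ.e 1 + x.c 2 • ρ.e 2 +
    (ρ.A 0 (x.a 0) + ρ.A 1 (x.a 1)) + ρ.Z x.z
  map_add' x y := by simp [add_smul]; abel
  map_smul' r x := by simp [smul_add, mul_smul]

theorem e_A (i : Fin 3) (v : Fin 2) (x : V → k) :
    ρ.e i * ρ.A v x = if i = v.succ then ρ.A v x else 0 := by
  simp only [A, Fintype.linearCombination_apply, Finset.mul_sum, mul_smul_comm]
  split_ifs with h
  · subst h; simp [ρ.e_α]
  · refine Finset.sum_eq_zero fun g _ => ?_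
    rw [← ρ.e_α, ← mul_assoc, ρ.e_mul]; simp [h]

theorem A_e (i : Fin 3) (v : Fin 2) (x : V → k) :
    ρ.A v x * ρ.e i = if i = v.castSucc then ρ.A v x else 0 := by
  simp only [A, Fintype.linearCombination_apply, Finset.sum_mul, smul_mul_assoc]
  split_ifs with h
  · subst h; simp [ρ.α_e]
  · refine Finset.sum_eq_zero fun g _ => ?_
    rw [← ρ.α_e, mul_assoc, ρ.e_mul]; simp [Ne.symm h]

theorem α_mul_α (g h : V) :
    ρ.α 1 g * ρ.α 0 h = ρ.Z (nfCoef k (g, h)) := by
  have hn : ∀ p : NF, ρ.Z (nfCoef k p.1) = ρ.α 1 p.1.1 * ρ.α 0 p.1.2 := fun p => by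
    have : nfCoef k p.1 = Pi.single p 1 := funext fun n => by
      rw [nfCoef_normal p.2]
      simp [Pi.single_apply, Subtype.ext_iff, eq_comm]
    rw [this]; simp [Z]
  by_cases hp : IsNormal (g, h)
  · exact (hn ⟨(g, h), hp⟩).symm
  · obtain ⟨l, hl⟩ : ∃ l, lead l = (g, h) := not_forall_not.1 hp
    have h1 := ρ.rel l
    have h2 : ((relTerms l).map fun x => (x.1 : ℤ) • ρ.Z (nfCoef k x.2)).sum = 0 := by
      have h3 : ((relTerms l).map fun x => (x.1 : ℤ) • nfCoef k x.2).sum = (0 : NF → k) := by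
        funext n
        rw [Pi.list_sum_apply, List.map_map, Pi.zero_apply, ← nfCoef_rel l n (k := k)]
        congr 1
        refine List.map_congr_left fun x _ => ?_
        simp
      have := congrArg ρ.Z h3
      rw [map_list_sum, map_zero, List.map_map] at this
      simpa only [Function.comp_def, map_zsmul] using this
    have htail : ((tailTerms l).map fun x => (x.1 : ℤ) • ρ.Z (nfCoef k x.2)) =
        (tailTerms l).map fun x => (x.1 : ℤ) • (ρ.α 1 x.2.1 * ρ.α 0 x.2.2) :=
      List.map_congr_left fun x hx => by rw [hn ⟨x.2, tail_normal l x hx⟩]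
    simp only [relTerms, List.map_cons, List.sum_cons, one_smul] at h1 h2
    rw [htail, ← h1, hl] at h2
    exact ((add_left_inj _).1 h2).symm

theorem A_A (x y : V → k) : ρ.A 1 x * ρ.A 0 y = ρ.Z (arrowMul x y) := by
  have h : arrowMul x y = ∑ g, ∑ h, (x g * y h) • nfCoef k (g, h) := by
    funext n; simp [arrowMul]
  rw [h, map_sum]
  simp only [A, Fintype.linearCombination_apply, Finset.sum_mul, map_sum]
  refine Finset.sum_congr rfl fun a _ => ?_
  rw [Finset.mul_sum]
  refine Finset.sum_congr rfl fun b _ => ?_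
  rw [map_smul, smul_mul_smul_comm, ρ.α_mul_α]

theorem A_A_zero (v w : Fin 2) (x y : V → k) (h : ¬ (v = 1 ∧ w = 0)) :
    ρ.A v x * ρ.A w y = 0 := by
  have h' : v.castSucc ≠ w.succ := by revert v w; decide
  calc ρ.A v x * ρ.A w y = (ρ.A v x * ρ.e v.castSucc) * (ρ.e w.succ * ρ.A w y) := by
        simp [ρ.A_e, ρ.e_A]
    _ = ρ.A v x * (ρ.e v.castSucc * ρ.e w.succ) * ρ.A w y := by simp [mul_assoc]
    _ = 0 := by simp [ρ.e_mul, h']

theorem e_Z (i : Fin 3) (z : NF → k) : ρ.e i * ρ.Z z = if i = 2 then ρ.Z z else 0 := by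
  simp only [Z, Fintype.linearCombination_apply, Finset.mul_sum, mul_smul_comm]
  split_ifs with h
  · subst h
    refine Finset.sum_congr rfl fun n _ => ?_
    rw [← mul_assoc]; exact congrArg (fun y => z n • (y * _)) (ρ.e_α 1 _)
  · refine Finset.sum_eq_zero fun n _ => ?_
    rw [← ρ.e_α 1, ← mul_assoc, ← mul_assoc, ρ.e_mul]; simp [h]

theorem Z_e (i : Fin 3) (z : NF → k) : ρ.Z z * ρ.e i = if i = 0 then ρ.Z z else 0 := by
  simp only [Z, Fintype.linearCombination_apply, Finset.sum_mul, smul_mul_assoc]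
  split_ifs with h
  · subst h
    refine Finset.sum_congr rfl fun n _ => ?_
    rw [mul_assoc]; exact congrArg (fun y => z n • (_ * y)) (ρ.α_e 0 _)
  · refine Finset.sum_eq_zero fun n _ => ?_
    rw [← ρ.α_e 0, mul_assoc, mul_assoc, ρ.e_mul]; simp [Ne.symm h]

theorem A_Z (v : Fin 2) (x : V → k) (z : NF → k) : ρ.A v x * ρ.Z z = 0 := by
  calc ρ.A v x * ρ.Z z = (ρ.A v x * ρ.e v.castSucc) * ρ.Z z := by simp [ρ.A_e]
    _ = 0 := by
      rw [mul_assoc, ρ.e_Z]
      fin_cases v <;> simp

theorem Z_A (v : Fin 2) (x : V → k) (z : NF → k) : ρ.Z z * ρ.A v x = 0 := by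
  calc ρ.Z z * ρ.A v x = ρ.Z z * (ρ.e v.succ * ρ.A v x) := by simp [ρ.e_A]
    _ = 0 := by rw [← mul_assoc, ρ.Z_e]; simp [Fin.succ_ne_zero]

theorem Z_Z (z z' : NF → k) : ρ.Z z * ρ.Z z' = 0 := by
  calc ρ.Z z * ρ.Z z' = (ρ.Z z * ρ.e 0) * (ρ.e 2 * ρ.Z z') := by simp [ρ.e_Z, ρ.Z_e]
    _ = ρ.Z z * (ρ.e 0 * ρ.e 2) * ρ.Z z' := by simp [mul_assoc]
    _ = 0 := by simp [ρ.e_mul]

theorem toLin_mul (x y : Win k) : ρ.toLin (x * y) = ρ.toLin x * ρ.toLin y := by
  have ha0 : (x * y).a 0 = x.c 1 • y.a 0 + y.c 0 • x.a 0 := by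
    funext g; simp [mul_comm]
  have ha1 : (x * y).a 1 = x.c 2 • y.a 1 + y.c 1 • x.a 1 := by
    funext g; simp [mul_comm]
  have hz : (x * y).z = x.c 2 • y.z + y.c 0 • x.z + arrowMul (x.a 1) (y.a 0) := by
    funext n; simp [mul_comm]
  simp only [toLin, LinearMap.coe_mk, AddHom.coe_mk, ha0, ha1, hz, map_add, map_smul, mul_add,
    add_mul, smul_mul_assoc, mul_smul_comm, ρ.e_mul, ρ.e_A, ρ.A_e, ρ.e_Z, ρ.Z_e, ρ.A_Z, ρ.Z_A,
    ρ.Z_Z, ρ.A_A, Win.mul_c, Pi.mul_apply, ρ.A_A_zero 0 0 _ _ (by decide),
    ρ.A_A_zero 0 1 _ _ (by decide), ρ.A_A_zero 1 1 _ _ (by decide)]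
  simp [smul_smul, mul_comm]
  abel

theorem toLin_one : ρ.toLin 1 = ρ.e 0 + ρ.e 1 + ρ.e 2 := by simp [toLin]

theorem toLin_vert (i : Fin 3) : ρ.toLin (Win.vert k i) = ρ.e i := by
  fin_cases i <;> simp [toLin, Win.vert]

theorem toLin_arr (v : Fin 2) (g : V) : ρ.toLin (Win.arr k v g) = ρ.α v g := by
  fin_cases v <;> simp [toLin, Win.arr, A]

/-- Unital case. -/
def toRingHom (h : ρ.e 0 + ρ.e 1 + ρ.e 2 = 1) : Win k →+* E where
  toFun := ρ.toLin
  map_one' := by rw [ρ.toLin_one, h]
  map_mul' := ρ.toLin_mul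
  map_zero' := map_zero _
  map_add' := map_add _

end WinRep

end Vale.Agent.P176
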